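import Vale.Agent.P159.H191.Ct4

/-!
P159 (helper191), module CUT (6): the path with a general plateau function `pl`.

`TP l pl μ p q θ H = (1 - θ a0) (H - m_p H) + θ (m_q H - m_p H) (pl (· - q) - chi (· - q))`,
`YP = smr w (TP ..)`, linear in `H`.

* `YP_zero` : `θ = 0` gives `H - const`;
* `YP_one` : `θ = 1` gives `dcs H + plp H`;
* `YP_near`, `YP_supp` : the pieces.
-/

set_option linter.unusedSectionVars false

open Finset

namespace Vale.Agent.P159.H191

open Vale.Agent.P159.TM.Spec (V)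
open Vale.Agent.P159.H817 (sz gr GB gr_eq eb U U_one U_zero U_nonneg U_le_one abs_U sz_add_le
  sz_sub_comm sz_zero)

noncomputable section

variable {N l : ℕ} [NeZero N]

/-- a plateau around the second core -/
structure Plt (l : ℕ) (pl : V N → ℝ) (p q : V N) : Prop where
  one : ∀ z, sz z ≤ 18 * l → pl z = 1
  zero : ∀ x, sz (x - p) ≤ 19 * l → pl (x - q) = 0

/-- the field which is removed -/
def hp (l : ℕ) (pl μ : V N → ℝ) (p q : V N) (H : V N → ℝ) (x : V N) : ℝ :=
  a0 l p q x * (H x - mn μ p H) - (mn μ q H - mn μ p H) * (pl (x - q) - chi l (x - q))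

/-- the partially cut field -/
def TP (l : ℕ) (pl μ : V N → ℝ) (p q : V N) (θ : V N → ℝ) (H : V N → ℝ) (x : V N) : ℝ :=
  (1 - θ x * a0 l p q x) * (H x - mn μ p H) +
    θ x * (mn μ q H - mn μ p H) * (pl (x - q) - chi l (x - q))

/-- the smeared path -/
def YP (l : ℕ) (pl μ w : V N → ℝ) (p q : V N) (θ : V N → ℝ) (H : V N → ℝ) : V N → ℝ :=
  smr w (TP l pl μ p q θ) H

/-- the plateau at the second core -/
def plp (pl μ w : V N → ℝ) (p q : V N) (H : V N → ℝ) (x : V N) : ℝ :=
  ∑ v, w v * ((mn μ (q + v) H - mn μ (p + v) H) * pl (x - v - q))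

/-- the constant at the start of the path -/
def cst0 (μ w : V N → ℝ) (p : V N) (H : V N → ℝ) : ℝ := ∑ v, w v * mn μ (p + v) H

lemma TP_eq (pl μ : V N → ℝ) (p q : V N) (θ H : V N → ℝ) (x : V N) :
    TP l pl μ p q θ H x = H x - mn μ p H - θ x * hp l pl μ p q H x := by
  unfold TP hp
  ring

/-- the field which is removed, smeared -/
def hps (l : ℕ) (pl μ w : V N → ℝ) (p q : V N) (ψ : V N → ℝ) (H : V N → ℝ) (x : V N) : ℝ :=
  ∑ v, w v * (ψ (x - v) * hp l pl μ p q (fun y => H (y + v)) (x - v))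

lemma YP_eq {w : V N → ℝ} {s : ℕ} (hw : Wts w s) (pl μ : V N → ℝ) (p q : V N) (θ H : V N → ℝ)
    (x : V N) :
    YP l pl μ w p q θ H x = H x - cst0 μ w p H - hps l pl μ w p q θ H x := by
  unfold YP smr cst0 hps
  have h1 : ∀ v, w v * TP l pl μ p q θ (fun y => H (y + v)) (x - v) =
      w v * H x - w v * mn μ (p + v) H -
        w v * (θ (x - v) * hp l pl μ p q (fun y => H (y + v)) (x - v)) := by
    intro v
    rw [TP_eq]
    simp only [mn_shift, sub_add_cancel]
    ring
  simp only [h1]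
  rw [Finset.sum_sub_distrib, Finset.sum_sub_distrib, ← Finset.sum_mul, hw.one, one_mul]

/-- the start of the path: `H` up to a constant -/
theorem YP_zero {w : V N → ℝ} {s : ℕ} (hw : Wts w s) (pl μ : V N → ℝ) (p q : V N)
    {θ : V N → ℝ} (hθ : ∀ x, θ x = 0) (H : V N → ℝ) (x : V N) :
    YP l pl μ w p q θ H x = H x - cst0 μ w p H := by
  rw [YP_eq hw]
  unfold hps
  simp only [hθ, zero_mul, mul_zero, Finset.sum_const_zero, sub_zero]

/-- **the end of the path**: decorations and plateau -/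
theorem YP_one (pl μ w : V N → ℝ) (p q : V N) {θ : V N → ℝ} (hθ : ∀ x, θ x = 1)
    (H : V N → ℝ) (x : V N) :
    YP l pl μ w p q θ H x = dcs l μ w p q H x + plp pl μ w p q H x := by
  unfold YP dcs plp smr
  rw [← Finset.sum_add_distrib]
  refine Finset.sum_congr rfl fun v _ => ?_
  unfold TP a0
  simp only [hθ, mn_shift, sub_add_cancel]
  ring

lemma YP_congr (pl μ w : V N → ℝ) (p q : V N) {θ θ' : V N → ℝ} (h : ∀ x, θ x = θ' x)
    (H : V N → ℝ) : YP l pl μ w p q θ H = YP l pl μ w p q θ' H := by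
  rw [funext h]

/-! ### linearity -/

lemma hp_add (pl μ : V N → ℝ) (p q : V N) (H K : V N → ℝ) (x : V N) :
    hp l pl μ p q (fun y => H y + K y) x = hp l pl μ p q H x + hp l pl μ p q K x := by
  unfold hp
  rw [mn_add, mn_add]
  ring

lemma hp_smul (pl μ : V N → ℝ) (p q : V N) (c : ℝ) (H : V N → ℝ) (x : V N) :
    hp l pl μ p q (fun y => c * H y) x = c * hp l pl μ p q H x := by
  unfold hp
  rw [mn_smul, mn_smul]
  ring

lemma TP_add (pl μ : V N → ℝ) (p q : V N) (θ H K : V N → ℝ) (x : V N) :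
    TP l pl μ p q θ (fun y => H y + K y) x =
      TP l pl μ p q θ H x + TP l pl μ p q θ K x := by
  unfold TP
  rw [mn_add, mn_add]
  ring

lemma TP_smul (pl μ : V N → ℝ) (p q : V N) (θ : V N → ℝ) (c : ℝ) (H : V N → ℝ) (x : V N) :
    TP l pl μ p q θ (fun y => c * H y) x = c * TP l pl μ p q θ H x := by
  unfold TP
  rw [mn_smul, mn_smul]
  ring

/-- constants are killed -/
lemma TP_const {μ : V N → ℝ} (hμ : ∑ z, μ z = 1) (pl : V N → ℝ) (p q : V N) (θ : V N → ℝ)
    (c : ℝ) (x : V N) : TP l pl μ p q θ (fun _ => c) x = 0 := by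
  unfold TP
  rw [mn_const hμ, mn_const hμ]
  ring

lemma YP_add (pl μ w : V N → ℝ) (p q : V N) (θ H K : V N → ℝ) :
    YP l pl μ w p q θ (fun y => H y + K y) =
      YP l pl μ w p q θ H + YP l pl μ w p q θ K := by
  funext x
  unfold YP smr
  rw [Pi.add_apply, ← Finset.sum_add_distrib]
  refine Finset.sum_congr rfl fun v _ => ?_
  rw [TP_add]
  ring

lemma YP_smul (pl μ w : V N → ℝ) (p q : V N) (θ : V N → ℝ) (c : ℝ) (H : V N → ℝ) :
    YP l pl μ w p q θ (fun y => c * H y) = c • YP l pl μ w p q θ H := by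
  funext x
  unfold YP smr
  rw [Pi.smul_apply, smul_eq_mul, Finset.mul_sum]
  refine Finset.sum_congr rfl fun v _ => ?_
  rw [TP_smul]
  ring

lemma YP_const {μ : V N → ℝ} (hμ : ∑ z, μ z = 1) (pl w : V N → ℝ) (p q : V N) (θ : V N → ℝ)
    (c : ℝ) : YP l pl μ w p q θ (fun _ => c) = 0 := by
  funext x
  unfold YP smr
  exact Finset.sum_eq_zero fun v _ => by rw [TP_const hμ, mul_zero]

/-! ### the pieces -/

lemma YP_sub (pl μ w : V N → ℝ) (p q : V N) {θ θ' ψ : V N → ℝ} (hθ : ∀ x, θ' x = θ x + ψ x)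
    (H : V N → ℝ) (x : V N) :
    YP l pl μ w p q θ H x - YP l pl μ w p q θ' H x = hps l pl μ w p q ψ H x := by
  unfold YP smr hps
  rw [← Finset.sum_sub_distrib]
  refine Finset.sum_congr rfl fun v _ => ?_
  rw [TP_eq, TP_eq, hθ]
  ring

/-- the removed field vanishes near the cores -/
lemma hp_near (hl : 0 < l) {pl : V N → ℝ} {p q : V N} (hP : Plt l pl p q)
    (hpq : 60 * l ≤ sz (q - p)) (μ H : V N → ℝ)
    {x : V N} (hx : sz (x - p) ≤ 18 * l ∨ sz (x - q) ≤ 18 * l) : hp l pl μ p q H x = 0 := by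
  have h1 := sz_add_le (q - x) (x - p)
  rw [sub_add_sub_cancel, sz_sub_comm q x] at h1
  rcases hx with hx | hx
  · have e1 : chi l (x - p) = 1 := U_one (by omega) hx
    have e2 : chi l (x - q) = 0 := U_zero (by omega)
    have e3 : pl (x - q) = 0 := hP.zero x (by omega)
    unfold hp a0
    rw [e1, e2, e3]
    ring
  · have e1 : chi l (x - q) = 1 := U_one (by omega) hx
    have e2 : chi l (x - p) = 0 := U_zero (by omega)
    have e3 : pl (x - q) = 1 := hP.one _ hx
    unfold hp a0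
    rw [e1, e2, e3]
    ring

/-- **no piece near the cores** -/
theorem YP_near (hl : 0 < l) (w : V N → ℝ) {pl : V N → ℝ} {p q : V N} (hP : Plt l pl p q)
    (hpq : 60 * l ≤ sz (q - p)) (μ : V N → ℝ) {θ θ' ψ : V N → ℝ} (hθ : ∀ x, θ' x = θ x + ψ x)
    {c : V N} (hψ : ∀ x, l < sz (x - c) → ψ x = 0)
    (hc : sz (c - p) ≤ 17 * l ∨ sz (c - q) ≤ 17 * l) (H : V N → ℝ) :
    YP l pl μ w p q θ' H = YP l pl μ w p q θ H := by
  funext x
  have h0 := YP_sub (l := l) pl μ w p q hθ H x
  have h1 : hps l pl μ w p q ψ H x = 0 := by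
    unfold hps
    refine Finset.sum_eq_zero fun v _ => ?_
    by_cases h : l < sz (x - v - c)
    · rw [hψ _ h, zero_mul, mul_zero]
    · rw [hp_near hl hP hpq, mul_zero, mul_zero]
      rcases hc with hc | hc
      · left
        have h3 := sz_add_le (x - v - c) (c - p)
        rw [sub_add_sub_cancel] at h3
        omega
      · right
        have h3 := sz_add_le (x - v - c) (c - q)
        rw [sub_add_sub_cancel] at h3
        omega
  rw [h1] at h0
  linarith

/-- **the support of a piece** -/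
theorem hps_supp {w : V N → ℝ} {s : ℕ} (hw : Wts w s) (hs : s ≤ l) (pl μ : V N → ℝ)
    (p q : V N) {ψ : V N → ℝ} {c : V N}
    (hψ : ∀ x, l < sz (x - c) → ψ x = 0) (H : V N → ℝ) {x : V N} (hx : 2 * l < sz (x - c)) :
    hps l pl μ w p q ψ H x = 0 := by
  unfold hps
  refine Finset.sum_eq_zero fun v _ => ?_
  by_cases hv : w v = 0
  · rw [hv, zero_mul]
  · have h1 := hw.sup v hv
    have h2 := sz_add_le (x - v - c) v
    have e : x - v - c + v = x - c := by ring
    rw [e] at h2
    rw [hψ _ (by omega), zero_mul, mul_zero]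

theorem YP_supp {w : V N → ℝ} {s : ℕ} (hw : Wts w s) (hs : s ≤ l) (pl μ : V N → ℝ) (p q : V N)
    {θ θ' ψ : V N → ℝ} (hθ : ∀ x, θ' x = θ x + ψ x) {c : V N}
    (hψ : ∀ x, l < sz (x - c) → ψ x = 0) (H : V N → ℝ) {x : V N} (hx : 2 * l < sz (x - c)) :
    YP l pl μ w p q θ H x - YP l pl μ w p q θ' H x = 0 := by
  rw [YP_sub (l := l) pl μ w p q hθ H x]
  exact hps_supp hw hs pl μ p q hψ H hx

/-- near the cores the decorated field is the field itself, up to a constant -/
lemma dcs_near (hl : 0 < l) {w : V N → ℝ} {s : ℕ} (hw : Wts w s) (hs : s ≤ l) {p q : V N}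
    (hpq : 60 * l ≤ sz (q - p)) (μ H : V N → ℝ) {x : V N} :
    (sz (x - p) ≤ 17 * l → dcs l μ w p q H x = H x - cst0 μ w p H) ∧
    (sz (x - q) ≤ 17 * l → dcs l μ w p q H x = H x - cst0 μ w q H) := by
  have key : ∀ c c' : V N, 60 * l ≤ sz (c' - c) → sz (x - c) ≤ 17 * l → ∀ v, w v ≠ 0 →
      chi l (x - v - c) = 1 ∧ chi l (x - v - c') = 0 := by
    intro c c' hc hx v hv
    have h1 := hw.sup v hv
    have h2 := sz_add_le (x - c) (-v)
    have e : x - c + -v = x - v - c := by ring
    rw [e, H817.sz_neg] at h2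
    have h3 := sz_add_le (c' - (x - v)) (x - v - c)
    have e2 : c' - (x - v) + (x - v - c) = c' - c := by ring
    rw [e2, sz_sub_comm c' (x - v)] at h3
    exact ⟨U_one (by omega) (by omega), U_zero (by omega)⟩
  have hsum : ∀ (f : V N → ℝ), (∀ v, w v ≠ 0 → f v = 0) → ∑ v, w v * f v = 0 := fun f hf =>
    Finset.sum_eq_zero fun v _ => by
      by_cases hv : w v = 0
      · rw [hv, zero_mul]
      · rw [hf v hv, mul_zero]
  constructor
  · intro hx
    have h := hsum (fun v => (chi l (x - v - p) * (H x - mn μ (p + v) H) +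
      chi l (x - v - q) * (H x - mn μ (q + v) H)) - (H x - mn μ (p + v) H)) (fun v hv => by
        obtain ⟨a, b⟩ := key p q hpq hx v hv
        rw [a, b]
        ring)
    unfold dcs cst0
    have e : ∑ v, w v * ((chi l (x - v - p) * (H x - mn μ (p + v) H) +
        chi l (x - v - q) * (H x - mn μ (q + v) H)) - (H x - mn μ (p + v) H)) =
        (∑ v, w v * (chi l (x - v - p) * (H x - mn μ (p + v) H) +
        chi l (x - v - q) * (H x - mn μ (q + v) H))) - ((∑ v, w v) * H x -
          ∑ v, w v * mn μ (p + v) H) := by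
      rw [Finset.sum_mul, ← Finset.sum_sub_distrib, ← Finset.sum_sub_distrib]
      exact Finset.sum_congr rfl fun v _ => by ring
    rw [e, hw.one, one_mul] at h
    linarith
  · intro hx
    have h := hsum (fun v => (chi l (x - v - p) * (H x - mn μ (p + v) H) +
      chi l (x - v - q) * (H x - mn μ (q + v) H)) - (H x - mn μ (q + v) H)) (fun v hv => by
        obtain ⟨a, b⟩ := key q p (by rw [sz_sub_comm]; exact hpq) hx v hv
        rw [a, b]
        ring)
    unfold dcs cst0
    have e : ∑ v, w v * ((chi l (x - v - p) * (H x - mn μ (p + v) H) +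
        chi l (x - v - q) * (H x - mn μ (q + v) H)) - (H x - mn μ (q + v) H)) =
        (∑ v, w v * (chi l (x - v - p) * (H x - mn μ (p + v) H) +
        chi l (x - v - q) * (H x - mn μ (q + v) H))) - ((∑ v, w v) * H x -
          ∑ v, w v * mn μ (q + v) H) := by
      rw [Finset.sum_mul, ← Finset.sum_sub_distrib, ← Finset.sum_sub_distrib]
      exact Finset.sum_congr rfl fun v _ => by ring
    rw [e, hw.one, one_mul] at h
    linarith

/-- the decorations live near the cores -/
lemma dcs_far {w : V N → ℝ} {s : ℕ} (hw : Wts w s) (μ H : V N → ℝ) {p q x : V N}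
    (hp : 20 * l + s ≤ sz (x - p)) (hq : 20 * l + s ≤ sz (x - q)) :
    dcs l μ w p q H x = 0 := by
  unfold dcs
  refine Finset.sum_eq_zero fun v _ => ?_
  by_cases hv : w v = 0
  · rw [hv, zero_mul]
  · have h1 := hw.sup v hv
    have key : ∀ c : V N, 20 * l + s ≤ sz (x - c) → chi l (x - v - c) = 0 := by
      intro c hc
      have h2 := sz_add_le (x - v - c) v
      have e : x - v - c + v = x - c := by ring
      rw [e] at h2
      exact U_zero (by omega)
    rw [key p hp, key q hq]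
    ring

end

end Vale.Agent.P159.H191
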