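import Vale.Agent.P159.H191.Ct13
import Vale.Agent.P159.H446.Cut8
import Vale.Agent.P159.H145.Spc5

/-!
P159 (helper191), module CUT (14): **the field `cut` of the pairs**, from helper446's `cut_ev`, the
nodes `nd_ev` and the cross terms `E4W` (helper883).
-/

set_option linter.unusedSectionVars false

namespace Vale.Agent.P159.H191.Cf

open Finset Filter Topology MeasureTheory
open Vale.Agent.P159.H37.Sf (kf kE1 Win)
open Vale.Agent.P159.H145.Sp (AxP lC muK gC kapF qF CutP Four)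
open Vale.Agent.P159.H773 (sd)
open Vale.Agent.P159.H770 (Ed)
open Vale.Agent.P159.H972 (tn Par)
open Vale.Agent.P159.H801 (SFlow)
open Vale.Agent.P159.TM
open Vale.Agent.P159.TM.Spec (V)

noncomputable section

/-- **THE FIELD `cut` ALONG THE FLOW** (helper145's `CutW`, unfolded) from the cross terms -/
theorem cutW_ev {b b1 b2 pf : ℝ} (hb1 : 0 < b1) (h1 : b1 ≤ b) (hpf : 0 < pf)
    (hA6 : Spec.ThmA6 b1 b2 (5 / 2)) (Q : ℕ)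
    (hE : Vale.Agent.P159.H801.Ev b1 b2 pf Q fun P c1 =>
      ∀ {σ c q2 qx : ℝ} {a y ε xs : ℕ → ℝ} {c' r q A : ℝ} {N : ℕ},
      SFlow P b σ c c1 q2 qx a y ε xs c' r q A N → 0 ≤ σ → σ ≤ 1 / 6 →
      ∀ (β C2 A0 : ℝ) (Am : ℕ), ∃ i0 : ℕ, ∀ i, i0 ≤ i →
      ∀ (η : ∀ R, Ed (sd i R) → ℤ) (φ : ∀ R, V (sd i R) → ℝ), AxP i η φ →
        E4W P b β C2 A0 Am i (P.thp / 4) c1 a y ε η φ) :
    Vale.Agent.P159.H801.Ev b1 b2 pf Q fun P c1 =>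
      ∀ {σ c q2 qx : ℝ} {a y ε xs : ℕ → ℝ} {c' r q A : ℝ} {N : ℕ},
      SFlow P b σ c c1 q2 qx a y ε xs c' r q A N → 0 ≤ σ → σ ≤ 1 / 6 → 0 ≤ c → c < 3 / 16 →
      ∀ c4 : ℝ, c4 ≤ 1 / 16 →
      ∀ (β C2 A0 : ℝ) (Am : ℕ), 1 / 4 ≤ β → β < 1 / 2 → 1 ≤ C2 → 1 ≤ Am →
      ∃ i0 : ℕ, ∀ i, i0 ≤ i → A0 ≤ 2 ^ i →
      ∀ (η : ∀ R, Ed (sd i R) → ℤ) (φ : ∀ R, V (sd i R) → ℝ), AxP i η φ →
        Four P b β C2 A0 Am i c1 a y ε η φ →
        Win P b β C2 A0 Am i (P.thp / 4) a y ε fun n R =>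
          CutP b i η φ (tn n) n (kf (P.thp / 4) y n) (qF c1 y n) R
            (muK (sd i R) (lC n (kf (P.thp / 4) y n)) (kapF (P.thp / 4) y n))
            (gC i n (kE1 P (P.thp / 4) y ε n) R) (Real.exp (-(4 * y n ^ (-(c1 / 2)))))
            (y n ^ (1 + c4) / 16) := by
  refine ((hE.and (nd_ev (b2 := b2) hb1 h1 hpf hA6 Q)).and
    ((H446.Pr.cut_ev (b2 := b2) hb1 h1 hpf Q).and (H37.Sf.ev_cS b1 b2 pf Q))).mono
    fun P c1 hA hT => ?_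
  obtain ⟨⟨g1, g2⟩, g3, hc0, -, hthp0, -, hth0, h4096, -⟩ := hT
  intro σ c q2 qx a y ε xs c' r q A N h hσ0 hσ6 hcc hcc3 c4 hc4 β C2 A0 Am hβ hβ2 hC2 hAm
  obtain ⟨i1, k1⟩ := g1 h hσ0 hσ6 β C2 A0 Am
  obtain ⟨i2, k2⟩ := g3 h hσ0 hσ6 (P.thp / 4) (by linarith) (by linarith) (by linarith) c4 hc4
    β C2 A0 Am hβ hβ2 hC2 hAm
  refine ⟨max (max i1 i2) 6, fun i hi hA0 η φ hx hF => ?_⟩
  have j1 : i1 ≤ i := ((le_max_left _ _).trans (le_max_left _ _)).trans hi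
  have j2 : i2 ≤ i := ((le_max_right _ _).trans (le_max_left _ _)).trans hi
  have j6 : 6 ≤ i := (le_max_right _ _).trans hi
  have hDel := hF.del (c1 / 2 / 2) (by linarith)
  refine k2 i j2 η φ hx EvC hDel ?_
  exact g2 h hσ0 hσ6 hcc hcc3 (P.thp / 4) (by linarith) (by linarith) β C2 A0 Am (by linarith)
    (by linarith) hC2 hAm i j6 hA0 η φ hx hDel (k1 i j1 η φ hx)

end

end Vale.Agent.P159.H191.Cf
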