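import Vale.Agent.P159.H191.Ct12
import Vale.Agent.P159.H145.Spc4
import Vale.Agent.P159.H37.Lq6

/-!
P159 (helper191), module CUT (13): **the nodes of CUT in the letters of the final instance**
(`qF c1 y n`, `kapF ck y n`, `c3 = c1 / 2`, `y ^ (9 / 8)`, `Ev = EvC`), in the order of constants.

* `E4W` : the cross term (input, helper883);
* **`nd_ev`** : helper446's `NdW` from the energy number and `E4W`.
-/

set_option linter.unusedSectionVars false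

namespace Vale.Agent.P159.H191.Cf

open Finset Filter Topology MeasureTheory
open Vale.Agent.P159.H191
open Vale.Agent.P159.H446.Pr (Om NdP)
open Vale.Agent.P159.H37.Sf (kf kE1 Win)
open Vale.Agent.P159.H145.Sp (AxP lC lR muK wB gC kapF qF sF scF scF_le)
open Vale.Agent.P159.H773 (sd nuF)
open Vale.Agent.P159.H770 (Ed wTD)
open Vale.Agent.P159.H972 (lg tn Par)
open Vale.Agent.P159.H801 (SFlow itw)
open Vale.Agent.P159.H856.Dl (Del)
open Vale.Agent.P159.TM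
open Vale.Agent.P159.TM.Spec (V)

noncomputable section

/-- the weights of the mean -/
lemma mu_kapF' (ck : ℝ) (y : ℕ → ℝ) {n : ℕ} (hn : 2 ≤ n) (i R : ℕ) :
    (∀ z, 0 ≤ muK (sd i R) (lC n (kf ck y n)) (kapF ck y n) z) ∧
      ∑ z, muK (sd i R) (lC n (kf ck y n)) (kapF ck y n) z = 1 := by
  have h1 : 4 ≤ lC n (kf ck y n) := by
    unfold H145.Sp.lC
    calc 4 = 2 ^ 2 := by norm_num
      _ ≤ _ := Nat.pow_le_pow_right (by norm_num) (by omega)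
  have h2 := H663.Dr.wts_kT (N := sd i R) (h := lC n (kf ck y n) / 4) (ρ := lC n (kf ck y n))
    (by omega) (by omega)
  exact ⟨h2.nn, h2.one⟩

/-- **the cross terms of the pieces of the path** along the flow (input) -/
def E4W (P : Par) (b β C2 A0 : ℝ) (Am i : ℕ) (ck c1 : ℝ) (a y ε : ℕ → ℝ)
    (η : ∀ R, Ed (sd i R) → ℤ) (φ : ∀ R, V (sd i R) → ℝ) : Prop :=
  Win P b β C2 A0 Am i ck a y ε fun n R =>
    E4P b (tn n) i n (kf ck y n) (qF c1 y n) R η φ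
      (muK (sd i R) (lC n (kf ck y n)) (kapF ck y n)) (gC i n (kE1 P ck y ε n) R)
      (Om b (sd i R) (qF c1 y n) (6 * y n ^ (-(c1 / 2)))) (y n ^ (9 / 8 : ℝ))
      (Real.exp (-(5 * y n ^ (-(c1 / 2)))))

/-- **THE NODES OF CUT ALONG THE FLOW** (helper446's `NdW` with `Ev = EvC`) -/
theorem nd_ev {b b1 b2 pf : ℝ} (hb1 : 0 < b1) (h1 : b1 ≤ b) (hpf : 0 < pf)
    (hA6 : Spec.ThmA6 b1 b2 (5 / 2)) (Q : ℕ) :
    Vale.Agent.P159.H801.Ev b1 b2 pf Q fun P c1 =>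
      ∀ {σ c q2 qx : ℝ} {a y ε xs : ℕ → ℝ} {c' r q A : ℝ} {N : ℕ},
      SFlow P b σ c c1 q2 qx a y ε xs c' r q A N → 0 ≤ σ → σ ≤ 1 / 6 → 0 ≤ c → c < 3 / 16 →
      ∀ ck : ℝ, 64 * P.th ≤ ck → ck ≤ P.thp →
      ∀ (β C2 A0 : ℝ) (Am : ℕ), 0 ≤ β → β ≤ 1 → 1 ≤ C2 → 1 ≤ Am →
      ∀ i : ℕ, 6 ≤ i → A0 ≤ 2 ^ i →
      ∀ (η : ∀ R, Ed (sd i R) → ℤ) (φ : ∀ R, V (sd i R) → ℝ), AxP i η φ →
        Win P b β C2 A0 Am i ck a y ε (fun n R =>
          Del (wTD (sd i R) b) (tn n • (1 : Matrix (V (sd i R)) (V (sd i R)) ℝ)) (tn n) 0 (η R)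
            (φ R) ≤ y n ^ (-(c1 / 2 / 2))) →
        E4W P b β C2 A0 Am i ck c1 a y ε η φ →
        Win P b β C2 A0 Am i ck a y ε fun n R =>
          NdP b (tn n) i n (kf ck y n) (qF c1 y n) R η φ
            (muK (sd i R) (lC n (kf ck y n)) (kapF ck y n)) (gC i n (kE1 P ck y ε n) R)
            (Om b (sd i R) (qF c1 y n) (6 * y n ^ (-(c1 / 2))))
            (y n ^ (-(c1 / 2)) + 4 * y n ^ (-(c1 / 2 / 2)) + 3 * EvC) (y n ^ (9 / 8 : ℝ))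
            (y n ^ (9 / 8 : ℝ)) (y n ^ (9 / 8 : ℝ)) EvC (Real.exp (-(5 * y n ^ (-(c1 / 2))))) := by
  refine ((H474.Cb.ev_ln hb1 hA6 pf Q).and ((H816.smT_flow (b2 := b2) hb1 h1 hpf Q
    (δ := 1 / 16) (by norm_num) (by norm_num)).and (H37.Sf.ev_cS b1 b2 pf Q))).mono
    fun P c1 hA hT => ?_
  obtain ⟨⟨L₀, c0, C, A1, H⟩, ⟨hc0, -, hSm⟩, -, hcth, hthp0, hthpx, hth0, h4096, hx0⟩ := hT
  intro σ c q2 qx a y ε xs c' r q A N h hσ0 hσ6 hcc hcc3 ck hck hck1 β C2 A0 Am hβ hβ1 hC2 hAm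
    i hi hA0 η φ hx hDel h4
  have hb : 0 < b := hb1.trans_le h1
  have hx1 := hA.x11
  have hσ : σ ≤ 1 / 4 := by linarith
  have hsc : ∀ᶠ n in atTop, scF c1 y n ≤ n ∧ (scF c1 y n : ℝ) ≤ y n ^ (-(2 * (c1 / 2))) + 1 := by
    filter_upwards [scF_le h hσ0 hσ hc0 (by linarith)] with n hn
    have e2 : 2 * (c1 / 2) = c1 := by ring
    rw [e2]
    exact ⟨hn.1, hn.2.1⟩
  have hμ : ∀ᶠ n in atTop, ∀ R, 2 ^ (n + kf ck y n) ≤ R → R ≤ 2 ^ kE1 P ck y ε n →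
      (∀ z, 0 ≤ muK (sd i R) (lC n (kf ck y n)) (kapF ck y n) z) ∧
        ∑ z, muK (sd i R) (lC n (kf ck y n)) (kapF ck y n) z = 1 := by
    filter_upwards [eventually_ge_atTop 2] with n hn R _ _
    exact mu_kapF' ck y hn i R
  have hS := hSm h hσ0 hσ ck (by linarith) (by linarith) hck1 i (by omega) c1 hc0.le
    (by linarith) 1
  have e : (9 / 8 : ℝ) = 1 + 1 / 8 := by norm_num
  unfold E4W at h4
  rw [e] at h4 ⊢
  exact nd_win (c3 := c1 / 2) (c5 := 1 / 8) (δs := 1 / 16) hb hA h hσ0 hσ hcc hc0 H hck hck1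
    (by linarith) (by linarith) (by linarith) (by norm_num) (by linarith) (by linarith) hβ hβ1
    hC2 hi hAm hA0 hx (scF c1 y) (kapF ck y) hsc hμ hS hDel h4

end

end Vale.Agent.P159.H191.Cf
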