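import Vale.Agent.P159.H191.Prof

/-!
P159, module S_up, part D2: the cost of a dyadic tile in the logarithmic profile, and the sum of
the weights.
-/

set_option linter.all false
set_option autoImplicit false

open MeasureTheory Filter Topology
open scoped BigOperators

namespace Vale.Agent.P159.H191

open Vale.Agent.P159 Vale.Agent.P159.UJ Vale.Agent.P159.H950

/-- constant -/
noncomputable def KT (b α : ℝ) : ℝ :=
  2 * b * (5 * |α|) ^ 2 + Real.exp (2 * b * (Real.cosh (5 * |α|) - 1))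

theorem KT_nonneg {b : ℝ} (hb : 0 ≤ b) (α : ℝ) : 0 ≤ KT b α := by
  unfold KT
  have := Real.exp_pos (2 * b * (Real.cosh (5 * |α|) - 1))
  positivity

/-- weight of a cell -/
noncomputable def wt (b α : ℝ) (kk : ℕ → ℕ) (n : ℕ) (c : ℤ × ℤ) : ℝ :=
  (1 + 1 / 2 ^ (kk (lv c))) / 2 * (stiff (2 ^ (lv c - kk (lv c))) b * (α ^ 2 * (1 / qq 1 c))) +
    KT b α / (2 ^ (kk (lv c)) * 4 ^ (lv c)) + 8 * b * (Real.cosh |α| - 1) / 4 ^ n

theorem qq_pos (c : ℤ × ℤ) : 0 < qq 1 c := by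
  unfold qq
  positivity

theorem stiff2_nonneg {b : ℝ} (hb : 0 ≤ b) (m : ℕ) : 0 ≤ stiff (2 ^ m) b :=
  stiff_nonneg' hb Nat.one_le_two_pow

theorem wt_nonneg {b : ℝ} (hb : 0 ≤ b) (α : ℝ) (kk : ℕ → ℕ) (n : ℕ) (c : ℤ × ℤ) :
    0 ≤ wt b α kk n c := by
  unfold wt
  have h1 := stiff2_nonneg hb (lv c - kk (lv c))
  have h2 := KT_nonneg hb α
  have h3 : 0 ≤ Real.cosh |α| - 1 := by linarith [Real.one_le_cosh |α|]
  have h4 := qq_pos c
  positivity

theorem tile_centre {b : ℝ} (hb : 0 ≤ b) (kk : ℕ → ℕ) (hkk : ∀ j, kk j ≤ j) {n : ℕ} (hn : 1 ≤ n)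
    (α : ℝ) (z r0 : ℤ × ℤ) (hr0 : qc r0 < 2 ^ n) (T : Finset (ℤ × ℤ))
    (hT : ∀ c, c ∈ T ↔ tid kk (c - z) = tid kk r0) (y : ℤ × ℤ → HT → ℝ)
    (hy : ∀ c ∈ T, ∀ t, y c t = α * (Ph n (hu (c - z) t) - Ph n (hv (c - z) t))) :
    rG b T y ≤ Real.exp (∑ c ∈ T, wt b α kk n (c - z)) := by
  obtain ⟨k, hk⟩ : ∃ k, kk (lv r0) = k := ⟨_, rfl⟩
  obtain ⟨m, hm⟩ : ∃ m, lv r0 - kk (lv r0) = m := ⟨_, rfl⟩
  have hmk : m + k = lv r0 := by have := hkk (lv r0); omega
  have hTb : T = blk (z + tb kk r0) (2 ^ m) := by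
    ext c
    rw [hT, tid_iff, hm, mem_blk, mem_blk]
    simp only [Prod.fst_sub, Prod.snd_sub, Prod.fst_add, Prod.snd_add]
    constructor <;> rintro ⟨h1, h2, h3, h4⟩ <;> refine ⟨?_, ?_, ?_, ?_⟩ <;> linarith
  have hlv : ∀ c ∈ T, lv (c - z) = lv r0 := fun c hc => congrArg Prod.fst ((hT c).1 hc)
  have hcard : (T.card : ℝ) = 4 ^ m := by
    rw [hTb, card_blk]
    push_cast
    rw [← pow_mul, mul_comm, pow_mul]
    norm_num
  have hwt : ∀ c ∈ T, wt b α kk n (c - z) = (1 + 1 / 2 ^ k) / 2 *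
      (stiff (2 ^ m) b * (α ^ 2 * (1 / qq 1 (c - z)))) +
      KT b α / (2 ^ k * 4 ^ (m + k)) + 8 * b * (Real.cosh |α| - 1) / 4 ^ n := by
    intro c hc
    unfold wt
    rw [hlv c hc, hk, ← hmk, Nat.add_sub_cancel]
  have hS : ∑ c ∈ T, wt b α kk n (c - z) = (1 + 1 / 2 ^ k) / 2 * (stiff (2 ^ m) b *
      (α ^ 2 * ∑ c ∈ T, 1 / qq 1 (c - z))) + 4 ^ m * (KT b α / (2 ^ k * 4 ^ (m + k))) +
      4 ^ m * (8 * b * (Real.cosh |α| - 1) / 4 ^ n) := by
    rw [Finset.sum_congr rfl hwt, Finset.sum_add_distrib, Finset.sum_add_distrib,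
      Finset.sum_const, Finset.sum_const, nsmul_eq_mul, nsmul_eq_mul, hcard, ← Finset.mul_sum,
      ← Finset.mul_sum, ← Finset.mul_sum]
  have hst := stiff2_nonneg hb m
  have hK := KT_nonneg hb α
  have hch : 0 ≤ Real.cosh |α| - 1 := by linarith [Real.one_le_cosh |α|]
  have hq : 0 ≤ ∑ c ∈ T, 1 / qq 1 (c - z) :=
    Finset.sum_nonneg fun c _ => (by have := qq_pos (c - z); positivity)
  have hp1 : 0 ≤ (1 + 1 / 2 ^ k) / 2 * (stiff (2 ^ m) b *
      (α ^ 2 * ∑ c ∈ T, 1 / qq 1 (c - z))) := by positivity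
  have hp2 : 0 ≤ (4 : ℝ) ^ m * (KT b α / (2 ^ k * 4 ^ (m + k))) := by positivity
  have hp3 : 0 ≤ (4 : ℝ) ^ m * (8 * b * (Real.cosh |α| - 1) / 4 ^ n) := by positivity
  have hlvn : lv r0 < n := by
    obtain ⟨n', rfl⟩ : ∃ n', n = n' + 1 := ⟨n - 1, by omega⟩
    exact lv_lt.2 hr0
  by_cases hcase : lv r0 + 1 < n
  · -- the profile is the logarithm
    have hPh : ∀ c ∈ T, ∀ t : HT, Ph n (hu (c - z) t) = n * Real.log 2 - Fz (hu (c - z) t) ∧
        Ph n (hv (c - z) t) = n * Real.log 2 - Fz (hv (c - z) t) := by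
      intro c hc t
      have h1 : qc (c - z) < 2 ^ (n - 1) := by
        have := hlv c hc
        obtain ⟨n', hn'⟩ : ∃ n', n - 1 = n' + 1 := ⟨n - 2, by omega⟩
        rw [hn', ← lv_lt]
        omega
      rw [qc_lt, two_pow_cast] at h1
      have key : ∀ v : ℤ × ℤ, -(2 : ℤ) ^ (n - 1) ≤ v.1 → v.1 ≤ 2 ^ (n - 1) →
          -(2 : ℤ) ^ (n - 1) ≤ v.2 → v.2 ≤ 2 ^ (n - 1) → Ph n v = n * Real.log 2 - Fz v := by
        intro v h2 h3 h4 h5
        unfold Ph
        rw [max_eq_right]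
        unfold Fz FF
        have e1 : (v.1 : ℝ) ^ 2 ≤ (2 ^ (n - 1)) ^ 2 := by
          have h6 : -(2 : ℝ) ^ (n - 1) ≤ v.1 := by exact_mod_cast h2
          have h7 : (v.1 : ℝ) ≤ 2 ^ (n - 1) := by exact_mod_cast h3
          exact sq_le_sq' h6 h7
        have e2 : (v.2 : ℝ) ^ 2 ≤ (2 ^ (n - 1)) ^ 2 := by
          have h6 : -(2 : ℝ) ^ (n - 1) ≤ v.2 := by exact_mod_cast h4
          have h7 : (v.2 : ℝ) ≤ 2 ^ (n - 1) := by exact_mod_cast h5
          exact sq_le_sq' h6 h7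
        have e3 : (1 : ℝ) ≤ (2 ^ (n - 1)) ^ 2 := by
          have : (1 : ℝ) ≤ 2 ^ (n - 1) := one_le_pow₀ (by norm_num)
          nlinarith only [this]
        have e4 : ((2 : ℝ) ^ n) ^ 2 = 4 * (2 ^ (n - 1)) ^ 2 := by
          obtain ⟨n', rfl⟩ : ∃ n', n = n' + 1 := ⟨n - 1, by omega⟩
          rw [Nat.add_sub_cancel, pow_succ]
          ring
        have e5 : 1 + (v.1 : ℝ) ^ 2 + (v.2 : ℝ) ^ 2 ≤ (2 ^ n) ^ 2 := by
          rw [e4]; linarith
        have e6 := Real.log_le_log (by positivity) e5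
        rw [Real.log_pow, Real.log_pow] at e6
        push_cast at e6
        linarith
      obtain ⟨h2, h3, h4, h5⟩ := h1
      constructor
      · obtain ⟨r1, r2, r3, r4⟩ := hu_range (c - z) t
        apply key <;> omega
      · obtain ⟨r1, r2, r3, r4⟩ := hv_range (c - z) t
        apply key <;> omega
    have hy' : ∀ c ∈ T, ∀ t, y c t = α * (Fz (hv (c - z) t) - Fz (hu (c - z) t)) := by
      intro c hc t
      rw [hy c hc t, (hPh c hc t).1, (hPh c hc t).2]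
      ring
    have hTne : T.Nonempty := by
      refine ⟨r0 + z, (hT _).2 ?_⟩
      rw [add_sub_cancel_right]
    obtain ⟨c1, hc1, hmin⟩ := Finset.exists_min_image T (fun c => 1 / qq 1 (c - z)) hTne
    -- distances in the tile
    have hdist : ∀ c ∈ T, ((c - z).1 : ℝ) - (c1 - z).1 ≤ 2 ^ m - 1 ∧
        ((c - z).2 : ℝ) - (c1 - z).2 ≤ 2 ^ m - 1 ∧
        ((c1 - z).1 : ℝ) - (c - z).1 ≤ 2 ^ m - 1 ∧
        ((c1 - z).2 : ℝ) - (c - z).2 ≤ 2 ^ m - 1 := by
      intro c hc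
      have h1 := hc
      have h2 := hc1
      rw [hTb, mem_blk, two_pow_cast] at h1 h2
      obtain ⟨a1, a2, a3, a4⟩ := h1
      obtain ⟨b1, b2, b3, b4⟩ := h2
      simp only [Prod.fst_sub, Prod.snd_sub]
      refine ⟨?_, ?_, ?_, ?_⟩
      · have : c.1 - z.1 - (c1.1 - z.1) ≤ 2 ^ m - 1 := by omega
        exact_mod_cast this
      · have : c.2 - z.2 - (c1.2 - z.2) ≤ 2 ^ m - 1 := by omega
        exact_mod_cast this
      · have : c1.1 - z.1 - (c.1 - z.1) ≤ 2 ^ m - 1 := by omega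
        exact_mod_cast this
      · have : c1.2 - z.2 - (c.2 - z.2) ≤ 2 ^ m - 1 := by omega
        exact_mod_cast this
    have h := rG_tile2 hb (z + tb kk r0) m k y (α * g1 (c1 - z)) (α * g2 (c1 - z))
      (A := 5 * |α|) (by positivity)
      (by
        rw [← hTb]
        intro c hc s
        obtain ⟨d1, d2, d3, d4⟩ := hdist c hc
        have h1 := bond_diff (c - z) (c1 - z) s d1 d3 d2 d4
          ((hlv c hc).trans (hlv c1 hc1).symm)
        rw [hlv c hc, ← hmk] at h1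
        have e1 : y c s - cst (α * g1 (c1 - z)) (α * g2 (c1 - z)) c s.1 =
            α * ((Fz (hv (c - z) s) - Fz (hu (c - z) s)) -
              cst (g1 (c1 - z)) (g2 (c1 - z)) (c - z) s.1) := by
          rw [hy' c hc s]
          unfold cst
          split_ifs <;> ring
        rw [e1, abs_mul]
        calc |α| * _ ≤ |α| * (5 * 2 ^ m / 4 ^ (m + k)) :=
              mul_le_mul_of_nonneg_left h1 (abs_nonneg _)
          _ = 5 * |α| * 2 ^ m / 4 ^ (m + k) := by ring)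
      (by
        rw [← hTb]
        intro c hc s
        have h1 := bond_abs (c - z) s
        rw [hlv c hc, ← hmk] at h1
        rw [hy' c hc s, abs_mul]
        calc |α| * _ ≤ |α| * (1 / 2 ^ (m + k)) := mul_le_mul_of_nonneg_left h1 (abs_nonneg _)
          _ = |α| / 2 ^ (m + k) := by ring
          _ ≤ 5 * |α| / 2 ^ (m + k) := by
            apply div_le_div_of_nonneg_right _ (by positivity)
            linarith [abs_nonneg α])
    rw [← hTb] at h
    refine h.trans (Real.exp_le_exp.2 ?_)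
    rw [hS]
    have e1 : (4 : ℝ) ^ m * stiff (2 ^ m) b * ((α * g1 (c1 - z)) ^ 2 + (α * g2 (c1 - z)) ^ 2) ≤
        stiff (2 ^ m) b * (α ^ 2 * ∑ c ∈ T, 1 / qq 1 (c - z)) := by
      have e2 : (4 : ℝ) ^ m * (1 / qq 1 (c1 - z)) ≤ ∑ c ∈ T, 1 / qq 1 (c - z) := by
        rw [← hcard, ← nsmul_eq_mul]
        exact Finset.card_nsmul_le_sum _ _ _ hmin
      have e3 := g_sq (c1 - z)
      calc (4 : ℝ) ^ m * stiff (2 ^ m) b * ((α * g1 (c1 - z)) ^ 2 + (α * g2 (c1 - z)) ^ 2)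
          = stiff (2 ^ m) b * (α ^ 2 * (4 ^ m * (g1 (c1 - z) ^ 2 + g2 (c1 - z) ^ 2))) := by ring
        _ ≤ stiff (2 ^ m) b * (α ^ 2 * (4 ^ m * (1 / qq 1 (c1 - z)))) := by gcongr
        _ ≤ _ := by gcongr
    have e2 : (2 * b * (5 * |α|) ^ 2 + Real.exp (2 * b * (Real.cosh (5 * |α|) - 1))) / 8 ^ k =
        4 ^ m * (KT b α / (2 ^ k * 4 ^ (m + k))) := by
      unfold KT
      have e3 : (8 : ℝ) ^ k = 2 ^ k * 4 ^ k := by rw [← mul_pow]; norm_num
      rw [e3, pow_add]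
      field_simp
    rw [e2]
    have e4 := mul_le_mul_of_nonneg_left e1 (by positivity : (0:ℝ) ≤ (1 + 1 / 2 ^ k) / 2)
    linarith
  · -- the outer ring
    have hlv1 : lv r0 + 1 = n := by omega
    have h := rG_trivial hb T y (δ := 1 / 2 ^ (lv r0) * |α|) (by
      intro c hc t
      rw [hy c hc t, abs_mul, mul_comm]
      refine mul_le_mul_of_nonneg_right ?_ (abs_nonneg _)
      have h1 := bond_abs (c - z) t
      rw [hlv c hc] at h1
      refine le_trans ?_ h1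
      unfold Ph
      rw [max_comm 0, max_comm 0]
      refine (abs_max_sub_max_le_abs _ _ _).trans (le_of_eq ?_)
      congr 1
      ring)
    refine h.trans (Real.exp_le_exp.2 ?_)
    rw [hS, hcard]
    have e1 := cosh_scale (s := 1 / 2 ^ (lv r0)) (by positivity)
      (by rw [div_le_one (by positivity)]; exact one_le_pow₀ (by norm_num)) |α|
    have e2 : (1 / (2 : ℝ) ^ lv r0) ^ 2 = 4 / 4 ^ n := by
      rw [← hlv1, div_pow, one_pow, ← pow_mul, mul_comm (lv r0) 2, pow_mul, pow_succ]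
      norm_num
      field_simp
      ring
    rw [e2] at e1
    have e3 : 2 * b * (4 : ℝ) ^ m * (Real.cosh (1 / 2 ^ lv r0 * |α|) - 1) ≤
        4 ^ m * (8 * b * (Real.cosh |α| - 1) / 4 ^ n) := by
      calc 2 * b * (4 : ℝ) ^ m * (Real.cosh (1 / 2 ^ lv r0 * |α|) - 1)
          ≤ 2 * b * (4 : ℝ) ^ m * (4 / 4 ^ n * (Real.cosh |α| - 1)) :=
            mul_le_mul_of_nonneg_left e1 (by positivity)
        _ = _ := by ring
    linarith

end Vale.Agent.P159.H191
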