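import Vale.Agent.P159.H883.Prc1

/-!
P159 (helper191), module CUT (1): the cut step, abstract part.

`G` the group of data (dislocation, real background), `ι : E →+ G` the real data, `L : G → ℝ` the
logarithm of the partition function, `B` the quadratic form of the undislocated model:
`L (ι F) = L 0 - B F F / 2 + RL F`. For real `F` the functional `Ψ (F)` has
`log Ψ (F) = L (D + ι F) - L (ι F) + const` (`lP`).

* `lP_step` : if `L (D + ι F) = L (W + ι (v + F))` for all real `F` then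
  `lP (X + P) - lP X = mixL (ι (v + X); ι P, W) - B P v + (mixed difference of RL)`;
* `lP_step_le` : in numbers;
* `lP_sum` : the sum over the pieces of `h = P 0 + … + P (n - 1)`;
* `price_le` : the price `Tp` of a real field and the same field with the dislocation `W`.
-/

set_option linter.unusedSectionVars false

open Finset

namespace Vale.Agent.P159.H191

open Vale.Agent.P159.H883 (Eng Tp)

variable {G E : Type*} [AddCommGroup G] [AddCommGroup E] [Module ℝ E]

/-- a symmetric biadditive form -/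
structure SB (B : E → E → ℝ) : Prop where
  add : ∀ F H K, B (F + H) K = B F K + B H K
  symm : ∀ F H, B F H = B H F

lemma SB.add_right {B : E → E → ℝ} (h : SB B) (F H K : E) : B F (H + K) = B F H + B F K := by
  rw [h.symm, h.add, h.symm H, h.symm K]

lemma SB.sq {B : E → E → ℝ} (h : SB B) (F H : E) :
    B (F + H) (F + H) = B F F + 2 * B F H + B H H := by
  rw [h.add, h.add_right, h.add_right, h.symm H F]
  ring

/-- mixed difference of `L` at `X` in the directions `P` and `W` -/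
def mixL (L : G → ℝ) (X P W : G) : ℝ := L (X + P + W) - L (X + P) - L (X + W) + L X

/-- `log Ψ` up to a constant -/
def lP (ι : E →+ G) (L : G → ℝ) (D : G) (F : E) : ℝ := L (D + ι F) - L (ι F)

/-- the non-quadratic part of the real data -/
noncomputable def RL (ι : E →+ G) (L : G → ℝ) (B : E → E → ℝ) (F : E) : ℝ :=
  L (ι F) - L 0 + B F F / 2

variable {ι : E →+ G} {L : G → ℝ} {B : E → E → ℝ}

/-- **one step** -/
theorem lP_step (hB : SB B) {D W : G} {v : E} (hD : ∀ F, L (D + ι F) = L (W + ι (v + F)))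
    (X P : E) : lP ι L D (X + P) - lP ι L D X = mixL L (ι (v + X)) (ι P) W - B P v +
      (RL ι L B (v + (X + P)) - RL ι L B (X + P) - RL ι L B (v + X) + RL ι L B X) := by
  unfold lP mixL RL
  rw [hD, hD]
  have e1 : ι (v + X) + ι P + W = W + ι (v + (X + P)) := by
    rw [← map_add, add_assoc, add_comm]
  have e2 : ι (v + X) + W = W + ι (v + X) := add_comm _ _
  have e3 : ι (v + X) + ι P = ι (v + (X + P)) := by rw [← map_add, add_assoc]
  rw [e1, e2, e3]
  have b1 := hB.sq v (X + P)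
  have b2 := hB.sq v X
  have b3 := hB.add_right v X P
  have b4 := hB.symm P v
  linarith

/-- **one step, in numbers** -/
theorem lP_step_le (hB : SB B) (hR : ∀ F, 0 ≤ RL ι L B F) {D W : G} {v : E}
    (hD : ∀ F, L (D + ι F) = L (W + ι (v + F))) {X P : E} {e e4 δ : ℝ}
    (hm : |mixL L (ι (v + X)) (ι P) W| ≤ e) (hb : |B P v| ≤ e4)
    (h1 : RL ι L B (v + (X + P)) ≤ δ) (h2 : RL ι L B (X + P) ≤ δ)
    (h3 : RL ι L B (v + X) ≤ δ) (h4 : RL ι L B X ≤ δ) :
    |lP ι L D (X + P) - lP ι L D X| ≤ e + e4 + 2 * δ := by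
  rw [lP_step hB hD]
  have a1 := hR (v + (X + P))
  have a2 := hR (X + P)
  have a3 := hR (v + X)
  have a4 := hR X
  rw [abs_le] at hm hb ⊢
  constructor <;> linarith

/-- **the sum over the pieces**: `Y i = F - (P 0 + … + P (i - 1))` -/
theorem lP_sum (hB : SB B) (hR : ∀ F, 0 ≤ RL ι L B F) {D : G} (Y : ℕ → E) {n : ℕ} {e e4 δ : ℝ}
    (he : 0 ≤ e) (he4 : 0 ≤ e4) (hδ : 0 ≤ δ)
    (h : ∀ i < n, Y (i + 1) = Y i ∨ ∃ (W : G) (v : E),
      (∀ F, L (D + ι F) = L (W + ι (v + F))) ∧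
      |mixL L (ι (v + Y (i + 1))) (ι (Y i - Y (i + 1))) W| ≤ e ∧ |B (Y i - Y (i + 1)) v| ≤ e4 ∧
      RL ι L B (v + Y i) ≤ δ ∧ RL ι L B (v + Y (i + 1)) ≤ δ)
    (hY : ∀ i ≤ n, RL ι L B (Y i) ≤ δ) :
    |lP ι L D (Y 0) - lP ι L D (Y n)| ≤ n * (e + e4 + 2 * δ) := by
  induction n with
  | zero => simp
  | succ n ih =>
    have i1 := ih (fun i hi => h i (by omega)) (fun i hi => hY i (by omega))
    have s : |lP ι L D (Y n) - lP ι L D (Y (n + 1))| ≤ e + e4 + 2 * δ := by
      rcases h n (by omega) with h0 | ⟨W, v, hD, hm, hb, h1, h2⟩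
      · rw [h0, sub_self, abs_zero]
        positivity
      · have e0 : Y (n + 1) + (Y n - Y (n + 1)) = Y n := by abel
        have s := lP_step_le hB hR hD (X := Y (n + 1)) (P := Y n - Y (n + 1)) hm hb
          (by rw [e0]; exact h1) (by rw [e0]; exact hY n (by omega)) h2 (hY (n + 1) le_rfl)
        rwa [e0] at s
    have e1 : lP ι L D (Y 0) - lP ι L D (Y (n + 1)) = (lP ι L D (Y 0) - lP ι L D (Y n)) +
      (lP ι L D (Y n) - lP ι L D (Y (n + 1))) := by ring
    rw [e1]
    refine (abs_add_le _ _).trans ?_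
    push_cast
    linarith

/-! ### prices -/

/-- the energy of 883 on the group `G × E` (smooth data, rough real data) -/
noncomputable def gL (ι : E →+ G) (L : G → ℝ) (B : E → E → ℝ) (X : G × E) : ℝ :=
  L (X.1 + ι X.2) - L 0 + B X.2 X.2 / 2

/-- the rough real data -/
def rL (G E : Type*) [AddCommGroup G] [AddCommGroup E] : E →+ G × E := AddMonoidHom.inr G E

lemma rL_apply (F : E) : rL G E F = (0, F) := rfl

lemma gL_real (F : E) : gL ι L B (rL G E F) = RL ι L B F := by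
  unfold gL RL
  rw [rL_apply, zero_add]

/-- scaling of the form -/
lemma Eng.R_mono {g : G × E → ℝ} (h : Eng (rL G E) g) (F : E) {s : ℝ} (hs : 1 ≤ s) :
    s * g (rL G E F) ≤ g (rL G E (s • F)) := by
  have h1 := h.ray 0 F hs
  simp only [zero_add, h.zero, sub_zero] at h1
  exact h1

/-- `R (F + H) ≤ (R (2 F) + R (2 H)) / 2` -/
lemma Eng.R_add {g : G × E → ℝ} (h : Eng (rL G E) g) (F H : E) :
    g (rL G E (F + H)) ≤ (g (rL G E ((2 : ℝ) • F)) + g (rL G E ((2 : ℝ) • H))) / 2 := by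
  have h1 := h.cv 0 ((2 : ℝ) • F) ((2 : ℝ) • H) (a := 1 / 2) (b := 1 / 2) (by norm_num)
    (by norm_num) (by norm_num)
  have e : (1 / 2 : ℝ) • (2 : ℝ) • F + (1 / 2 : ℝ) • (2 : ℝ) • H = F + H := by
    rw [smul_smul, smul_smul]
    norm_num
  rw [e] at h1
  simp only [zero_add] at h1
  linarith

/-- convex combination -/
lemma Eng.R_conv {g : G × E → ℝ} (h : Eng (rL G E) g) {F H : E} {p δ : ℝ} (h0 : 0 ≤ p)
    (h1 : p ≤ 1) (hF : g (rL G E F) ≤ δ) (hH : g (rL G E H) ≤ δ) :
    g (rL G E ((1 - p) • F + p • H)) ≤ δ := by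
  have h2 := h.cv 0 F H (a := 1 - p) (b := p) (by linarith) h0 (by ring)
  simp only [zero_add] at h2
  nlinarith

/-- **the price** of the real field `Y` with and without the change `W` -/
theorem price_le (hB : SB B) (h : Eng (rL G E) (gL ι L B)) (hL : ∀ X, L X ≤ L 0) (W : G) (Y : E) :
    L (ι Y + W + ι Y) + L W + 2 * L 0 - 2 * L (ι Y + W) - 2 * L (ι Y) ≤
      4 * (L 0 - L W) + RL ι L B ((4 : ℝ) • Y) / 2 := by
  have h1 := h.Tp_same (W, 0) 0 Y
  rw [gL_real] at h1
  have b0 : B 0 0 = 0 := by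
    have := hB.add 0 0 0
    rw [add_zero] at this
    linarith
  have e1 : Tp (gL ι L B) ((W, 0) + rL G E Y) (0 + rL G E Y) =
      L (ι Y + W + ι Y) + L W + 2 * L 0 - 2 * L (ι Y + W) - 2 * L (ι Y) := by
    unfold Tp gL
    rw [rL_apply]
    simp only [Prod.mk_add_mk, add_zero, zero_add, Prod.mk_sub_mk, sub_zero, sub_self, map_zero]
    rw [hB.sq, b0]
    have f1 : W + ι (Y + Y) = ι Y + W + ι Y := by
      rw [map_add]
      abel
    have f2 : W + ι Y = ι Y + W := add_comm _ _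
    rw [f1, f2]
    ring
  have e2 : gL ι L B ((W, (0 : E)) + 0 + ((W, (0 : E)) + 0)) = L (W + W) - L 0 := by
    unfold gL
    simp only [add_zero, Prod.mk_add_mk, map_zero]
    rw [b0]
    ring
  have e3 : gL ι L B ((W, (0 : E)) - 0 + ((W, (0 : E)) - 0)) = L (W + W) - L 0 := by
    unfold gL
    simp only [add_zero, Prod.mk_add_mk, map_zero, sub_zero]
    rw [b0]
    ring
  have e4 : gL ι L B (W, (0 : E)) = L W - L 0 := by
    unfold gL
    simp only [map_zero, add_zero]
    rw [b0]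
    ring
  have e5 : gL ι L B (0 : G × E) = 0 := h.zero
  rw [e1, e2, e3, e4, e5] at h1
  have h2 := hL (W + W)
  linarith

/-- a lower bound for the energy after a real change `v` of the background -/
theorem low_le (hB : SB B) (h : Eng (rL G E) (gL ι L B)) {D : G} {lc Δ : ℝ}
    (hU : ∀ F, L (D + ι F) - L 0 ≤ lc) (hΔ : lc - Δ ≤ L D - L 0) (v : E) :
    L 0 - L (D + ι v) ≤ 2 * Δ - lc + B v v := by
  have b0 : B 0 0 = 0 := by
    have := hB.add 0 0 0
    rw [add_zero] at this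
    linarith
  have h1 := h.sym_ge (D, 0) v
  have e1 : gL ι L B ((D, 0) + rL G E v) = L (D + ι v) - L 0 + B v v / 2 := by
    unfold gL
    rw [rL_apply]
    simp
  have hn : B (-v) (-v) = B v v := by
    have h2 := hB.add v (-v) (-v)
    have h3 := hB.add_right v v (-v)
    have h4 := hB.add 0 0 v
    have h5 := hB.add 0 0 (-v)
    rw [add_neg_cancel] at h2 h3
    rw [add_zero] at h4 h5
    have h6 := hB.symm v 0
    linarith
  have e2 : gL ι L B ((D, 0) - rL G E v) = L (D + ι (-v)) - L 0 + B v v / 2 := by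
    unfold gL
    rw [rL_apply]
    simp only [Prod.mk_sub_mk, sub_zero, zero_sub]
    rw [hn]
  have e4 : gL ι L B (D, (0 : E)) = L D - L 0 := by
    unfold gL
    simp only [map_zero, add_zero]
    rw [b0]
    ring
  rw [e1, e2, e4] at h1
  have h2 := hU (-v)
  linarith

lemma SB.zero {B : E → E → ℝ} (h : SB B) : B 0 0 = 0 := by
  have := h.add 0 0 0
  rw [add_zero] at this
  linarith

lemma SB.neg_sq {B : E → E → ℝ} (h : SB B) (v : E) : B (-v) (-v) = B v v := by
  have h2 := h.add v (-v) (-v)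
  have h3 := h.add_right v v (-v)
  have h4 := h.add 0 0 v
  have h5 := h.add 0 0 (-v)
  rw [add_neg_cancel] at h2 h3
  rw [add_zero] at h4 h5
  have h6 := h.symm v 0
  linarith

/-- the price in terms of the energy at real data -/
theorem price_eq (hB : SB B) {D W : G} {v : E} (hD : ∀ F, L (D + ι F) = L (W + ι (v + F)))
    (Y : E) : L (ι (v + Y) + W + ι (v + Y)) + L W + 2 * L 0 - 2 * L (ι (v + Y) + W) -
        2 * L (ι (v + Y)) =
      gL ι L B (D, Y + Y + v) + gL ι L B (D, -v) - 2 * gL ι L B (D, Y) - 2 * RL ι L B (v + Y) := by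
  unfold gL RL
  simp only
  rw [hD (Y + Y + v), hD (-v), hD Y]
  have e1 : W + ι (v + (Y + Y + v)) = ι (v + Y) + W + ι (v + Y) := by
    simp only [map_add]
    abel
  have e2 : W + ι (v + -v) = W := by rw [add_neg_cancel, map_zero, add_zero]
  have e3 : W + ι (v + Y) = ι (v + Y) + W := add_comm _ _
  rw [e1, e2, e3]
  have q1 := hB.sq (Y + Y) v
  have q2 := hB.sq Y Y
  have q3 := hB.sq v Y
  have q4 := hB.neg_sq v
  have q5 := hB.add Y Y v
  have q6 := hB.symm v Y
  linarith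

/-- **the price at a real base needs only even parts**: `κ` bounds the even part of the energy at
`4 Y` relative to `lc`, `Δ` the defect at zero -/
theorem price_ev (hB : SB B) (h : Eng (rL G E) (gL ι L B)) {D W : G} {v : E}
    (hD : ∀ F, L (D + ι F) = L (W + ι (v + F))) {lc κ Δ : ℝ}
    (hU : ∀ F, L (D + ι F) - L 0 ≤ lc) (hΔ : lc - Δ ≤ L D - L 0) (Y : E)
    (hE : gL ι L B (D, (4 : ℝ) • Y) + gL ι L B (D, -((4 : ℝ) • Y)) ≤ 2 * lc + 2 * κ) :
    L (ι (v + Y) + W + ι (v + Y)) + L W + 2 * L 0 - 2 * L (ι (v + Y) + W) -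
        2 * L (ι (v + Y)) ≤ κ + 4 * Δ + 3 * B v v := by
  have p1 := price_eq hB hD Y
  have p2 := price_eq hB hD (-Y)
  have p3 := price_eq (ι := ι) (L := L) hB hD (-Y)
  -- the price at `-Y` is nonnegative
  have n2 : 0 ≤ L (ι (v + -Y) + W + ι (v + -Y)) + L W + 2 * L 0 - 2 * L (ι (v + -Y) + W) -
        2 * L (ι (v + -Y)) := by
    have t := h.Tp_nonneg ((W, 0) + rL G E (v + -Y)) (0 + rL G E (v + -Y))
    have e1 : Tp (gL ι L B) ((W, 0) + rL G E (v + -Y)) (0 + rL G E (v + -Y)) =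
        L (ι (v + -Y) + W + ι (v + -Y)) + L W + 2 * L 0 - 2 * L (ι (v + -Y) + W) -
          2 * L (ι (v + -Y)) := by
      unfold Tp gL
      rw [rL_apply]
      simp only [Prod.mk_add_mk, add_zero, zero_add, Prod.mk_sub_mk, sub_zero, sub_self, map_zero]
      rw [hB.sq (v + -Y) (v + -Y), hB.zero]
      have f1 : W + ι (v + -Y + (v + -Y)) = ι (v + -Y) + W + ι (v + -Y) := by
        rw [map_add]
        abel
      have f2 : W + ι (v + -Y) = ι (v + -Y) + W := add_comm _ _
      rw [f1, f2]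
      ring
    rw [e1] at t
    exact t
  rw [p2] at n2
  rw [p1]
  -- the real parts are nonnegative
  have r1 : 0 ≤ RL ι L B (v + Y) := by rw [← gL_real]; exact h.R_nonneg _
  have r2 : 0 ≤ RL ι L B (v + -Y) := by rw [← gL_real]; exact h.R_nonneg _
  -- symmetric pair at `Y`
  have s1 := h.sym_ge (D, 0) Y
  have e1 : (D, (0 : E)) + rL G E Y = (D, Y) := by rw [rL_apply]; simp
  have e2 : (D, (0 : E)) - rL G E Y = (D, -Y) := by rw [rL_apply]; simp
  rw [e1, e2] at s1
  have e3 : gL ι L B (D, (0 : E)) = L D - L 0 := by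
    unfold gL
    simp only [map_zero, add_zero]
    rw [hB.zero]
    ring
  rw [e3] at s1
  -- convexity
  have c : ∀ F H : E, gL ι L B (D, (1 / 2 : ℝ) • F + (1 / 2 : ℝ) • H) ≤
      1 / 2 * gL ι L B (D, F) + 1 / 2 * gL ι L B (D, H) := by
    intro F H
    have h1 := h.cv (D, 0) F H (a := 1 / 2) (b := 1 / 2) (by norm_num) (by norm_num) (by norm_num)
    have f : ∀ K : E, (D, (0 : E)) + rL G E K = (D, K) := fun K => by rw [rL_apply]; simp
    rw [f, f, f] at h1
    exact h1
  have c1 := c ((4 : ℝ) • Y) ((2 : ℝ) • v)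
  have c2 := c (-((4 : ℝ) • Y)) ((2 : ℝ) • v)
  have f1 : (1 / 2 : ℝ) • ((4 : ℝ) • Y) + (1 / 2 : ℝ) • ((2 : ℝ) • v) = Y + Y + v := by
    module
  have f2 : (1 / 2 : ℝ) • (-((4 : ℝ) • Y)) + (1 / 2 : ℝ) • ((2 : ℝ) • v) = -Y + -Y + v := by
    module
  rw [f1] at c1
  rw [f2] at c2
  -- smooth parts
  have u1 : gL ι L B (D, (2 : ℝ) • v) ≤ lc + 2 * B v v := by
    unfold gL
    simp only
    have h1 := hU ((2 : ℝ) • v)
    have h2 : B ((2 : ℝ) • v) ((2 : ℝ) • v) = 4 * B v v := by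
      rw [two_smul, hB.sq]
      ring
    rw [h2]
    linarith
  have u2 : gL ι L B (D, -v) ≤ lc + B v v / 2 := by
    unfold gL
    simp only
    have h1 := hU (-v)
    have h2 := hB.neg_sq v
    rw [h2]
    linarith
  linarith

/-- even parts along a segment -/
theorem ev_conv (h : Eng (rL G E) (gL ι L B)) (D : G) {F H : E} {p c : ℝ} (h0 : 0 ≤ p)
    (h1 : p ≤ 1) (hF : gL ι L B (D, (4 : ℝ) • F) + gL ι L B (D, -((4 : ℝ) • F)) ≤ c)
    (hH : gL ι L B (D, (4 : ℝ) • H) + gL ι L B (D, -((4 : ℝ) • H)) ≤ c) :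
    gL ι L B (D, (4 : ℝ) • (F + p • (H - F))) + gL ι L B (D, -((4 : ℝ) • (F + p • (H - F)))) ≤
      c := by
  have f : ∀ K : E, (D, (0 : E)) + rL G E K = (D, K) := fun K => by rw [rL_apply]; simp
  have c1 := h.cv (D, 0) ((4 : ℝ) • F) ((4 : ℝ) • H) (a := 1 - p) (b := p) (by linarith) h0
    (by ring)
  have c2 := h.cv (D, 0) (-((4 : ℝ) • F)) (-((4 : ℝ) • H)) (a := 1 - p) (b := p) (by linarith) h0
    (by ring)
  rw [f, f, f] at c1 c2
  have e1 : (1 - p) • ((4 : ℝ) • F) + p • ((4 : ℝ) • H) = (4 : ℝ) • (F + p • (H - F)) := by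
    module
  have e2 : (1 - p) • (-((4 : ℝ) • F)) + p • (-((4 : ℝ) • H)) =
      -((4 : ℝ) • (F + p • (H - F))) := by
    module
  rw [e1] at c1
  rw [e2] at c2
  nlinarith

end Vale.Agent.P159.H191
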