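import Vale.Agent.P159.H474.Ev2
import Vale.Agent.P159.H37.Lq3
import Vale.Agent.P159.H145.Spc0

/-!
P159 (helper191), module CUT (10): the arms of CUT along the flow.

* `cgeo_num` : the geometry `Geo` of the arms: `m + 1 = 2 ^ (n + k / 32)`, distance of the cores to
  the grid lines `2 ^ (n + k / 64)`, length `2 lC + 1`, `lC = 2 ^ (n + k / 16)`;
* `carm_flow` : `LN`, `Geo` and the oscillation constant on every torus of the window.
-/

set_option linter.unusedSectionVars false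

namespace Vale.Agent.P159.H191.Cf

open Finset Filter Topology
open Vale.Agent.P159.H612 (om0)
open Vale.Agent.P159.H612.LocK (big four_pow two_pow_le)
open Vale.Agent.P159.H474.Cb (LN Geo LocC om0_le om_num omS sf_eps sf_ub le_lg lg_le lb_tend)
open Vale.Agent.P159.H37.Sf (kf)
open Vale.Agent.P159.H145.Sp (lC)
open Vale.Agent.P159.H773 (sd)
open Vale.Agent.P159.TM
open Vale.Agent.P159.TM.Spec (V)
open Vale.Agent.P159.TM.SpecC (Tor wT)
open Vale.Agent.P159.H972 (lg tn Par RNG GP Good YBn)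
open Vale.Agent.P159.H801 (SFlow)

noncomputable section

/-- exponentials beat linear functions -/
lemma big64 (M : ℝ) : ∀ᶠ k : ℕ in atTop, M * ((k : ℝ) + 1) ≤ 2 ^ (k / 64) := by
  have h3 : Tendsto (fun k : ℕ => 2 * (k / 64)) atTop atTop :=
    tendsto_atTop_atTop.2 fun b => ⟨64 * b, fun a ha => by omega⟩
  filter_upwards [h3.eventually (big (64 * |M|))] with k hk
  have e : 2 * (k / 64) / 2 = k / 64 := by omega
  rw [e] at hk
  refine le_trans ?_ hk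
  have h4 : (k : ℝ) + 1 ≤ 64 * (((2 * (k / 64) : ℕ) : ℝ) + 1) := by
    have : k + 1 ≤ 64 * (2 * (k / 64) + 1) := by omega
    exact_mod_cast this
  have h5 : (0 : ℝ) ≤ (k : ℝ) + 1 := by positivity
  calc M * ((k : ℝ) + 1) ≤ |M| * ((k : ℝ) + 1) := mul_le_mul_of_nonneg_right (le_abs_self M) h5
    _ ≤ |M| * (64 * (((2 * (k / 64) : ℕ) : ℝ) + 1)) := mul_le_mul_of_nonneg_left h4 (abs_nonneg M)
    _ = _ := by ring

/-- **the geometry of the arms of CUT** -/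
theorem cgeo_num {c : ℝ} (hc : 0 < c) {A : ℕ} (hA : 2 ≤ A) (B : ℝ) : ∀ᶠ k : ℕ in atTop,
    ∀ n mb nb u : ℕ, A ≤ 2 ^ n → mb + 1 = 2 ^ (n + k / 32) → nb + 2 = 2 ^ u →
      (u : ℝ) ≤ B * (k + 1) →
      Geo mb nb (2 ^ n) A 2 (2 ^ (n + k / 64)) (2 * lC n k + 1) c := by
  filter_upwards [big64 (B / c), eventually_ge_atTop 512] with k hk hk2
  intro n mb nb u hAn hm hn hu
  have hmr : (mb : ℝ) + 1 = 2 ^ n * 2 ^ (k / 32) := by
    rw [← pow_add]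
    exact_mod_cast hm
  have hnr : (nb : ℝ) + 2 = 2 ^ u := by exact_mod_cast hn
  refine ⟨hA, hAn, Nat.pow_le_pow_right (by norm_num) (by omega), ?_, ?_, ?_⟩
  · rw [hm]
    have h1 : (2 : ℕ) ^ (n + k / 64) * 2 ^ 3 ≤ 2 ^ (n + k / 32) := by
      rw [← pow_add]
      exact Nat.pow_le_pow_right (by norm_num) (by omega)
    have h2 : 0 < (2 : ℕ) ^ (n + k / 64) := by positivity
    omega
  · rw [hm]
    unfold lC
    have h1 : (2 : ℕ) ^ (n + k / 32) * 2 ^ 1 ≤ 2 ^ (n + k / 16) := by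
      rw [← pow_add]
      exact Nat.pow_le_pow_right (by norm_num) (by omega)
    omega
  · rw [hmr, hnr]
    have hξ : (0 : ℝ) < 2 ^ n := by positivity
    have e1 : c * (2 * (2 ^ n * 2 ^ (k / 32))) / ((2 ^ n : ℕ) : ℝ) =
        2 * (c * 2 ^ (k / 32)) := by
      push_cast
      field_simp
    rw [e1]
    refine (four_pow u).trans (Real.exp_le_exp.2 ?_)
    have h3 : B * (k + 1) ≤ c * 2 ^ (k / 64) := by
      have := mul_le_mul_of_nonneg_left hk hc.le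
      have e : c * (B / c * (k + 1)) = B * (k + 1) := by
        field_simp
      rwa [e] at this
    have h4 : c * (2 : ℝ) ^ (k / 64) ≤ c * 2 ^ (k / 32) :=
      mul_le_mul_of_nonneg_left (two_pow_le (by omega)) hc.le
    linarith

section flow

variable {P : Par} {b σ cc c1 q2 qx : ℝ} {a y ε xs : ℕ → ℝ} {c' r q A' : ℝ} {N0 : ℕ}

/-- sizes of the window in terms of `L = log2 (1 / y)` and `k` -/
lemma cwin (hP : P.Adm) (hσ : 0 ≤ σ) (hσ1 : σ ≤ 1 / 4)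
    (h : SFlow P b σ cc c1 q2 qx a y ε xs c' r q A' N0) {i : ℕ} (hi : 1 ≤ i) {ck : ℝ}
    (hck : 64 * P.th ≤ ck) (hck1 : ck ≤ P.thp) (J : ℕ) :
    ∀ᶠ n in atTop, N0 ≤ n ∧ J ≤ kf ck y n ∧ P.kE (ε n) ≤ kf ck y n / 32 + 1 ∧
      (P.w (ε n) : ℝ) ≤ 4 / ck * ((kf ck y n : ℝ) + 1) ∧
      ∀ R, 2 ^ (n + kf ck y n) ≤ R → R ≤ 2 ^ (n + P.w (ε n) + kf ck y (n + P.w (ε n))) →
        P.TT n (ε n) (i + Nat.clog 2 R) ∧ n + kf ck y n ≤ Nat.clog 2 R ∧
        Nat.clog 2 R + i + 1 ≤ n + 5 * P.w (ε n) := by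
  have hth := P.th0
  have hthp := P.thp0
  have hck0 : 0 < ck := by linarith
  filter_upwards [H37.Sf.sf_k3 h hσ1 hck0 hck1, (H37.Sf.sf_wt h hσ1).eventually_ge_atTop (i + 1),
    H37.Sf.sf_TT h hP hσ hσ1 hck0 hck1 (by linarith) hi,
    (lb_tend h.fl.y0 h.fl.yt).eventually_ge_atTop ((J : ℝ) / ck),
    (lb_tend h.fl.y0 h.fl.yt).eventually_ge_atTop 1, eventually_ge_atTop N0] with
    n k3 hw hTT hJ hL1 hN
  obtain ⟨L, hL⟩ : ∃ L, L = Real.logb 2 (1 / y n) := ⟨_, rfl⟩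
  rw [← hL] at hJ hL1
  have hε0 := sf_eps h hN
  have hes := h.es n hN
  have hkL : ck * L ≤ (kf ck y n : ℝ) := hL ▸ le_lg ck (y n)
  have hub := sf_ub h hN
  rw [← hL] at hub
  have hub2 : Real.logb 2 (1 / ε n) ≤ 2 * L := by nlinarith
  have hε1 : ε n ≤ 1 := hes.trans (P.es1.trans (by norm_num))
  have hlb0 : 0 ≤ Real.logb 2 (1 / ε n) :=
    Real.logb_nonneg one_lt_two ((le_div_iff₀ hε0).2 (by linarith))
  have hthp1 : P.thp ≤ 1 := by
    have := hP.hx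
    have := hP.x11
    linarith
  refine ⟨hN, ?_, ?_, ?_, fun R h1 h2 => ⟨hTT R h1 h2, ?_, ?_⟩⟩
  · rw [div_le_iff₀ hck0] at hJ
    have : (J : ℝ) ≤ (kf ck y n : ℝ) := by linarith
    exact_mod_cast this
  · have h1 : (P.kE (ε n) : ℝ) ≤ P.th * Real.logb 2 (1 / ε n) + 1 :=
      lg_le (mul_nonneg hth.le hlb0)
    have h2 : P.th * Real.logb 2 (1 / ε n) ≤ P.th * (2 * L) :=
      mul_le_mul_of_nonneg_left hub2 hth.le
    have h3 : 64 * P.th * L ≤ ck * L := mul_le_mul_of_nonneg_right hck (by linarith)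
    have h4 : (32 : ℝ) * P.kE (ε n) ≤ (kf ck y n : ℝ) + 32 := by linarith
    have h5 : 32 * P.kE (ε n) ≤ kf ck y n + 32 := by exact_mod_cast h4
    omega
  · have h1 : (P.w (ε n) : ℝ) ≤ P.thp * Real.logb 2 (1 / ε n) + 1 :=
      lg_le (mul_nonneg hthp.le hlb0)
    have h2 : P.thp * Real.logb 2 (1 / ε n) ≤ 1 * (2 * L) :=
      mul_le_mul hthp1 hub2 hlb0 zero_le_one
    have h3 : L ≤ (kf ck y n : ℝ) / ck := by rwa [le_div_iff₀ hck0, mul_comm]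
    have h4 : 1 ≤ 1 / ck := by
      rw [le_div_iff₀ hck0]
      linarith
    have e : 4 / ck * ((kf ck y n : ℝ) + 1) = 4 * (kf ck y n / ck) + 4 * (1 / ck) := by ring
    rw [e]
    have h5 : 0 ≤ (kf ck y n : ℝ) / ck := by positivity
    linarith
  · have := Nat.clog_mono_right 2 h1
    rwa [Nat.clog_pow 2 _ one_lt_two] at this
  · have g1 : Nat.clog 2 R ≤ n + P.w (ε n) + kf ck y (n + P.w (ε n)) := by
      have := Nat.clog_mono_right 2 h2
      rwa [Nat.clog_pow 2 _ one_lt_two] at this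
    omega

/-- **the arms of CUT along the flow** -/
theorem carm_flow (hP : P.Adm) (hb : 0 < b) (hσ : 0 ≤ σ) (hσ1 : σ ≤ 1 / 4) (hcc : 0 ≤ cc)
    (h : SFlow P b σ cc c1 q2 qx a y ε xs c' r q A' N0) {L₀ c C : ℝ} {A : ℕ}
    (H : LocC P L₀ c C A) {i : ℕ} (hi : 1 ≤ i) {ck u : ℝ} (hck : 64 * P.th ≤ ck)
    (hck1 : ck ≤ P.thp) (hu0 : 0 ≤ u) (hu : u + 4 * cc + 64 * P.thp < 2) :
    ∀ᶠ n in atTop, ∀ R, 2 ^ (n + kf ck y n) ≤ R →
      R ≤ 2 ^ (n + P.w (ε n) + kf ck y (n + P.w (ε n))) →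
      ∀ (mb nb : ℕ) [NeZero ((mb + 1) * (nb + 2))] [NeZero ((mb + 1) * 2)],
      mb + 1 = 2 ^ (n + kf ck y n / 32) →
      nb + 2 = 2 ^ (i + Nat.clog 2 R - (n + kf ck y n / 32)) →
      (mb + 1) * (nb + 2) = sd i R ∧ LN mb nb b hb (2 ^ n) A L₀ c C ∧
      Geo mb nb (2 ^ n) A 2 (2 ^ (n + kf ck y n / 64)) (2 * lC n (kf ck y n) + 1) c ∧
      ∃ ω, om0 ((mb + 1) * (nb + 2)) b ((1 / ((2 ^ n : ℕ) : ℝ) ^ 2) •
          (1 : Matrix (Tor ((mb + 1) * (nb + 2))) (Tor ((mb + 1) * (nb + 2))) ℝ)) ≤ ω ∧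
        ω ≤ 1 / 4 ∧ 8 * ω ^ 2 ≤ 1 / 2 * y n ^ u := by
  have hA2 : 2 ≤ A := by
    have := H.hA
    omega
  have hth := P.th0
  have hck0 : 0 < ck := by linarith
  obtain ⟨J1, hJ1⟩ := eventually_atTop.1 (cgeo_num H.hc hA2 (5 * (4 / ck)))
  filter_upwards [cwin hP hσ hσ1 h hi hck hck1 (max J1 64), om_num h hσ hcc hu0 hu i]
    with n ⟨hN, hJ, hkE, hw, hwin⟩ hom R h1 h2 mb nb _ _ hm hnb
  obtain ⟨hTT, hR1, hR2⟩ := hwin R h1 h2
  obtain ⟨k, hk⟩ : ∃ k, k = kf ck y n := ⟨_, rfl⟩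
  rw [← hk] at hJ hkE hw hR1 hm hnb ⊢
  have hε0 := sf_eps h hN
  have hes := h.es n hN
  have hJ1' : J1 ≤ k := (le_max_left _ _).trans hJ
  have hJ2 : 64 ≤ k := (le_max_right _ _).trans hJ
  obtain ⟨rr, hrr⟩ : ∃ rr, rr = i + Nat.clog 2 R := ⟨_, rfl⟩
  rw [← hrr] at hTT hnb
  have hsum : n + k / 32 + (rr - (n + k / 32)) = rr := by omega
  obtain ⟨J, hJe⟩ : ∃ J, rr - (n + k / 32) = J + 1 := ⟨rr - (n + k / 32) - 1, by omega⟩
  have hNN : (mb + 1) * (nb + 2) = 2 ^ rr := by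
    rw [hm, hnb, ← pow_add, hsum]
  obtain ⟨τ, a', -, -, hG⟩ := h.good n hN
  have hGe := hG (ε n) le_rfl hes
  obtain ⟨hAn, hLN⟩ := H.ln b hb n (ε n) hε0 hes (fun r hr => (hGe.rng r (Or.inl hr)).1) mb nb
    (n + k / 32) J hm (by rw [hnb, hJe]) (by omega) (by
      have e : n + k / 32 + J + 1 = rr := by omega
      rw [e]
      exact hTT)
  refine ⟨?_, hLN, ?_, ?_⟩
  · rw [hNN, hrr]
    unfold H773.sd
    rw [pow_add]
  · refine hJ1 k hJ1' n mb nb (rr - (n + k / 32)) hAn hm hnb ?_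
    have h3 : rr - (n + k / 32) ≤ 5 * P.w (ε n) := by omega
    have h4 : ((rr - (n + k / 32) : ℕ) : ℝ) ≤ 5 * P.w (ε n) := by exact_mod_cast h3
    have h5 : 5 * (P.w (ε n) : ℝ) ≤ 5 * (4 / ck * ((k : ℝ) + 1)) :=
      mul_le_mul_of_nonneg_left hw (by norm_num)
    linarith
  · -- the oscillation
    obtain ⟨j, hj⟩ : ∃ j, j = Nat.clog 2 R - n := ⟨_, rfl⟩
    have hjw : j + i + 1 ≤ 8 * P.w (ε n) := by omega
    obtain ⟨o1, o2, o3⟩ := hom j hjw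
    refine ⟨omS (y n) (ε n) cc i j, ?_, o2, o3⟩
    have hYB := (h.yb n hN).2.2 (ε n) le_rfl hes rr hTT.1
    have hYε : ε n ≤ ε n ^ (-cc) * y n := by
      have hε1 : ε n ≤ 1 := hes.trans (P.es1.trans (by norm_num))
      have h1 : (1 : ℝ) ≤ ε n ^ (-cc) := Real.one_le_rpow_of_pos_of_le_one_of_nonpos hε0 hε1
        (by linarith)
      have h2 : ε n ≤ y n := H37.Sf.sf_ey h hσ1 hN
      have hy0 := h.fl.y0 n
      nlinarith
    rw [max_eq_left hYε] at hYB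
    have hY0 : 0 ≤ ε n ^ (-cc) * y n :=
      mul_nonneg (Real.rpow_nonneg hε0.le _) (h.fl.y0 n).le
    have hp2 : ((2 : ℝ) ^ (rr - n)) ^ 2 ≤ ((2 : ℝ) ^ (j + i + 1)) ^ 2 :=
      pow_le_pow_left₀ (by positivity) (pow_le_pow_right₀ (by norm_num) (by omega)) 2
    refine (om0_le hb hNN (by omega) hYB ?_).trans ?_
    · have := mul_le_mul_of_nonneg_right hp2 hY0
      linarith
    · unfold omS
      have := mul_le_mul_of_nonneg_right hp2 hY0
      linarith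

end flow

end

end Vale.Agent.P159.H191.Cf
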