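import Vale.Agent.P159.H191.Ct10
import Vale.Agent.P159.H816.Sm3
import Vale.Agent.P159.H446.Cut3

/-!
P159 (helper191), module CUT (11): the numbers of the (rd) term of CUT along the flow.

With `T = y^(-c1)`, `k = kf ck y n`, `c1 < ck / 64`:

* `sf_pe`, `sf_log`, `two_w` : polynomials against `exp T`, logarithms against `T`, `2 ^ w`;
* `num_e` : the number `e` of the (rd) term is `≤ y^u / 2` plus the oscillation;
* `num_S`, `num_X` : the mass of a piece, the size of the torus.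
-/

set_option linter.unusedSectionVars false

namespace Vale.Agent.P159.H191.Cf

open Finset Filter Topology
open Vale.Agent.P159.H474.Cb (le_lg lg_le sf_eps sf_ub)
open Vale.Agent.P159.H37.Sf (kf sf_big)
open Vale.Agent.P159.H145.Sp (lC)
open Vale.Agent.P159.H773 (sd)
open Vale.Agent.P159.H972 (lg tn Par)
open Vale.Agent.P159.H801 (SFlow)

noncomputable section

lemma tn_eq (n : ℕ) : tn n = 1 / ((2 ^ n : ℕ) : ℝ) ^ 2 := by
  unfold H972.tn
  push_cast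
  rw [← pow_mul, mul_comm n 2, pow_mul, one_div]
  norm_num

section num

variable {P : Par} {b σ cc c1 q2 qx : ℝ} {a y ε xs : ℕ → ℝ} {c' r q A' : ℝ} {N0 : ℕ}

/-- polynomials against `exp (y^(-c3))` -/
lemma sf_pe (h : SFlow P b σ cc c1 q2 qx a y ε xs c' r q A' N0) {c3 : ℝ} (hc3 : 0 < c3) (p : ℝ)
    {B : ℝ} (hB : 0 < B) : ∀ᶠ n in atTop, B * y n ^ (-p) ≤ Real.exp (y n ^ (-c3)) := by
  filter_upwards [H816.sf_expy h hc3 p (e := 1 / B) (by positivity)] with n hn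
  have h1 := mul_le_mul_of_nonneg_left hn (mul_pos hB (Real.exp_pos (y n ^ (-c3)))).le
  have e1 : B * Real.exp (y n ^ (-c3)) * (Real.exp (-(y n ^ (-c3))) * y n ^ (-p)) =
      B * y n ^ (-p) := by
    have h2 : Real.exp (y n ^ (-c3)) * Real.exp (-(y n ^ (-c3))) = 1 := by
      rw [← Real.exp_add, add_neg_cancel, Real.exp_zero]
    calc _ = B * (Real.exp (y n ^ (-c3)) * Real.exp (-(y n ^ (-c3)))) * y n ^ (-p) := by ring
      _ = _ := by rw [h2, mul_one]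
  have e2 : B * Real.exp (y n ^ (-c3)) * (1 / B) = Real.exp (y n ^ (-c3)) := by
    field_simp
  rwa [e1, e2] at h1

/-- `log (1 / y)` against powers -/
lemma sf_log (h : SFlow P b σ cc c1 q2 qx a y ε xs c' r q A' N0) {c3 : ℝ} (hc3 : 0 < c3)
    {B : ℝ} (hB : 0 ≤ B) : ∀ᶠ n in atTop, B * Real.log (1 / y n) ≤ y n ^ (-c3) := by
  filter_upwards [sf_big h (p := c3 / 2) (M := B * (2 / c3) + 1) (by positivity) (by positivity)]
    with n hn
  have hy := h.fl.y0 n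
  have h1 := Real.log_le_rpow_div (show 0 ≤ 1 / y n by positivity) (show 0 < c3 / 2 by positivity)
  have e1 : (1 / y n) ^ (c3 / 2) = y n ^ (-(c3 / 2)) := by
    rw [one_div, Real.inv_rpow hy.le, Real.rpow_neg hy.le]
  rw [e1] at h1
  have h2 : 0 < y n ^ (-(c3 / 2)) := Real.rpow_pos_of_pos hy _
  have e2 : y n ^ (-c3) = y n ^ (-(c3 / 2)) * y n ^ (-(c3 / 2)) := by
    rw [← Real.rpow_add hy]
    congr 1
    ring
  rw [e2]
  calc B * Real.log (1 / y n) ≤ B * (y n ^ (-(c3 / 2)) / (c3 / 2)) :=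
        mul_le_mul_of_nonneg_left h1 hB
    _ = B * (2 / c3) * y n ^ (-(c3 / 2)) := by
        field_simp
    _ ≤ y n ^ (-(c3 / 2)) * y n ^ (-(c3 / 2)) :=
        mul_le_mul_of_nonneg_right (by linarith) h2.le

/-- `2 ^ w` is a power of `1 / y` -/
lemma two_w (hP : P.Adm) (h : SFlow P b σ cc c1 q2 qx a y ε xs c' r q A' N0) (hσ : 0 ≤ σ)
    {n : ℕ} (hn : N0 ≤ n) : (2 : ℝ) ^ P.w (ε n) ≤ 2 * y n ^ (-2 : ℝ) := by
  have hε0 := sf_eps h hn
  have hε1 : ε n ≤ 1 := (h.es n hn).trans (P.es1.trans (by norm_num))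
  have hthp1 : P.thp ≤ 1 := by
    have := hP.hx
    have := hP.x11
    have := P.th0
    linarith
  have h1 : (2 : ℝ) ^ P.w (ε n) ≤ 2 * ε n ^ (-P.thp) := H816.two_lg hε0 hε1 P.thp0.le
  have h2 : ε n ^ (-P.thp) ≤ y n ^ (-(2 * P.thp)) := H37.Sf.sf_neg2 h hσ hn P.thp0.le
  have h3 : y n ^ (-(2 * P.thp)) ≤ y n ^ (-2 : ℝ) :=
    Real.rpow_le_rpow_of_exponent_ge (h.fl.y0 n) (h.y1 n hn) (by linarith)
  linarith

/-- **the number of the (rd) term** -/
theorem num_e (h : SFlow P b σ cc c1 q2 qx a y ε xs c' r q A' N0) (hc1 : 0 < c1) {ck : ℝ}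
    (hk : c1 < ck / 64) {u Kv c E : ℝ} (hu : 0 ≤ u) (hc : 0 < c) (hK : 0 ≤ Kv) (hE : 0 ≤ E) :
    ∀ᶠ n in atTop, ∀ τ Δ pr S X : ℝ, τ ≤ 10 * y n ^ (-c1) → Δ ≤ y n ^ (-c1) →
      pr ≤ y n ^ (-c1) → 0 ≤ S → S ≤ Real.exp (10 * y n ^ (-c1)) → 0 ≤ X →
      X ≤ Real.exp (y n ^ (-c1)) →
      Real.exp ((τ + 4) / 2) * √(Kv * S * X *
        Real.exp (2 * Δ + E + pr / 2 - c * 2 ^ (kf ck y n / 64) / 8)) ≤ 1 / 2 * y n ^ u := by
  filter_upwards [sf_big h hc1 (M := Kv + E + 10) (by positivity),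
    sf_big h (p := ck / 64 - c1) (M := 2 * (240 / c)) (by linarith) (by positivity),
    sf_log h hc1 hu, eventually_ge_atTop N0] with n g1 g2 g3 hN
  intro τ Δ pr S X hτ hΔ hpr hS0 hS hX0 hX
  have hy := h.fl.y0 n
  obtain ⟨T, hT⟩ : ∃ T, T = y n ^ (-c1) := ⟨_, rfl⟩
  obtain ⟨M, hM⟩ : ∃ M : ℝ, M = 2 ^ (kf ck y n / 64) := ⟨_, rfl⟩
  rw [← hT] at hτ hΔ hpr hS hX g1 g3
  rw [← hM]
  have hT0 : 0 < T := by rw [hT]; exact Real.rpow_pos_of_pos hy _
  have hMT : 240 / c * T ≤ M := by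
    have e1 : y n ^ (-(ck / 64)) = y n ^ (-(ck / 64 - c1)) * T := by
      rw [hT, ← Real.rpow_add hy]
      congr 1
      ring
    have h1 : y n ^ (-(ck / 64)) ≤ 2 * M := by
      have e2 : (2 : ℝ) ^ (ck / 64 * Real.logb 2 (1 / y n)) = y n ^ (-(ck / 64)) := by
        rw [mul_comm, Real.rpow_mul two_pos.le, Real.rpow_logb two_pos (by norm_num)
          (by positivity), one_div, Real.inv_rpow hy.le, Real.rpow_neg hy.le]
      have e3 : 2 * M = (2 : ℝ) ^ (((kf ck y n / 64 : ℕ) : ℝ) + 1) := by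
        rw [Real.rpow_add two_pos, Real.rpow_one, Real.rpow_natCast, hM]
        ring
      rw [e3, ← e2]
      refine Real.rpow_le_rpow_of_exponent_le one_le_two ?_
      have h2 : ck * Real.logb 2 (1 / y n) ≤ (kf ck y n : ℝ) := le_lg _ _
      have h3 : (kf ck y n : ℝ) ≤ 64 * ((kf ck y n / 64 : ℕ) : ℝ) + 64 := by
        have : kf ck y n ≤ 64 * (kf ck y n / 64) + 64 := by omega
        exact_mod_cast this
      linarith
    rw [e1] at h1
    have h4 := mul_le_mul_of_nonneg_right g2 hT0.le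
    linarith
  have hcM : 15 * T ≤ c * M / 16 := by
    have h1 := mul_le_mul_of_nonneg_left hMT hc.le
    have e1 : c * (240 / c * T) = 240 * T := by field_simp
    linarith
  have hKe : Kv ≤ Real.exp T := by
    have := Real.add_one_le_exp T
    linarith
  have hsq : √(Kv * S * X * Real.exp (2 * Δ + E + pr / 2 - c * M / 8)) ≤
      Real.exp ((29 / 2 * T + E - c * M / 8) / 2) := by
    refine Real.sqrt_le_iff.2 ⟨(Real.exp_pos _).le, ?_⟩
    have e1 : Real.exp ((29 / 2 * T + E - c * M / 8) / 2) ^ 2 =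
        Real.exp T * Real.exp (10 * T) * Real.exp T *
          Real.exp (2 * T + E + T / 2 - c * M / 8) := by
      rw [← Real.exp_nat_mul, ← Real.exp_add, ← Real.exp_add, ← Real.exp_add]
      congr 1
      push_cast
      ring
    rw [e1]
    have h1 : Real.exp (2 * Δ + E + pr / 2 - c * M / 8) ≤
        Real.exp (2 * T + E + T / 2 - c * M / 8) := Real.exp_le_exp.2 (by linarith)
    have h2 : Kv * S ≤ Real.exp T * Real.exp (10 * T) :=
      mul_le_mul hKe hS hS0 (Real.exp_pos _).le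
    have h3 : Kv * S * X ≤ Real.exp T * Real.exp (10 * T) * Real.exp T :=
      mul_le_mul h2 hX hX0 (by positivity)
    exact mul_le_mul h3 h1 (Real.exp_pos _).le (by positivity)
  have h1 : Real.exp ((τ + 4) / 2) ≤ Real.exp (5 * T + 2) := Real.exp_le_exp.2 (by linarith)
  have h2 : Real.exp ((τ + 4) / 2) * √(Kv * S * X *
      Real.exp (2 * Δ + E + pr / 2 - c * M / 8)) ≤ Real.exp (-1 + -T) := by
    refine (mul_le_mul h1 hsq (Real.sqrt_nonneg _) (Real.exp_pos _).le).trans ?_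
    rw [← Real.exp_add]
    refine Real.exp_le_exp.2 ?_
    linarith
  refine h2.trans ?_
  rw [Real.exp_add]
  have h3 : Real.exp (-1) ≤ 1 / 2 := by
    rw [Real.exp_neg, one_div]
    refine inv_anti₀ (by norm_num) ?_
    have := Real.add_one_le_exp (1 : ℝ)
    linarith
  have h4 : Real.exp (-T) ≤ y n ^ u := by
    rw [Real.rpow_def_of_pos hy]
    refine Real.exp_le_exp.2 ?_
    rw [one_div, Real.log_inv] at g3
    linarith
  exact mul_le_mul h3 h4 (Real.exp_pos _).le (by norm_num)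

/-- **the mass of a piece** -/
theorem num_S (h : SFlow P b σ cc c1 q2 qx a y ε xs c' r q A' N0) (hc1 : 0 < c1) {ck : ℝ}
    (hck : 0 < ck) : ∀ᶠ n in atTop, ∀ Ω : ℝ, 0 ≤ Ω → Ω ≤ Real.exp (3 * y n ^ (-c1)) →
      tn n * (4 * (((2 * lC n (kf ck y n) : ℕ) : ℝ) + 1) ^ 2 * (6 * Ω) ^ 2) ≤
        Real.exp (10 * y n ^ (-c1)) := by
  filter_upwards [sf_pe h hc1 ck (B := 2592) (by norm_num), eventually_ge_atTop N0]
    with n g1 hN Ω hΩ0 hΩ
  have hy := h.fl.y0 n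
  obtain ⟨T, hT⟩ : ∃ T, T = y n ^ (-c1) := ⟨_, rfl⟩
  rw [← hT] at hΩ g1 ⊢
  obtain ⟨k, hk⟩ : ∃ k, k = kf ck y n := ⟨_, rfl⟩
  have hT0 : 0 < T := by rw [hT]; exact Real.rpow_pos_of_pos hy _
  have h1 : (2 : ℝ) ^ k ≤ 2 * y n ^ (-ck) := by
    rw [hk]
    exact H816.two_lg hy (h.y1 n hN) hck.le
  rw [← hk]
  have e1 : ((2 * lC n k : ℕ) : ℝ) + 1 ≤ 3 * (2 ^ n * 2 ^ (k / 16)) := by
    unfold H145.Sp.lC
    push_cast
    rw [pow_add]
    have : (1 : ℝ) ≤ 2 ^ n * 2 ^ (k / 16) :=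
      one_le_mul_of_one_le_of_one_le (one_le_pow₀ (by norm_num)) (one_le_pow₀ (by norm_num))
    linarith
  have e2 : (((2 * lC n k : ℕ) : ℝ) + 1) ^ 2 ≤ (3 * (2 ^ n * 2 ^ (k / 16))) ^ 2 :=
    pow_le_pow_left₀ (by positivity) e1 2
  have e3 : tn n * (3 * (2 ^ n * 2 ^ (k / 16))) ^ 2 = 9 * ((2 : ℝ) ^ (k / 16)) ^ 2 := by
    rw [tn_eq]
    push_cast
    have : (0 : ℝ) < 2 ^ n := by positivity
    field_simp
    ring
  have e4 : ((2 : ℝ) ^ (k / 16)) ^ 2 ≤ 2 ^ k := by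
    rw [← pow_mul]
    exact pow_le_pow_right₀ (by norm_num) (by omega)
  have htn : 0 < tn n := by
    unfold H972.tn
    positivity
  have e5 : Ω ^ 2 ≤ Real.exp (6 * T) := by
    calc Ω ^ 2 ≤ Real.exp (3 * T) ^ 2 := pow_le_pow_left₀ hΩ0 hΩ 2
      _ = Real.exp (6 * T) := by
        rw [← Real.exp_nat_mul]
        congr 1
        push_cast
        ring
  have e6 : tn n * (((2 * lC n k : ℕ) : ℝ) + 1) ^ 2 ≤ 18 * y n ^ (-ck) := by
    have := mul_le_mul_of_nonneg_left e2 htn.le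
    rw [e3] at this
    linarith
  have hyk : 0 < y n ^ (-ck) := Real.rpow_pos_of_pos hy _
  calc tn n * (4 * (((2 * lC n k : ℕ) : ℝ) + 1) ^ 2 * (6 * Ω) ^ 2) =
        144 * (tn n * (((2 * lC n k : ℕ) : ℝ) + 1) ^ 2) * Ω ^ 2 := by ring
    _ ≤ 144 * (18 * y n ^ (-ck)) * Real.exp (6 * T) :=
        mul_le_mul (mul_le_mul_of_nonneg_left e6 (by norm_num)) e5 (sq_nonneg _) (by positivity)
    _ = 2592 * y n ^ (-ck) * Real.exp (6 * T) := by ring
    _ ≤ Real.exp T * Real.exp (6 * T) := mul_le_mul_of_nonneg_right g1 (Real.exp_pos _).le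
    _ = Real.exp (7 * T) := by
        rw [← Real.exp_add]
        congr 1
        ring
    _ ≤ Real.exp (10 * T) := Real.exp_le_exp.2 (by linarith)

/-- **the size of the torus** -/
theorem num_X (hP : P.Adm) (hσ : 0 ≤ σ) (hσ1 : σ ≤ 1 / 4)
    (h : SFlow P b σ cc c1 q2 qx a y ε xs c' r q A' N0) (hc1 : 0 < c1) {i : ℕ} (hi : 1 ≤ i)
    {ck : ℝ} (hck : 64 * P.th ≤ ck) (hck1 : ck ≤ P.thp) {B : ℝ} (hB : 1 ≤ B) :
    ∀ᶠ n in atTop, ∀ R, 2 ^ (n + kf ck y n) ≤ R →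
      R ≤ 2 ^ (n + P.w (ε n) + kf ck y (n + P.w (ε n))) →
      ((sd i R : ℝ) / ((2 ^ n : ℕ) : ℝ)) ^ 2 ≤ Real.exp (y n ^ (-c1)) ∧
      B * ((sd i R : ℝ) / ((2 ^ n : ℕ) : ℝ)) ≤ Real.exp (y n ^ (-c1)) := by
  filter_upwards [cwin hP hσ hσ1 h hi hck hck1 0, sf_pe h hc1 20 (B := 1024 * B) (by positivity)]
    with n ⟨hN, _, _, _, hwin⟩ g1 R h1 h2
  obtain ⟨-, -, hR2⟩ := hwin R h1 h2
  have hy := h.fl.y0 n
  have hw := two_w hP h hσ hN
  have e1 : (sd i R : ℝ) / ((2 ^ n : ℕ) : ℝ) ≤ 2 ^ (5 * P.w (ε n)) := by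
    rw [div_le_iff₀ (by positivity)]
    have h3 : sd i R ≤ 2 ^ (5 * P.w (ε n)) * 2 ^ n := by
      rw [H446.Pr.sd_eq, ← pow_add]
      exact Nat.pow_le_pow_right (by norm_num) (by omega)
    exact_mod_cast h3
  have hx0 : 0 ≤ (sd i R : ℝ) / ((2 ^ n : ℕ) : ℝ) := by positivity
  have e2 : (2 : ℝ) ^ (5 * P.w (ε n)) ≤ 32 * y n ^ (-10 : ℝ) := by
    have h3 : (2 : ℝ) ^ (5 * P.w (ε n)) = (2 ^ P.w (ε n)) ^ 5 := by
      rw [← pow_mul]
      congr 1
      ring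
    rw [h3]
    refine (pow_le_pow_left₀ (by positivity) hw 5).trans (le_of_eq ?_)
    rw [mul_pow, ← Real.rpow_natCast (y n ^ (-2 : ℝ)), ← Real.rpow_mul hy.le]
    norm_num
  have hp0 : 0 < y n ^ (-10 : ℝ) := Real.rpow_pos_of_pos hy _
  have hp1 : 1 ≤ y n ^ (-10 : ℝ) :=
    Real.one_le_rpow_of_pos_of_le_one_of_nonpos hy (h.y1 n hN) (by norm_num)
  have e3 : y n ^ (-20 : ℝ) = y n ^ (-10 : ℝ) * y n ^ (-10 : ℝ) := by
    rw [← Real.rpow_add hy]
    norm_num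
  rw [e3] at g1
  set x := (sd i R : ℝ) / ((2 ^ n : ℕ) : ℝ) with hx
  set z := y n ^ (-10 : ℝ) with hz
  have e4 : x ≤ 32 * z := e1.trans e2
  have e5 : 0 ≤ z * z := by positivity
  constructor
  · refine le_trans ?_ g1
    calc x ^ 2 ≤ (32 * z) ^ 2 := pow_le_pow_left₀ hx0 e4 2
      _ = 1024 * (z * z) := by ring
      _ ≤ 1024 * B * (z * z) := mul_le_mul_of_nonneg_right (by linarith) e5
  · refine le_trans ?_ g1
    have e6 : z ≤ z * z := le_mul_of_one_le_left hp0.le hp1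
    calc B * x ≤ B * (32 * z) := mul_le_mul_of_nonneg_left e4 (by linarith)
      _ ≤ B * (32 * (z * z)) := by gcongr
      _ ≤ 1024 * B * (z * z) := by nlinarith [mul_nonneg (by linarith : (0:ℝ) ≤ B) e5]

end num

end

end Vale.Agent.P159.H191.Cf
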