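import Vale.Agent.P159.H191.Ct9
import Vale.Agent.P159.H191.Ct11
import Vale.Agent.P159.H446.Cut5
import Vale.Agent.P159.H859.Gn3
import Vale.Agent.P159.H816.Sm2

/-!
P159 (helper191), module CUT (12): **the nodes of CUT along the flow**, helper37's `Win` form.

* `Om_flow` : the oscillation of the tent average is `≤ exp (2 y^(-2 c3))`;
* `E4P` : the cross term of the pieces with the local bumps (input, helper883);
* **`nd_win`** : helper446's `NdP` (input (5) of `cut_win`).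
-/

set_option linter.unusedSectionVars false

namespace Vale.Agent.P159.H191.Cf

open Finset Filter Topology MeasureTheory
open Vale.Agent.P159.H191
open Vale.Agent.P159.H446.Pr (nC Om Y1p NdP sd_eq clog_ge win_pow' y_tend Y1_diff wV wV_eq wts_wV
  lR_le lC_le pow_le_lC sd_nC)
open Vale.Agent.P159.H474.Cb (LocC GE)
open Vale.Agent.P159.H37.Sf (kf kE1 Win sf_big sf_ny sf_FL sf_win tn_pos)
open Vale.Agent.P159.H145.Sp (AxP lC lR muK wB gC cM)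
open Vale.Agent.P159.H145.Lw (KnW)
open Vale.Agent.P159.H773 (sd sd_ge nuF mm cMn_pt)
open Vale.Agent.P159.H663.Dr (tT)
open Vale.Agent.P159.H764.Ctg (Cut Cc Cc_pos)
open Vale.Agent.P159.H764.Rd (KR)
open Vale.Agent.P159.H770 (Ed wTD)
open Vale.Agent.P159.H817 (sz gr dv GB nrm IsPath U e1)
open Vale.Agent.P159.H859.Idl (s0 s0_pos gsR_spec)
open Vale.Agent.P159.H963.Core (RF)
open Vale.Agent.P159.H972 (lg tn Par FL)
open Vale.Agent.P159.H801 (SFlow itw)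
open Vale.Agent.P159.H816 (SmAt SmW)
open Vale.Agent.P159.H27 (Rb)
open Vale.Agent.P159.H856.Dl (Del)
open Vale.Agent.P159.TM
open Vale.Agent.P159.TM.Spec (V)

noncomputable section

lemma FL_cast {b t a η : ℝ} {N M : ℕ} [NeZero N] [NeZero M] (h : N = M) (H : FL b t a η N) :
    FL b t a η M := by
  subst h
  exact H

lemma nod_mono' {N : ℕ} [NeZero N] {b t : ℝ} {η : Ed N → ℤ} {φ : V N → ℝ} {l : ℕ} {c : V N}
    {f : V N → ℝ} {τ e e' e4 δ δ' Ev : ℝ} (h : Nod N b t η φ l c f τ e e4 δ Ev) (he : e ≤ e')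
    (hδ : δ ≤ δ') : Nod N b t η φ l c f τ e' e4 δ' Ev := by
  intro v W c0 h1 h2
  obtain ⟨g1, g2, g3, g4⟩ := h v W c0 h1 h2
  exact ⟨g1, rdN_mono g2 he, g3, g4.trans hδ⟩

/-- **the cross term of the pieces of the path** (input) -/
def E4P (b t : ℝ) (i n k q R : ℕ) (η : ∀ R, Ed (sd i R) → ℤ) (φ : ∀ R, V (sd i R) → ℝ)
    (μ g : V (sd i R) → ℝ) (Ω e4 p0 : ℝ) : Prop :=
  ∃ G0 : Set (V (sd i R) → ℝ), (nuF b (sd i) t R).real G0ᶜ ≤ p0 ∧ ∀ F ∈ G0,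
    (∀ x y, |tT (sd i R) q F x - tT (sd i R) q F y| ≤ Ω) →
    ∀ j < nC i n k R, ∀ i' < nC i n k R * nC i n k R,
      17 * lC n k < sz (nd (sd i R) (nC i n k R) (lC n k) i' - 0) →
      17 * lC n k < sz (nd (sd i R) (nC i n k R) (lC n k) i' - R • e1) →
      ∀ (v : V (sd i R) → ℝ) (W : GE (sd i R)) (c0 : ℝ),
        Cut (nd (sd i R) (nC i n k R) (lC n k) i') (2 * lC n k) (η R) (φ R) v W c0 →
        (∀ x, sz (x - nd (sd i R) (nC i n k R) (lC n k) i') < 3 * (2 * lC n k) →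
          dv (gr v) x = 0) →
        |BT (sd i R) b t (Y1p i n k q R μ g j i' F - Y1p i n k q R μ g j (i' + 1) F) v| ≤ e4

section flow

variable {P : Par} {b σ cc c1 q2 qx : ℝ} {a y ε xs : ℕ → ℝ} {c' r q A' : ℝ} {N0 : ℕ}

/-- **the oscillation along the flow** -/
theorem Om_flow (hb : 0 < b) (hP : P.Adm) (h : SFlow P b σ cc c1 q2 qx a y ε xs c' r q A' N0)
    (hσ0 : 0 ≤ σ) (hσ : σ ≤ 1 / 4) {ck c3 : ℝ} (hck : 0 < ck) (hck1 : ck ≤ P.thp) (h3 : 0 < c3)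
    {i : ℕ} (sc : ℕ → ℕ) (hsc : ∀ᶠ n in atTop, sc n ≤ n ∧ (sc n : ℝ) ≤ y n ^ (-(2 * c3)) + 1) :
    ∀ᶠ n in atTop, ∀ R, 2 ^ (n + kf ck y n) ≤ R → R ≤ 2 ^ kE1 P ck y ε n →
      Om b (sd i R) (2 ^ (n - sc n)) (6 * y n ^ (-c3)) ≤ Real.exp (2 * y n ^ (-(2 * c3))) := by
  have hthp := P.thp0
  have hthp1 : P.thp ≤ 1 := by
    have := hP.hx
    have := hP.x11
    have := P.th0
    linarith
  obtain ⟨Cn, hCn, hny⟩ := sf_ny h
  have hD : 0 ≤ 16 / c3 := by positivity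
  have hZt : Tendsto (fun n => y n ^ (-c3)) atTop atTop :=
    (H446.Nc.tend_rpow h3).comp (y_tend h)
  filter_upwards [hZt.eventually (H446.Nc.num_osc hb hD), hsc, hny,
    sf_big h (p := 1) (M := Cn) one_pos hCn,
    win_pow' h hσ0 hσ hck hck1 (κ := 16) (by linarith) i, eventually_ge_atTop N0]
    with n g1 hscn hnyn hyC hpw hn R hR1 hR2
  have hy := h.fl.y0 n
  have hy1 := h.y1 n hn
  have eD : (y n ^ (-c3)) ^ (16 / c3) = y n ^ (-(16 : ℝ)) := by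
    rw [← Real.rpow_mul hy.le]
    congr 1
    field_simp
  have e2 : y n ^ (-(2 * c3)) = (y n ^ (-c3)) ^ 2 := by
    rw [← Real.rpow_natCast, ← Real.rpow_mul hy.le]
    congr 1
    push_cast
    ring
  have hcl := clog_ge hR1
  have hN0 : 0 < sd i R := NeZero.pos _
  have hNT : (sd i R : ℝ) = 2 ^ (i + Nat.clog 2 R - n) * 2 ^ n := by
    rw [sd_eq, ← pow_add]
    push_cast
    congr 1
    omega
  have hny2 : (n : ℝ) ≤ y n ^ (-(16 : ℝ)) := by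
    have e1 : y n ^ (-(2 : ℝ)) = y n ^ (-(1 : ℝ)) * (y n)⁻¹ := by
      rw [show (-(2 : ℝ)) = -1 + -1 by norm_num, Real.rpow_add hy, Real.rpow_neg_one]
    have e3 : (n : ℝ) ≤ Cn * (y n)⁻¹ := by
      rw [← div_eq_mul_inv, le_div_iff₀ hy]
      exact hnyn
    have e4 : (n : ℝ) ≤ y n ^ (-(2 : ℝ)) := by
      rw [e1]
      exact e3.trans (mul_le_mul_of_nonneg_right hyC (inv_nonneg.2 hy.le))
    exact e4.trans (Real.rpow_le_rpow_of_exponent_ge hy hy1 (by norm_num))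
  have hNle : (sd i R : ℝ) ≤ (y n ^ (-c3)) ^ (16 / c3) * 2 ^ n := by
    rw [eD, hNT]
    exact mul_le_mul_of_nonneg_right (hpw R hR2) (by positivity)
  have key := g1 (sd i R) n (sc n) hN0 hNle (by rw [eD]; exact hny2) hscn.1 (by
    rw [← e2]
    exact hscn.2)
  rw [e2]
  exact key

/-- the size of the whole oscillation -/
lemma om_num {O s T X E : ℝ} (hs : 0 ≤ s) (hE : 0 ≤ E) (hT0 : 0 ≤ T) (h1 : O ≤ X)
    (hX : X ≤ Real.exp (2 * T)) (hT : 656 * s + E + 1 ≤ T) : O + 656 * s ≤ Real.exp (3 * T) := by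
  have g3 : 1 + 656 * s ≤ Real.exp T := by
    have := Real.add_one_le_exp T
    linarith
  have g4 : 1 ≤ Real.exp (2 * T) := Real.one_le_exp (by positivity)
  have g5 : Real.exp (3 * T) = Real.exp (2 * T) * Real.exp T := by
    rw [← Real.exp_add]
    congr 1
    ring
  rw [g5]
  have g6 : Real.exp (2 * T) * (1 + 656 * s) ≤ Real.exp (2 * T) * Real.exp T :=
    mul_le_mul_of_nonneg_left g3 (Real.exp_pos _).le
  nlinarith

/-- **the nodes of CUT along the flow** -/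
theorem nd_win (hb : 0 < b) (hP : P.Adm) (h : SFlow P b σ cc c1 q2 qx a y ε xs c' r q A' N0)
    (hσ0 : 0 ≤ σ) (hσ : σ ≤ 1 / 4) (hcc : 0 ≤ cc) (hc1 : 0 < c1) {L₀ c C : ℝ} {A : ℕ}
    (H : LocC P L₀ c C A) {ck c3 c5 δs : ℝ} (hck : 64 * P.th ≤ ck) (hck1 : ck ≤ P.thp)
    (hk : c1 < ck / 64) (h3 : 0 < c3) (h31 : 2 * c3 ≤ c1) (h5 : 0 ≤ c5)
    (hu : 1 + c5 + 4 * cc + 64 * P.thp < 2) (hδs : 1 + c5 ≤ 2 - 3 * σ - δs)
    {β C2 : ℝ} (hβ : 0 ≤ β) (hβ1 : β ≤ 1) (hC2 : 1 ≤ C2) {i : ℕ} (hi : 6 ≤ i) {A0 : ℝ} {Am : ℕ}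
    (hAm : 1 ≤ Am) (hA0 : A0 ≤ 2 ^ i) {η : ∀ R, Ed (sd i R) → ℤ} {φ : ∀ R, V (sd i R) → ℝ}
    (hx : AxP i η φ) (sc : ℕ → ℕ) (κ : ℕ → ℤ × ℤ → ℝ)
    (hsc : ∀ᶠ n in atTop, sc n ≤ n ∧ (sc n : ℝ) ≤ y n ^ (-(2 * c3)) + 1)
    (hμ : ∀ᶠ n in atTop, ∀ R, 2 ^ (n + kf ck y n) ≤ R → R ≤ 2 ^ kE1 P ck y ε n →
        (∀ z, 0 ≤ muK (sd i R) (lC n (kf ck y n)) (κ n) z) ∧
          ∑ z, muK (sd i R) (lC n (kf ck y n)) (κ n) z = 1)
    (hS : ∀ᶠ n in atTop, SmW P b σ δs ck y ε i c1 1 n)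
    (hDel : Win P b β C2 A0 Am i ck a y ε (fun n R =>
        Del (wTD (sd i R) b) (tn n • (1 : Matrix (V (sd i R)) (V (sd i R)) ℝ)) (tn n) 0 (η R)
          (φ R) ≤ y n ^ (-(c3 / 2))))
    (h4 : Win P b β C2 A0 Am i ck a y ε fun n R =>
        E4P b (tn n) i n (kf ck y n) (2 ^ (n - sc n)) R η φ
          (muK (sd i R) (lC n (kf ck y n)) (κ n)) (gC i n (kE1 P ck y ε n) R)
          (Om b (sd i R) (2 ^ (n - sc n)) (6 * y n ^ (-c3))) (y n ^ (1 + c5))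
          (Real.exp (-(5 * y n ^ (-c3))))) :
    Win P b β C2 A0 Am i ck a y ε fun n R =>
        NdP b (tn n) i n (kf ck y n) (2 ^ (n - sc n)) R η φ
          (muK (sd i R) (lC n (kf ck y n)) (κ n)) (gC i n (kE1 P ck y ε n) R)
          (Om b (sd i R) (2 ^ (n - sc n)) (6 * y n ^ (-c3)))
          (y n ^ (-c3) + 4 * y n ^ (-(c3 / 2)) + 3 * EvC) (y n ^ (1 + c5)) (y n ^ (1 + c5))
          (y n ^ (1 + c5)) EvC (Real.exp (-(5 * y n ^ (-c3)))) := by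
  have hth := P.th0
  have hck0 : 0 < ck := by linarith
  have hKR : 0 ≤ KR A c C := by
    have h1 := H474.Cb.KL_pos A (c := c) H.hC
    unfold H764.Rd.KR
    positivity
  have hs0 := s0_pos
  have hCc := Cc_pos
  have hEv := EvC_nonneg
  unfold Win at hDel h4 ⊢
  filter_upwards [hDel, h4, hμ, hS, Om_flow hb hP h hσ0 hσ hck0 hck1 h3 sc hsc (i := i),
    carm_flow hP hb hσ0 hσ hcc h H (by omega : 1 ≤ i) hck hck1 (u := 1 + c5) (by linarith) hu,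
    num_e h hc1 hk (u := 1 + c5) (by linarith) H.hc hKR hEv,
    num_S h hc1 hck0,
    num_X hP hσ0 hσ h hc1 (by omega : 1 ≤ i) hck hck1 (B := 2 * C2) (by linarith),
    cwin hP hσ0 hσ h (by omega : 1 ≤ i) hck hck1 128,
    sf_FL h hP hσ,
    sf_big h (p := P.th / 8) (M := 96 * 2 ^ 2 * (3528 * Cc ^ 2)) (by positivity) (by positivity),
    sf_pe h hc1 (1 + c5) (B := 128 * (3528 * Cc ^ 2) + 1) (by positivity),
    sf_big h hc1 (M := 656 * s0 + EvC + 1) (by positivity)]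
    with n u1 u4 hμn hSn hOm harm hne hnS hnX hcw hFLn hG0 hRFe hT n0 j hnj R hR1 hR2 hK
  obtain ⟨hN, hk128, -, -, hwin⟩ := hcw
  obtain ⟨hTT, hcl, -⟩ := hwin R hR1 hR2
  have hy := h.fl.y0 n
  have hy1 := h.y1 n hN
  obtain ⟨hμ0, hμ1⟩ := hμn R hR1 hR2
  obtain ⟨T, hTd⟩ : ∃ T, T = y n ^ (-c1) := ⟨_, rfl⟩
  have hT0 : 0 < T := by rw [hTd]; exact Real.rpow_pos_of_pos hy _
  have hmono : ∀ {p : ℝ}, p ≤ c1 → y n ^ (-p) ≤ T := fun {p} hp => by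
    rw [hTd]
    exact Real.rpow_le_rpow_of_exponent_ge hy hy1 (by linarith)
  -- the arms
  obtain ⟨mb, hm⟩ : ∃ mb, mb + 1 = 2 ^ (n + kf ck y n / 32) :=
    ⟨2 ^ (n + kf ck y n / 32) - 1, Nat.sub_add_cancel Nat.one_le_two_pow⟩
  obtain ⟨nb, hnb⟩ : ∃ nb, nb + 2 = 2 ^ (i + Nat.clog 2 R - (n + kf ck y n / 32)) := by
    refine ⟨2 ^ (i + Nat.clog 2 R - (n + kf ck y n / 32)) - 2, Nat.sub_add_cancel ?_⟩
    calc 2 = 2 ^ 1 := by norm_num
      _ ≤ _ := Nat.pow_le_pow_right (by norm_num) (by omega)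
  have i1 : NeZero ((mb + 1) * (nb + 2)) := ⟨by positivity⟩
  have i2 : NeZero ((mb + 1) * 2) := ⟨by positivity⟩
  obtain ⟨hNN, hLN, hGeo, ω, hω, hω4, hω8⟩ := harm R hR1 hR2 mb nb hm hnb
  -- the pair
  have hR : 1 ≤ R := Nat.one_le_two_pow.trans hR1
  obtain ⟨q1, Lp, hLp⟩ := H552.Lq.path_ax (i := i) (by omega) hx.pth hR
  have hax : H773.ax0 (sd i R) R = R • (H817.e1 : V (sd i R)) := (H817.nsmul_e1 R).symm
  rw [hax] at hLp
  have hsd : 2 ^ i * R ≤ sd i R := sd_ge i R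
  have h4R : 4 * R ≤ sd i R := by
    have h2 : 2 ^ 2 ≤ 2 ^ i := Nat.pow_le_pow_right (by norm_num) (by omega)
    exact (Nat.mul_le_mul_right R h2).trans hsd
  have hszR : sz ((R • e1 : V (sd i R)) - 0) = R := by
    rw [sub_zero]
    exact H817.sz_ne1 (by omega)
  have hlR := lR_le (by omega : 24 ≤ kf ck y n) hR1
  have hlC := lC_le hR1
  have h2n := pow_le_lC n (kf ck y n)
  have hn1 : 1 ≤ 2 ^ n := Nat.one_le_two_pow
  have hl : 0 < lC n (kf ck y n) := by unfold H145.Sp.lC; positivity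
  have hw : wB (sd i R) (2 ^ n) = wV (sd i R) (2 ^ n) := (wV_eq (by omega)).symm
  have hwW : Wts (wB (sd i R) (2 ^ n)) (2 ^ n) := by
    rw [hw]
    exact wts_wV _
  -- the price
  have hκ2 : 2 ^ n ≤ 2 ^ (n + kf ck y n / 64) := Nat.pow_le_pow_right (by norm_num) (by omega)
  have hκ3 : 2 ≤ 2 ^ (n + kf ck y n / 64) := by
    calc 2 = 2 ^ 1 := by norm_num
      _ ≤ _ := Nat.pow_le_pow_right (by norm_num) (by omega)
  have hκR : 2 * 2 ^ (n + kf ck y n / 64) ≤ R := by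
    refine le_trans ?_ hR1
    calc 2 * 2 ^ (n + kf ck y n / 64) = 2 ^ (1 + (n + kf ck y n / 64)) := by
          rw [pow_add 2 1, pow_one]
      _ ≤ _ := Nat.pow_le_pow_right (by norm_num) (by omega)
  have hRb : Rb (kf ck y) (fun n => P.w (ε n)) n0 0 ≤ R := by
    obtain ⟨κ', slo⟩ := hK.slo
    have r0 : Rb (kf ck y) (fun n => P.w (ε n)) n0 0 ≤ Rb (kf ck y) (fun n => P.w (ε n)) n0 j :=
      slo.Rb_mono (Nat.zero_le j)
    have r1 : Rb (kf ck y) (fun n => P.w (ε n)) n0 j = 2 ^ (n + kf ck y n) := by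
      unfold H27.Rb H552.Dx7.kk
      rw [← hnj]
    rw [r1] at r0
    exact r0.trans hR1
  have hRA : R ≤ Am * R := Nat.le_mul_of_pos_left R hAm
  have hAR : A0 * R ≤ sd i R := by
    have h4 : (2 : ℝ) ^ i * R ≤ sd i R := by exact_mod_cast hsd
    exact (mul_le_mul_of_nonneg_right hA0 (Nat.cast_nonneg R)).trans h4
  have hCT : Real.exp (lcT (sd i R) b (η R)) = cM b i η R := by
    unfold lcT
    rw [Real.exp_log]
    · rfl
    · exact H773.cMn_pos (b := b) (Nf := sd i) (wD := fun R => wTD (sd i R) b (η R)) hb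
        (fun R => H883.bw_wTD hb (η R)) R
  have hcT : cM b i η R = H773.cT0 (sd i R - 2) b R := cMn_pt (i := i) hb.le (by omega) hx.pth hR
  have hcM0 : 0 < cM b i η R := by
    rw [← hCT]
    exact Real.exp_pos _
  obtain ⟨κc, hκc⟩ : ∃ κc, κc = 2 ^ (n + kf ck y n / 64) := ⟨_, rfl⟩
  rw [← hκc] at hκ2 hκ3 hκR hGeo
  have hQ : mm b (κc - 1) ^ 2 ≤ Real.exp (lcT (sd i R) b (η R) + T) := by
    have g1 := (hK.tor R hRb hRA (sd i R) hAR).2 (κc - 1) (by omega) (by omega)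
    rw [← hcT] at g1
    have g2 : mm b (κc - 1) ^ 2 ≤ C2 * ((R : ℝ) / ((κc - 1 : ℕ) : ℝ)) ^ β * cM b i η R := g1
    have hκp : (0 : ℝ) < ((κc - 1 : ℕ) : ℝ) := by
      have : 0 < κc - 1 := by omega
      exact_mod_cast this
    have g3 : 1 ≤ (R : ℝ) / ((κc - 1 : ℕ) : ℝ) := by
      rw [one_le_div hκp]
      have : κc - 1 ≤ R := by omega
      exact_mod_cast this
    have g4 : ((R : ℝ) / ((κc - 1 : ℕ) : ℝ)) ^ β ≤ (R : ℝ) / ((κc - 1 : ℕ) : ℝ) := by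
      have := Real.rpow_le_rpow_of_exponent_le g3 hβ1
      rwa [Real.rpow_one] at this
    have g5 : (R : ℝ) / ((κc - 1 : ℕ) : ℝ) ≤ 2 * ((sd i R : ℝ) / ((2 ^ n : ℕ) : ℝ)) := by
      rw [div_le_iff₀ hκp]
      have a1 : ((2 ^ n : ℕ) : ℝ) ≤ 2 * ((κc - 1 : ℕ) : ℝ) := by
        have : 2 ^ n ≤ 2 * (κc - 1) := by omega
        exact_mod_cast this
      have a2 : (R : ℝ) ≤ sd i R := by
        have : R ≤ sd i R := by omega
        exact_mod_cast this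
      have a3 : (0 : ℝ) < ((2 ^ n : ℕ) : ℝ) := by positivity
      have a4 : 0 ≤ (sd i R : ℝ) / ((2 ^ n : ℕ) : ℝ) := by positivity
      calc (R : ℝ) ≤ sd i R := a2
        _ = (sd i R : ℝ) / ((2 ^ n : ℕ) : ℝ) * ((2 ^ n : ℕ) : ℝ) := by field_simp
        _ ≤ (sd i R : ℝ) / ((2 ^ n : ℕ) : ℝ) * (2 * ((κc - 1 : ℕ) : ℝ)) :=
            mul_le_mul_of_nonneg_left a1 a4
        _ = _ := by ring
    have g6 := (hnX R hR1 hR2).2
    rw [← hTd] at g6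
    have g7 : C2 * ((R : ℝ) / ((κc - 1 : ℕ) : ℝ)) ^ β ≤ Real.exp T := by
      refine le_trans ?_ g6
      calc C2 * ((R : ℝ) / ((κc - 1 : ℕ) : ℝ)) ^ β ≤
            C2 * (2 * ((sd i R : ℝ) / ((2 ^ n : ℕ) : ℝ))) :=
            mul_le_mul_of_nonneg_left (g4.trans g5) (by linarith)
        _ = _ := by ring
    rw [Real.exp_add, hCT, mul_comm]
    exact g2.trans (mul_le_mul_of_nonneg_right g7 hcM0.le)
  -- the event
  obtain ⟨G0, hG0p, hnd⟩ := u4 n0 j hnj R hR1 hR2 hK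
  refine ⟨G0, hG0p, fun F hF hosc j' hj' i' hi' hp hq' => ?_⟩
  have hx4 := hnd F hF hosc j' hj' i' hi' hp hq'
  -- the oscillation of the whole field
  have hprm := H37.Sf.prm_of (K1 := kE1 P ck y ε n) hi (by omega : 32 ≤ kf ck y n) hR1 hR2
  have hgle : ∀ x, |gC i n (kE1 P ck y ε n) R x| ≤ 328 * s0 := by
    intro x
    have g1 := (gsR_spec hprm).le x
    refine g1.trans (mul_le_of_le_one_right (by positivity) ?_)
    rw [div_le_one (by exact_mod_cast hR)]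
    have : 2 ^ (n + 3 * (Nat.log 2 R - n) / 4) ≤ R := by
      have := hprm.hlr
      omega
    exact_mod_cast this
  have hq0 : 0 < 2 ^ (n - sc n) := by positivity
  have hΩ : ∀ x y', |tT (sd i R) (2 ^ (n - sc n)) (F + gC i n (kE1 P ck y ε n) R) x -
      tT (sd i R) (2 ^ (n - sc n)) (F + gC i n (kE1 P ck y ε n) R) y'| ≤
      Om b (sd i R) (2 ^ (n - sc n)) (6 * y n ^ (-c3)) + 656 * s0 := by
    intro x y'
    rw [H663.Dr.tT_add]
    have g1 := hosc x y'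
    have g2 := H859.Gn.abs_tT hq0 hgle x
    have g3 := H859.Gn.abs_tT hq0 hgle y'
    simp only [Pi.add_apply]
    rw [abs_le] at g1 g2 g3 ⊢
    constructor <;> linarith [g1.1, g1.2, g2.1, g2.2, g3.1, g3.2]
  obtain ⟨Ω, hΩd⟩ : ∃ Ω, Ω = Om b (sd i R) (2 ^ (n - sc n)) (6 * y n ^ (-c3)) + 656 * s0 :=
    ⟨_, rfl⟩
  rw [← hΩd] at hΩ
  have hOm0 : 0 ≤ Om b (sd i R) (2 ^ (n - sc n)) (6 * y n ^ (-c3)) :=
    (abs_nonneg _).trans (hosc 0 0)
  have hΩ0 : 0 ≤ Ω := by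
    rw [hΩd]
    positivity
  rw [← hTd] at hT
  have hΩT : Ω ≤ Real.exp (3 * T) := by
    rw [hΩd]
    exact om_num hs0.le hEv hT0.le (hOm R hR1 hR2)
      (Real.exp_le_exp.2 (by linarith only [hmono h31])) hT
  -- the piece
  set f := Y1p i n (kf ck y n) (2 ^ (n - sc n)) R (muK (sd i R) (lC n (kf ck y n)) (κ n))
      (gC i n (kE1 P ck y ε n) R) j' i' F -
    Y1p i n (kf ck y n) (2 ^ (n - sc n)) R (muK (sd i R) (lC n (kf ck y n)) (κ n))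
      (gC i n (kE1 P ck y ε n) R) j' (i' + 1) F with hf
  have hfs : ∀ x, 2 * lC n (kf ck y n) <
      sz (x - nd (sd i R) (nC i n (kf ck y n) R) (lC n (kf ck y n)) i') → f x = 0 := by
    intro x hx'
    rw [hf]
    unfold H446.Pr.Y1p
    exact Y1_supp (sd_nC hR1) hl hwW h2n _ _ _ _ _ _ j' hi' hx'
  have hfM : ∀ x, |f x| ≤ 6 * Ω := by
    intro x
    rw [hf]
    unfold H446.Pr.Y1p
    exact Y1_diff hwW hμ0 hμ1 _ _ (H446.Pr.pla_nonneg (lR n R)) (H446.Pr.pla_le_one (lR n R)) hΩ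
      _ hj' i' x
  -- the real fields
  have hRF : ∀ v : V (sd i R) → ℝ, nrm (gr v) ≤ 3528 * Cc ^ 2 →
      RF (sd i R) b (tn n) ((2 : ℝ) • v) ≤ y n ^ (1 + c5) := by
    intro v hv
    have g1 := (hSn R hR1 hR2).rf hb (tn_pos n) hv (z := 2) hG0
    refine g1.trans ?_
    have g2 : y n ^ (2 - 3 * σ - δs) ≤ y n ^ (1 + c5) :=
      Real.rpow_le_rpow_of_exponent_ge hy hy1 hδs
    have hyp : 0 < y n ^ (1 + c5) := Real.rpow_pos_of_pos hy _
    have g3 : (128 * (3528 * Cc ^ 2) + 1) * Real.exp (-(1 * y n ^ (-c1))) ≤ y n ^ (1 + c5) := by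
      rw [one_mul, ← hTd]
      rw [← hTd, Real.rpow_neg hy.le, ← div_eq_mul_inv, div_le_iff₀ hyp] at hRFe
      rw [Real.exp_neg, ← div_eq_mul_inv, div_le_iff₀ (Real.exp_pos _)]
      linarith
    have g4 := Real.exp_pos (-(1 * y n ^ (-c1)))
    linarith
  -- flatness
  obtain ⟨ha2, hη1, hFL⟩ := hFLn
  have hFLR : FL b (tn n) (a n) (17 * ε n ^ P.pf) (sd i R) :=
    FL_cast (sd_eq i R).symm (hFL _ hTT)
  have hΔ := H446.Pr.del_LT (η R) (φ R) (u1 n0 j hnj R hR1 hR2 hK)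
  have key := nod_pair (N := sd i R) hb (tn_pos n) hl hNN (tn_eq n) H.hL.le H.hc H.hC hLN hGeo hω
    hω4 hLp (x₀ := nd (sd i R) (nC i n (kf ck y n) R) (lC n (kf ck y n)) i') (by omega)
    (by omega) (by rw [hszR]; exact hκR) hFLR ha2 hη1 hΔ hQ hfs hfM hRF hx4
    (y n ^ (-c3) + 4 * y n ^ (-(c3 / 2)) + 3 * EvC)
  refine nod_mono' key ?_ le_rfl
  have hne' := hne (y n ^ (-c3) + 4 * y n ^ (-(c3 / 2)) + 3 * EvC) (y n ^ (-(c3 / 2))) T
    (tn n * (4 * (((2 * lC n (kf ck y n) : ℕ) : ℝ) + 1) ^ 2 * (6 * Ω) ^ 2))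
    (((sd i R : ℝ) / ((2 ^ n : ℕ) : ℝ)) ^ 2) ?_ ?_ hTd.le ?_ ?_ (by positivity)
    (hnX R hR1 hR2).1
  · have eκ : c * (κc : ℝ) / (8 * ((2 ^ n : ℕ) : ℝ)) = c * 2 ^ (kf ck y n / 64) / 8 := by
      rw [hκc]
      push_cast
      rw [pow_add]
      have : (0 : ℝ) < 2 ^ n := by positivity
      field_simp
    rw [eκ]
    linarith
  · rw [← hTd]
    have g1 := hmono (p := c3) (by linarith)
    have g2 := hmono (p := c3 / 2) (by linarith)
    linarith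
  · rw [← hTd]
    exact hmono (by linarith)
  · have := tn_pos n
    positivity
  · exact hnS Ω hΩ0 (by rw [← hTd]; exact hΩT)

end flow

end

end Vale.Agent.P159.H191.Cf
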