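import Vale.Agent.P159.H817.St1
import Vale.Agent.P159.TM.H365.Phi

/-!
P159 (helper191), module CUT (2): the enumerated coarse partition of unity on the torus,
`N = n * l`: pieces `ps i` (`i < n * n`), partial sums `th i`.

* `0 ≤ th i ≤ 1`, `th 0 = 0`, `th (n * n) = 1`, `th (i + 1) = th i + ps i`, `GB (1 / l) (th i)`,
* `ps i x = 0` for `l < sz (x - nd i)`;
* `piece_zero` : a function which vanishes at distance `≤ 9 l` of `p` and `q` has no piece near
  `p` or `q`.
-/

set_option linter.unusedSectionVars false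

open Finset

namespace Vale.Agent.P159.H191

open Vale.Agent.P159.TM.Spec (V)
open Vale.Agent.P159.TM.H365 (phi AA node2 node qq rr A1 cor mem_cor pt)
open Vale.Agent.P159.H817 (sz gr GB gr_eq eb)

noncomputable section

variable {N n l : ℕ} [NeZero N] [NeZero n]

/-- enumeration of the coarse torus -/
def enc (n : ℕ) [NeZero n] : ZMod n × ZMod n ≃ Fin (n * n) :=
  (Fintype.equivFin (ZMod n × ZMod n)).trans (finCongr (by rw [Fintype.card_prod, ZMod.card]))

/-- partial sums of the partition -/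
def th (N n l : ℕ) [NeZero N] [NeZero n] (i : ℕ) (x : V N) : ℝ :=
  AA (n := n) l 0 (fun u => if ((enc n u : Fin (n * n)) : ℕ) < i then 1 else 0) x

/-- the coarse point number `i` -/
def un (n : ℕ) [NeZero n] (i : ℕ) : ZMod n × ZMod n :=
  if h : i < n * n then (enc n).symm ⟨i, h⟩ else 0

/-- the node number `i` -/
def nd (N n l : ℕ) [NeZero N] [NeZero n] (i : ℕ) : V N := node2 N l (un n i)

/-- the piece number `i` -/
def ps (N n l : ℕ) [NeZero N] [NeZero n] (i : ℕ) (x : V N) : ℝ := phi l 0 (un n i) x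

lemma th_zero (x : V N) : th N n l 0 x = 0 := by
  unfold th
  simp only [Nat.not_lt_zero, if_false]
  exact TM.H365.AA_const 0 x

lemma th_last (x : V N) : th N n l (n * n) x = 1 := by
  unfold th
  have e : (fun u : ZMod n × ZMod n => if ((enc n u : Fin (n * n)) : ℕ) < n * n then (1 : ℝ) else 0)
      = fun _ => 1 := by
    funext u
    rw [if_pos (enc n u).isLt]
  rw [e]
  exact TM.H365.AA_const 1 x

lemma th_nonneg (i : ℕ) (x : V N) : 0 ≤ th N n l i x := by
  unfold th AA
  refine Finset.sum_nonneg fun u _ => mul_nonneg ?_ (TM.H365.phi_nonneg u x)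
  show (0 : ℝ) ≤ if ((enc n u : Fin (n * n)) : ℕ) < i then 1 else 0
  split_ifs <;> norm_num

lemma th_le_one (i : ℕ) (x : V N) : th N n l i x ≤ 1 := by
  rw [← TM.H365.AA_const (l := l) (r := 0) (n := n) 1 x]
  unfold th
  refine TM.H365.AA_mono (fun u => ?_) x
  split_ifs <;> norm_num

lemma abs_th (i : ℕ) (x : V N) : |th N n l i x| ≤ 1 := by
  rw [abs_of_nonneg (th_nonneg i x)]
  exact th_le_one i x

lemma ps_nonneg (i : ℕ) (x : V N) : 0 ≤ ps N n l i x := TM.H365.phi_nonneg _ _

lemma ps_le_one (i : ℕ) (x : V N) : ps N n l i x ≤ 1 := TM.H365.phi_le_one _ _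

lemma abs_ps (i : ℕ) (x : V N) : |ps N n l i x| ≤ 1 := by
  rw [abs_of_nonneg (ps_nonneg i x)]
  exact ps_le_one i x

lemma enc_un {i : ℕ} (hi : i < n * n) : ((enc n (un n i) : Fin (n * n)) : ℕ) = i := by
  unfold un
  rw [dif_pos hi, Equiv.apply_symm_apply]

lemma th_succ {i : ℕ} (hi : i < n * n) (x : V N) :
    th N n l (i + 1) x = th N n l i x + ps N n l i x := by
  classical
  have h1 : ps N n l i x = AA (n := n) l 0 (Pi.single (un n i) 1) x := by
    unfold ps AA
    rw [Finset.sum_eq_single (un n i)]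
    · rw [Pi.single_eq_same, one_mul]
    · intro b _ hb
      rw [Pi.single_eq_of_ne hb, zero_mul]
    · intro h'
      exact absurd (Finset.mem_univ _) h'
  rw [h1]
  unfold th
  rw [← TM.H365.AA_add]
  congr 1
  funext u
  by_cases hu : u = un n i
  · rw [hu, enc_un hi, Pi.single_eq_same, if_pos (Nat.lt_succ_self i), if_neg (lt_irrefl i)]
    norm_num
  · rw [Pi.single_eq_of_ne hu, add_zero]
    have h2 : ((enc n u : Fin (n * n)) : ℕ) ≠ i := by
      intro h3
      refine hu ?_
      have h4 : enc n u = enc n (un n i) := Fin.ext (by rw [h3, enc_un hi])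
      exact (enc n).injective h4
    by_cases h3 : ((enc n u : Fin (n * n)) : ℕ) < i
    · rw [if_pos h3, if_pos (by omega)]
    · rw [if_neg h3, if_neg (by omega)]

lemma gr_th (hN : N = n * l) (hl : 0 < l) (i : ℕ) : GB (1 / (l : ℝ)) (th N n l i) := by
  have hb : ∀ u u' : ZMod n × ZMod n,
      |(if ((enc n u : Fin (n * n)) : ℕ) < i then (1 : ℝ) else 0) -
        (if ((enc n u' : Fin (n * n)) : ℕ) < i then (1 : ℝ) else 0)| ≤ 1 := by
    intro u u'
    split_ifs <;> norm_num
  rintro ⟨x, b⟩
  rw [gr_eq]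
  have e0 : (l : ℝ) - 2 * ((0 : ℕ) : ℝ) = l := by
    push_cast
    ring
  cases b
  · have h1 := TM.H365.nn_le1 (N := N) (r := 0) hN (by omega) (M := 1)
      (fun u => if ((enc n u : Fin (n * n)) : ℕ) < i then (1 : ℝ) else 0) x
      (fun q _ => hb _ _)
    rw [e0] at h1
    exact h1
  · have h1 := TM.H365.nn_le2 (N := N) (r := 0) hN (by omega) (M := 1)
      (fun u => if ((enc n u : Fin (n * n)) : ℕ) < i then (1 : ℝ) else 0) x
      (fun q _ => hb _ _)
    rw [e0] at h1
    exact h1

/-- one dimensional support -/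
lemma near_node (hN : N = n * l) (hl : 0 < l) (x : ZMod N) {q : ZMod n}
    (h : q = qq l x ∨ q = qq l x + 1) : (x - node N l q).valMinAbs.natAbs ≤ l := by
  have hx : x = pt N l (qq (n := n) l x) (rr l x) := (TM.H365.pt_qq hN hl x).symm
  have hr : rr l x < l := TM.H365.rr_lt hl x
  have small : ∀ k : ℕ, k ≤ l → ((k : ℕ) : ZMod N).valMinAbs.natAbs ≤ l := by
    intro k hk
    have h1 : ((k : ℕ) : ZMod N).valMinAbs.natAbs ≤ ((k : ℤ)).natAbs := by
      have := ZMod.natAbs_min_of_le_div_two N (((k : ℕ) : ZMod N).valMinAbs) (k : ℤ) (by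
        rw [ZMod.coe_valMinAbs]
        push_cast
        rfl) (ZMod.natAbs_valMinAbs_le _)
      exact this
    rw [Int.natAbs_natCast] at h1
    omega
  rcases h with h | h
  · have e : x - node N l q = ((rr l x : ℕ) : ZMod N) := by
      have e2 : x = node N l (qq (n := n) l x) + ((rr l x : ℕ) : ZMod N) := by
        rw [TM.H365.node_add_nat]
        exact hx
      rw [h]
      nth_rewrite 1 [e2]
      ring
    rw [e]
    exact small _ hr.le
  · have e : x - node N l q = -((l - rr l x : ℕ) : ZMod N) := by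
      rw [h, TM.H365.node_succ hN]
      have e2 : x = node N l (qq (n := n) l x) + ((rr l x : ℕ) : ZMod N) := by
        rw [TM.H365.node_add_nat]
        exact hx
      have e3 : ((l - rr l x : ℕ) : ZMod N) = (l : ZMod N) - ((rr l x : ℕ) : ZMod N) := by
        rw [Nat.cast_sub hr.le]
      rw [e3]
      nth_rewrite 1 [e2]
      ring
    rw [e, ZMod.natAbs_valMinAbs_neg]
    exact small _ (by omega)

lemma ps_zero (hN : N = n * l) (hl : 0 < l) (i : ℕ) {x : V N} (h : l < sz (x - nd N n l i)) :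
    ps N n l i x = 0 := by
  unfold ps
  refine TM.H365.phi_eq_zero fun hc => ?_
  rw [mem_cor] at hc
  have h1 := near_node hN hl x.1 hc.1
  have h2 := near_node hN hl x.2 hc.2
  have h3 : sz (x - nd N n l i) ≤ l := max_le h1 h2
  omega

end

end Vale.Agent.P159.H191
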