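import Vale.Agent.P159.H191.Ct1
import Vale.Agent.P159.H883.Prc2
import Vale.Agent.P159.H883.Brg7
import Vale.Agent.P159.H764.Qt5

/-!
P159 (helper191), module CUT (3): the cut along a path of real fields, torus letters.

`LT N b t X = log zn X` on the torus with the mass `t`, `iT F = (0, F)`, `BT = bf (Anm N b t)`,
`RT F` = non-quadratic part; `RdN b t W f τ e` : the (rd) number of a real change `f` against the
dislocated change `W` at every base of price `≤ τ` (rd_two of helper764 is an instance).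

* `cut_path` : `|log Ψ (Y 0) - log Ψ (Y n)| ≤ n (e + e4 + 2 δ)`.
-/

set_option linter.unusedSectionVars false

open scoped Matrix
open Finset

namespace Vale.Agent.P159.H191

open Vale.Agent.P159.H883 (Eng Tp Psi gP rP eng_neu gP_real mf_scalar)
open Vale.Agent.P159.H770 (Ed eS eT eW wTD wTD_zero gwf_wTD)
open Vale.Agent.P159.H353 (wI)
open Vale.Agent.P159.TM.SpecC (wT)
open Vale.Agent.P159.TM.Spec (V)
open Vale.Agent.P159.H37 (Zn qf bf Rs bf_self bf_comm bf_add_left bf_add_right)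
open Vale.Agent.P159.H963 (An Anm nM ntr)
open Vale.Agent.P159.H612 (zn Tp0)
open Vale.Agent.P159.H474.Cb (GE ZG Z0)

noncomputable section

section gen

variable (N : ℕ) [NeZero N] (b t : ℝ)

/-- the logarithm of the neutral partition function of a group element -/
def LT (X : GE N) : ℝ :=
  Real.log (zn (eS N) (eT N) (fun _ => wI b) (t • (1 : Matrix (V N) (V N) ℝ)) X)

/-- real fields -/
def iT : (V N → ℝ) →+ GE N := AddMonoidHom.inr (Ed N → ℤ) (V N → ℝ)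

/-- the quadratic form of the torus -/
def BT (F H : V N → ℝ) : ℝ := bf (Anm N b t) F H

/-- the non-quadratic part of a real field -/
def RT (F : V N → ℝ) : ℝ := RL (iT N) (LT N b t) (BT N b t) F

/-- the energy `log Z(D + F) + A[F] / 2`, relative to `log Z(0)` -/
def GT (D : GE N) (F : V N → ℝ) : ℝ := gL (iT N) (LT N b t) (BT N b t) (D, F)

/-- the (rd) number of `f` against `W` at every base of price `≤ τ` -/
def RdN (W : GE N) (f : V N → ℝ) (τ e : ℝ) : Prop :=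
  ∀ X : GE N, (∀ p ∈ Set.Icc (0 : ℝ) 1, Tp0 (eS N) (eT N) (fun _ => wI b)
    (t • (1 : Matrix (V N) (V N) ℝ)) (X + W + (0, p • f)) (X + (0, p • f)) ≤ τ) →
    |mixL (LT N b t) X (0, f) W| ≤ e

variable {N b t}

lemma iT_apply (F : V N → ℝ) : iT N F = ((0 : Ed N → ℤ), F) := rfl

lemma sb_BT (hb : 0 ≤ b) (ht : 0 < t) : SB (BT N b t) where
  add F H K := bf_add_left _ F H K
  symm F H := bf_comm (H963.ti_Anm hb ht).transpose F H

lemma LT_zn (η : Ed N → ℤ) (F : V N → ℝ) :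
    LT N b t (η, F) = Real.log (Zn (wTD N b η) (t • (1 : Matrix (V N) (V N) ℝ)) F) := rfl

lemma An_zero (hb : 0 ≤ b) (ht : 0 < t) :
    An (wTD N b 0) (t • (1 : Matrix (V N) (V N) ℝ)) t 0 = Anm N b t := by
  rw [wTD_zero]
  exact H883.An_tor b hb ht

lemma gL_eq (hb : 0 ≤ b) (ht : 0 < t) (X : GE N × (V N → ℝ)) :
    gL (iT N) (LT N b t) (BT N b t) X =
      gP (wTD N b) (t • (1 : Matrix (V N) (V N) ℝ)) t 0 X := by
  obtain ⟨⟨η, φ⟩, F⟩ := X
  have h1 : ((η, φ) : GE N) + iT N F = (η, φ + F) := by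
    rw [iT_apply, Prod.mk_add_mk, add_zero]
  have h2 : (0 : GE N) = ((0 : Ed N → ℤ), (0 : V N → ℝ)) := rfl
  unfold gL gP
  simp only
  rw [h1, h2, LT_zn, LT_zn, An_zero hb ht]
  rfl

/-- the duplication class for the torus -/
theorem eng_T (hb : 0 < b) (ht : 0 < t) :
    Eng (rL (GE N) (V N → ℝ)) (gL (iT N) (LT N b t) (BT N b t)) := by
  have h := eng_neu (x₀ := (0 : V N)) (gwf_wTD (N := N) hb) (mf_scalar (N := N) ht)
  have e : gL (iT N) (LT N b t) (BT N b t) =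
      gP (wTD N b) (t • (1 : Matrix (V N) (V N) ℝ)) t (0 : V N) := funext (gL_eq hb.le ht)
  rw [e]
  exact h

theorem RT_eq (hb : 0 < b) (ht : 0 < t) (F : V N → ℝ) : RT N b t F =
    Rs (nM (wTD N b 0) (t • (1 : Matrix (V N) (V N) ℝ)) t 0)
      (ntr (t • (1 : Matrix (V N) (V N) ℝ)) t *ᵥ F) := by
  rw [← gP_real (gwf_wTD (N := N) hb) (mf_scalar (N := N) ht), RT, ← gL_real,
    gL_eq hb.le ht]
  rfl

theorem RT_nonneg (hb : 0 < b) (ht : 0 < t) (F : V N → ℝ) : 0 ≤ RT N b t F := by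
  rw [RT, ← gL_real]
  exact (eng_T hb ht).R_nonneg F

theorem RT_double (hb : 0 < b) (ht : 0 < t) (F : V N → ℝ) :
    2 * RT N b t F ≤ RT N b t ((2 : ℝ) • F) := by
  rw [RT, RT, ← gL_real, ← gL_real]
  exact Eng.R_mono (eng_T hb ht) F (by norm_num)

theorem RT_add (hb : 0 < b) (ht : 0 < t) (F H : V N → ℝ) :
    RT N b t (F + H) ≤ (RT N b t ((2 : ℝ) • F) + RT N b t ((2 : ℝ) • H)) / 2 := by
  rw [RT, RT, RT, ← gL_real, ← gL_real, ← gL_real]
  exact Eng.R_add (eng_T hb ht) F H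

/-- `log Ψ` -/
theorem lP_Psi (hb : 0 < b) (ht : 0 < t) (η : Ed N → ℤ) (φ F : V N → ℝ) :
    Real.log (Psi (wT b N) (wTD N b η) (t • (1 : Matrix (V N) (V N) ℝ)) φ F) =
      lP (iT N) (LT N b t) (η, φ) F := by
  have p1 := (gwf_wTD (N := N) hb).Zn_pos (mf_scalar (N := N) ht) η (φ + F)
  have p2 := (gwf_wTD (N := N) hb).Zn_pos (mf_scalar (N := N) ht) 0 F
  have h1 : ((η, φ) : GE N) + iT N F = (η, φ + F) := by
    rw [iT_apply, Prod.mk_add_mk, add_zero]
  unfold Psi lP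
  rw [← wTD_zero, Real.log_div p1.ne' p2.ne', h1, LT_zn, iT_apply, LT_zn]

/-- the massless mean of the dislocation `η` -/
def lcT (N : ℕ) [NeZero N] (b : ℝ) (η : Ed N → ℤ) : ℝ :=
  Real.log (H883.Zp (wTD N b η) 0 / H883.Zp (wT b N) 0)

/-- the upper bound at every real background -/
lemma LT_le (hb : 0 < b) (ht : 0 < t) (η : Ed N → ℤ) (φ F : V N → ℝ) :
    LT N b t ((η, φ) + iT N F) - LT N b t 0 ≤ lcT N b η := by
  have h := H883.Psi_zero_le (gwf_wTD (N := N) hb) (H883.em_pin_wTD hb)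
    (mf_scalar (N := N) ht) (0 : V N) η (φ + F)
  have p1 := (gwf_wTD (N := N) hb).Zn_pos (mf_scalar (N := N) ht) η (φ + F)
  have p2 := (gwf_wTD (N := N) hb).Zn_pos (mf_scalar (N := N) ht) 0 (0 : V N → ℝ)
  have hP : 0 < Psi (wTD N b 0) (wTD N b η) (t • (1 : Matrix (V N) (V N) ℝ)) (φ + F) 0 := by
    unfold Psi
    rw [add_zero]
    exact div_pos p1 p2
  have h1 := Real.log_le_log hP h
  have e1 : Real.log (Psi (wTD N b 0) (wTD N b η) (t • (1 : Matrix (V N) (V N) ℝ)) (φ + F) 0) =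
      LT N b t ((η, φ) + iT N F) - LT N b t 0 := by
    have h2 : ((η, φ) : GE N) + iT N F = (η, φ + F) := by
      rw [iT_apply, Prod.mk_add_mk, add_zero]
    have h3 : (0 : GE N) = ((0 : Ed N → ℤ), (0 : V N → ℝ)) := rfl
    unfold Psi
    rw [Real.log_div (by rw [add_zero]; exact p1.ne') p2.ne', h2, h3, LT_zn, LT_zn, add_zero]
  rw [e1] at h1
  unfold lcT
  rw [wTD_zero] at h1
  exact h1

/-- **the cut along a path** -/
theorem cut_path (hb : 0 < b) (ht : 0 < t) {η : Ed N → ℤ} {φ : V N → ℝ} (Y : ℕ → V N → ℝ) {k : ℕ}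
    {e e4 δ κ Δ lc Ev : ℝ} (he : 0 ≤ e) (he4 : 0 ≤ e4) (hδ : 0 ≤ δ)
    (hU : ∀ F, LT N b t ((η, φ) + iT N F) - LT N b t 0 ≤ lc)
    (hΔ : lc - Δ ≤ LT N b t (η, φ) - LT N b t 0)
    (hst : ∀ i < k, Y (i + 1) = Y i ∨ ∃ (W : GE N) (v : V N → ℝ),
      (∀ F, LT N b t ((η, φ) + iT N F) = LT N b t (W + iT N (v + F))) ∧
      BT N b t v v ≤ Ev ∧ RdN N b t W (Y i - Y (i + 1)) (κ + 4 * Δ + 3 * Ev) e ∧
      |BT N b t (Y i - Y (i + 1)) v| ≤ e4 ∧ RT N b t ((2 : ℝ) • v) ≤ δ)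
    (hR : ∀ i ≤ k, RT N b t ((2 : ℝ) • Y i) ≤ δ)
    (hE : ∀ i ≤ k, GT N b t (η, φ) ((4 : ℝ) • Y i) + GT N b t (η, φ) (-((4 : ℝ) • Y i)) ≤
      2 * lc + 2 * κ) :
    |Real.log (Psi (wT b N) (wTD N b η) (t • (1 : Matrix (V N) (V N) ℝ)) φ (Y 0)) -
      Real.log (Psi (wT b N) (wTD N b η) (t • (1 : Matrix (V N) (V N) ℝ)) φ (Y k))| ≤
      k * (e + e4 + 2 * δ) := by
  rw [lP_Psi hb ht, lP_Psi hb ht]
  have hB := sb_BT (N := N) hb.le ht
  have hEn := eng_T (N := N) hb ht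
  have hRn : ∀ F, 0 ≤ RL (iT N) (LT N b t) (BT N b t) F := fun F => RT_nonneg hb ht F
  have hR1 : ∀ i ≤ k, RT N b t (Y i) ≤ δ := by
    intro i hi
    have h1 := RT_double hb ht (Y i)
    have h2 := hR i hi
    have h3 := RT_nonneg hb ht (Y i)
    linarith
  refine lP_sum hB hRn Y he he4 hδ (fun i hi => ?_) hR1
  rcases hst i hi with h0 | ⟨W, v, hD, hv, hrd, hb4, hRv⟩
  · exact Or.inl h0
  refine Or.inr ⟨W, v, hD, ?_, hb4, ?_, ?_⟩
  · refine hrd (iT N (v + Y (i + 1))) fun p hp => ?_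
    have hY := ev_conv hEn ((η, φ) : GE N) (F := Y (i + 1)) (H := Y i) hp.1 hp.2
      (hE (i + 1) (by omega)) (hE i (by omega))
    have key := price_ev hB hEn hD hU hΔ (Y (i + 1) + p • (Y i - Y (i + 1))) (κ := κ) hY
    have e1 : iT N (v + Y (i + 1)) + ((0 : Ed N → ℤ), p • (Y i - Y (i + 1))) =
        iT N (v + (Y (i + 1) + p • (Y i - Y (i + 1)))) := by
      rw [iT_apply, iT_apply, Prod.mk_add_mk, add_zero, add_assoc]
    have e2 : iT N (v + Y (i + 1)) + W + ((0 : Ed N → ℤ), p • (Y i - Y (i + 1))) =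
        iT N (v + (Y (i + 1) + p • (Y i - Y (i + 1)))) + W := by
      rw [add_right_comm, e1]
    rw [e1, e2]
    unfold Tp0
    rw [add_sub_cancel_left]
    exact key.trans (by linarith)
  · have h1 := RT_add hb ht v (Y i)
    have h2 := hR i (by omega)
    show RT N b t (v + Y i) ≤ δ
    linarith
  · have h1 := RT_add hb ht v (Y (i + 1))
    have h2 := hR (i + 1) (by omega)
    show RT N b t (v + Y (i + 1)) ≤ δ
    linarith

end gen

end

end Vale.Agent.P159.H191
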