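import Vale.Agent.P159.H191.Ct2

/-!
P159 (helper191), module CUT (4): the explicit path of real fields.

`mn μ c H` : mean of `H` with the profile `μ` centred at `c`;
`chi l`, `pla l` : cut-off (1 on the box of radius `18 l`, 0 outside `20 l`), plateau (`30 l`, `31 l`);
`TT l μ p q θ H = (1 - θ a0) (H - m_p H) + θ (m_q H - m_p H) (pla (· - q) - chi (· - q))`,
`a0 = 1 - chi (· - p) - chi (· - q)`;
`smr w T H x = ∑ v, w v * T (H (· + v)) (x - v)` : the smeared operator;
`YY i = smr w (TT θ_i) H - gs`.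

* `YY_zero`, `YY_last` : the two ends;
* `YY_near` : no piece near the cores;
* `YY_supp` : the piece `i` vanishes at distance `> 2 l` of the node `i`.
-/

set_option linter.unusedSectionVars false

open Finset

namespace Vale.Agent.P159.H191

open Vale.Agent.P159.TM.Spec (V)
open Vale.Agent.P159.H817 (sz gr GB gr_eq eb U U_one U_zero U_nonneg U_le_one abs_U sz_add_le
  sz_sub_comm sz_zero)

noncomputable section

variable {N n l : ℕ} [NeZero N] [NeZero n]

/-- mean with the profile `μ` centred at `c` -/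
def mn (μ : V N → ℝ) (c : V N) (H : V N → ℝ) : ℝ := ∑ y, μ (y - c) * H y

/-- the cut-off -/
def chi (l : ℕ) (z : V N) : ℝ := U (18 * l) (2 * l) z

/-- the plateau -/
def pla (l : ℕ) (z : V N) : ℝ := U (30 * l) l z

/-- the weight of the removed field -/
def a0 (l : ℕ) (p q x : V N) : ℝ := 1 - chi l (x - p) - chi l (x - q)

/-- the field which is removed -/
def hh (l : ℕ) (μ : V N → ℝ) (p q : V N) (H : V N → ℝ) (x : V N) : ℝ :=
  a0 l p q x * (H x - mn μ p H) - (mn μ q H - mn μ p H) * (pla l (x - q) - chi l (x - q))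

/-- the partially cut field -/
def TT (l : ℕ) (μ : V N → ℝ) (p q : V N) (θ : V N → ℝ) (H : V N → ℝ) (x : V N) : ℝ :=
  (1 - θ x * a0 l p q x) * (H x - mn μ p H) +
    θ x * (mn μ q H - mn μ p H) * (pla l (x - q) - chi l (x - q))

/-- the decorations, before the smearing -/
def dc (l : ℕ) (μ : V N → ℝ) (p q : V N) (H : V N → ℝ) (x : V N) : ℝ :=
  chi l (x - p) * (H x - mn μ p H) + chi l (x - q) * (H x - mn μ q H)

/-- the smeared operator -/
def smr (w : V N → ℝ) (T : (V N → ℝ) → V N → ℝ) (H : V N → ℝ) (x : V N) : ℝ :=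
  ∑ v, w v * T (fun y => H (y + v)) (x - v)

/-- probability weights in the box of radius `s` -/
structure Wts (w : V N → ℝ) (s : ℕ) : Prop where
  nn : ∀ v, 0 ≤ w v
  one : ∑ v, w v = 1
  sup : ∀ v, w v ≠ 0 → sz v ≤ s

/-- the path -/
def YY (l : ℕ) (μ w : V N → ℝ) (p q : V N) (θ : V N → ℝ) (H gs : V N → ℝ) : V N → ℝ :=
  smr w (TT l μ p q θ) H - gs

lemma TT_eq (μ : V N → ℝ) (p q : V N) (θ H : V N → ℝ) (x : V N) :
    TT l μ p q θ H x = H x - mn μ p H - θ x * hh l μ p q H x := by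
  unfold TT hh
  ring

lemma mn_const {μ : V N → ℝ} (hμ : ∑ z, μ z = 1) (c : V N) (k : ℝ) : mn μ c (fun _ => k) = k := by
  unfold mn
  rw [← Finset.sum_mul]
  have h1 : ∑ y : V N, μ (y - c) = ∑ z, μ z := Equiv.sum_comp (Equiv.subRight c) μ
  rw [h1, hμ, one_mul]

lemma mn_add (μ : V N → ℝ) (c : V N) (H K : V N → ℝ) :
    mn μ c (fun y => H y + K y) = mn μ c H + mn μ c K := by
  unfold mn
  rw [← Finset.sum_add_distrib]
  exact Finset.sum_congr rfl fun y _ => by ring

lemma mn_smul (μ : V N → ℝ) (c : V N) (k : ℝ) (H : V N → ℝ) :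
    mn μ c (fun y => k * H y) = k * mn μ c H := by
  unfold mn
  rw [Finset.mul_sum]
  exact Finset.sum_congr rfl fun y _ => by ring

lemma mn_shift (μ : V N → ℝ) (c v : V N) (H : V N → ℝ) :
    mn μ c (fun y => H (y + v)) = mn μ (c + v) H := by
  unfold mn
  rw [← Equiv.sum_comp (Equiv.addRight v) fun y => μ (y - (c + v)) * H y]
  refine Finset.sum_congr rfl fun y _ => ?_
  simp only [Equiv.coe_addRight]
  rw [add_sub_add_right_eq_sub]

/-! ### the ends -/

lemma smr_zero {w : V N → ℝ} {s : ℕ} (hw : Wts w s) (μ : V N → ℝ) (p q : V N) {θ : V N → ℝ}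
    (hθ : ∀ x, θ x = 0) (H : V N → ℝ) (x : V N) :
    smr w (TT l μ p q θ) H x = H x - ∑ v, w v * mn μ (p + v) H := by
  unfold smr
  have h1 : ∀ v, w v * TT l μ p q θ (fun y => H (y + v)) (x - v) =
      w v * H x - w v * mn μ (p + v) H := by
    intro v
    unfold TT
    simp only [hθ, mn_shift, sub_add_cancel]
    ring
  simp only [h1]
  rw [Finset.sum_sub_distrib, ← Finset.sum_mul, hw.one, one_mul]

/-- the start of the path: `H - gs` up to a constant -/
theorem YY_zero {w : V N → ℝ} {s : ℕ} (hw : Wts w s) (μ : V N → ℝ) (p q : V N) {θ : V N → ℝ}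
    (hθ : ∀ x, θ x = 0) (H gs : V N → ℝ) (x : V N) :
    YY l μ w p q θ H gs x = H x - gs x - ∑ v, w v * mn μ (p + v) H := by
  unfold YY
  rw [Pi.sub_apply, smr_zero hw μ p q hθ]
  ring

/-- the plateau at the second core -/
def plu (l : ℕ) (μ w : V N → ℝ) (p q : V N) (H : V N → ℝ) (x : V N) : ℝ :=
  ∑ v, w v * ((mn μ (q + v) H - mn μ (p + v) H) * pla l (x - v - q))

/-- the smeared decorations -/
def dcs (l : ℕ) (μ w : V N → ℝ) (p q : V N) (H : V N → ℝ) (x : V N) : ℝ :=
  ∑ v, w v * (chi l (x - v - p) * (H x - mn μ (p + v) H) +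
    chi l (x - v - q) * (H x - mn μ (q + v) H))

/-- **the end of the path**: decorations, plateau, ideal part -/
theorem YY_last (μ w : V N → ℝ) (p q : V N) {θ : V N → ℝ} (hθ : ∀ x, θ x = 1)
    (H gs : V N → ℝ) (x : V N) :
    YY l μ w p q θ H gs x = dcs l μ w p q H x + plu l μ w p q H x - gs x := by
  unfold YY dcs plu smr
  rw [Pi.sub_apply, ← Finset.sum_add_distrib]
  congr 1
  refine Finset.sum_congr rfl fun v _ => ?_
  unfold TT a0
  simp only [hθ, mn_shift, sub_add_cancel]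
  ring

/-! ### the pieces -/

lemma YY_sub (μ w : V N → ℝ) (p q : V N) {θ θ' ψ : V N → ℝ} (hθ : ∀ x, θ' x = θ x + ψ x)
    (H gs : V N → ℝ) (x : V N) :
    YY l μ w p q θ H gs x - YY l μ w p q θ' H gs x =
      ∑ v, w v * (ψ (x - v) * hh l μ p q (fun y => H (y + v)) (x - v)) := by
  unfold YY smr
  rw [Pi.sub_apply, Pi.sub_apply, sub_sub_sub_cancel_right, ← Finset.sum_sub_distrib]
  refine Finset.sum_congr rfl fun v _ => ?_
  rw [TT_eq, TT_eq, hθ]
  ring

/-- the removed field vanishes near the cores -/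
lemma hh_near (hl : 0 < l) {p q : V N} (hpq : 60 * l ≤ sz (q - p)) (μ : V N → ℝ) (H : V N → ℝ)
    {x : V N} (hx : sz (x - p) ≤ 18 * l ∨ sz (x - q) ≤ 18 * l) : hh l μ p q H x = 0 := by
  have h1 := sz_add_le (q - x) (x - p)
  rw [sub_add_sub_cancel, sz_sub_comm q x] at h1
  rcases hx with hx | hx
  · have e1 : chi l (x - p) = 1 := U_one (by omega) hx
    have e2 : chi l (x - q) = 0 := U_zero (by omega)
    have e3 : pla l (x - q) = 0 := U_zero (by omega)
    unfold hh a0
    rw [e1, e2, e3]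
    ring
  · have e1 : chi l (x - q) = 1 := U_one (by omega) hx
    have e2 : chi l (x - p) = 0 := U_zero (by omega)
    have e3 : pla l (x - q) = 1 := U_one hl (by omega)
    unfold hh a0
    rw [e1, e2, e3]
    ring

/-- **no piece near the cores** -/
theorem YY_near (hl : 0 < l) {w : V N → ℝ} {s : ℕ} (hw : Wts w s) {p q : V N}
    (hpq : 60 * l ≤ sz (q - p)) (μ : V N → ℝ) {θ θ' ψ : V N → ℝ} (hθ : ∀ x, θ' x = θ x + ψ x)
    {c : V N} (hψ : ∀ x, l < sz (x - c) → ψ x = 0)
    (hc : sz (c - p) ≤ 17 * l ∨ sz (c - q) ≤ 17 * l) (H gs : V N → ℝ) :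
    YY l μ w p q θ' H gs = YY l μ w p q θ H gs := by
  funext x
  have h0 := YY_sub (l := l) μ w p q hθ H gs x
  have h1 : ∑ v, w v * (ψ (x - v) * hh l μ p q (fun y => H (y + v)) (x - v)) = 0 := by
    refine Finset.sum_eq_zero fun v _ => ?_
    by_cases h : l < sz (x - v - c)
    · rw [hψ _ h, zero_mul, mul_zero]
    · rw [hh_near hl hpq, mul_zero, mul_zero]
      rcases hc with hc | hc
      · left
        have h3 := sz_add_le (x - v - c) (c - p)
        rw [sub_add_sub_cancel] at h3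
        omega
      · right
        have h3 := sz_add_le (x - v - c) (c - q)
        rw [sub_add_sub_cancel] at h3
        omega
  rw [h1] at h0
  linarith

/-- **the support of a piece** -/
theorem YY_supp {w : V N → ℝ} {s : ℕ} (hw : Wts w s) (hs : s ≤ l) (μ : V N → ℝ) (p q : V N)
    {θ θ' ψ : V N → ℝ} (hθ : ∀ x, θ' x = θ x + ψ x) {c : V N}
    (hψ : ∀ x, l < sz (x - c) → ψ x = 0) (H gs : V N → ℝ) {x : V N} (hx : 2 * l < sz (x - c)) :
    YY l μ w p q θ H gs x - YY l μ w p q θ' H gs x = 0 := by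
  rw [YY_sub (l := l) μ w p q hθ H gs x]
  refine Finset.sum_eq_zero fun v _ => ?_
  by_cases hv : w v = 0
  · rw [hv, zero_mul]
  · have h1 := hw.sup v hv
    have h2 := sz_add_le (x - v - c) v
    have e : x - v - c + v = x - c := by ring
    rw [e] at h2
    rw [hψ _ (by omega), zero_mul, mul_zero]

end

end Vale.Agent.P159.H191
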