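import Vale.Agent.P159.H191.Ct3

/-!
P159 (helper191), module CUT (5): the (rd) number `RdN` from helper764's `rd_two`.

* `ZG_low` : `Z₀ ≤ exp (E + 2) Z(W)` from `log zn 0 - log zn W ≤ E`;
* `rdN_two` : `RdN N b (1/ξ²) W f τ (rdE …)`;
* `E_W` : the energy of `W` in terms of the numbers of the pair.
-/

set_option linter.unusedSectionVars false

open scoped Matrix ENNReal
open Finset

namespace Vale.Agent.P159.H191

open Vale.Agent.P159.H883 (Eng Tp mf_scalar)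
open Vale.Agent.P159.TM.H60 Vale.Agent.P159.TM.H576
open Vale.Agent.P159.H474.Cb
open Vale.Agent.P159.T1.H897 (LogC logC_wI)
open Vale.Agent.P159.TM.H459 (ball mem_ball sd sd_symm sd_tri)
open Vale.Agent.P159.H770 (Ed eS eT eW wTD wTD_zero wI_pos eWF edW_wI EdW)
open Vale.Agent.P159.H353 (wI)
open Vale.Agent.P159.TM.SpecC (Tor wT)
open Vale.Agent.P159.TM.Spec (V)
open Vale.Agent.P159.H37 (ZM qf bf re wM)
open Vale.Agent.P159.H612 (NX zn zc omE Tp0)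
open Vale.Agent.P159.H764 (VB Dp ArmLe)
open Vale.Agent.P159.TM

noncomputable section

/-- the oscillation constant of the torus -/
def om0 (N : ℕ) [NeZero N] (b t : ℝ) : ℝ :=
  omE (eS N) (eT N) (fun _ : Ed N => wI b) (t • (1 : Matrix (Tor N) (Tor N) ℝ))

lemma edM_T {N : ℕ} [NeZero N] {b t : ℝ} (hb : 0 < b) (ht : 0 < t) :
    H612.EdM (fun _ : Ed N => wI b) (t • (1 : Matrix (Tor N) (Tor N) ℝ)) t :=
  H612.edM_torus (N := N) hb (by rw [Matrix.transpose_smul, Matrix.transpose_one]) ht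
    (H789.coer_smul _)

/-- the energy in the letters of the integer model -/
lemma ZG_low {N : ℕ} [NeZero N] {b t : ℝ} (hb : 0 < b) (ht : 0 < t) (hω : om0 N b t ≤ 1 / 2)
    {W : GE N} {E : ℝ} (hE : LT N b t 0 - LT N b t W ≤ E) :
    Z0 N b t ≤ Real.exp (E + 2) * ZG N b t W := by
  have h := edM_T (N := N) hb ht
  have h1 := h.zc_osc (s := eS N) (t := eT N) 0 0
  have h2 := h.zc_osc (s := eS N) (t := eT N) W 0
  have p0 := h.zn_pos (s := eS N) (t := eT N) 0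
  have pW := h.zn_pos (s := eS N) (t := eT N) W
  have e0 : zc (eS N) (eT N) (fun _ : Ed N => wI b) (t • (1 : Matrix (Tor N) (Tor N) ℝ)) 0 0 =
      Z0 N b t := by
    rw [← ZG_zero]
    unfold zc ZG
    rw [H145.cs_zero]
    rfl
  have eW' : zc (eS N) (eT N) (fun _ : Ed N => wI b) (t • (1 : Matrix (Tor N) (Tor N) ℝ)) W 0 =
      ZG N b t W := by
    unfold zc ZG
    rw [H145.cs_zero]
    rfl
  rw [e0] at h1
  rw [eW'] at h2
  have a1 := (abs_le.1 h1).2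
  have a2 := (abs_le.1 h2).1
  have hω' : omE (eS N) (eT N) (fun _ : Ed N => wI b) (t • (1 : Matrix (Tor N) (Tor N) ℝ)) ≤
    1 / 2 := hω
  have b1 : Z0 N b t ≤ 3 / 2 * zn (eS N) (eT N) (fun _ : Ed N => wI b)
      (t • (1 : Matrix (Tor N) (Tor N) ℝ)) 0 := by nlinarith
  have b2 : 1 / 2 * zn (eS N) (eT N) (fun _ : Ed N => wI b)
      (t • (1 : Matrix (Tor N) (Tor N) ℝ)) W ≤ ZG N b t W := by nlinarith
  have hE' : zn (eS N) (eT N) (fun _ : Ed N => wI b) (t • (1 : Matrix (Tor N) (Tor N) ℝ)) 0 ≤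
      Real.exp E * zn (eS N) (eT N) (fun _ : Ed N => wI b)
        (t • (1 : Matrix (Tor N) (Tor N) ℝ)) W := by
    have h3 : Real.log (zn (eS N) (eT N) (fun _ : Ed N => wI b)
        (t • (1 : Matrix (Tor N) (Tor N) ℝ)) 0) ≤ E + Real.log (zn (eS N) (eT N)
        (fun _ : Ed N => wI b) (t • (1 : Matrix (Tor N) (Tor N) ℝ)) W) := by
      have : LT N b t 0 - LT N b t W ≤ E := hE
      unfold LT at this
      linarith
    have h4 := Real.exp_le_exp.2 h3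
    rw [Real.exp_log p0, Real.exp_add, Real.exp_log pW] at h4
    exact h4
  have h5 : (3 : ℝ) ≤ Real.exp 2 := by
    have := Real.add_one_le_exp (2 : ℝ)
    linarith
  have hEp := Real.exp_pos E
  have c1 : Z0 N b t ≤ 3 / 2 * (Real.exp E * (2 * ZG N b t W)) := by
    have h6 : zn (eS N) (eT N) (fun _ : Ed N => wI b)
        (t • (1 : Matrix (Tor N) (Tor N) ℝ)) W ≤ 2 * ZG N b t W := by linarith
    have h7 := mul_le_mul_of_nonneg_left h6 hEp.le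
    linarith
  have hZ : 0 < ZG N b t W := ZG_pos hb ht W
  rw [Real.exp_add]
  have h8 := mul_le_mul_of_nonneg_left h5 (mul_pos hEp hZ).le
  nlinarith

/-- the (rd) number -/
def rdE (N : ℕ) (τ ω S E QW dl ε : ℝ) (ρ0 : ℕ) : ℝ :=
  Real.exp ((τ + 16 * ω) / 2) * √(9 * S * Real.exp E * ((((N / ρ0 + 1 : ℕ) : ℝ)) ^ 2 *
    √(ε ^ (1 / 4 : ℝ) * QW * Real.exp (2 * dl)))) + 8 * ω ^ 2

section main

variable {m n : ℕ} [NeZero ((m + 1) * (n + 2))] [NeZero ((m + 1) * 2)] {b : ℝ}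

/-- **the (rd) number from `rd_two`** -/
theorem rdN_two (hb : 0 < b) {ξ : ℕ} (hξ : 0 < ξ) (w : Tor ((m + 1) * (n + 2)))
    {R0 l ρ0 ρ κ : ℕ} (h0 : 1 ≤ ρ0) (h1 : ρ0 ≤ ρ) (h2 : ρ + 1 ≤ κ) (h3 : 2 * (ρ0 + m + 3) ≤ l)
    {W : GE ((m + 1) * (n + 2))} (hW : Sup W (Far w (R0 + l)))
    {f : Tor ((m + 1) * (n + 2)) → ℝ} (hf : ∀ v, R0 < sd w v → f v = 0)
    (Pc : Finset (Tor ((m + 1) * (n + 2)))) (hPc : (Pc.card + 1) * (2 * κ) < m + 1)
    (hPg : ∀ p ∈ Pc, sd w p ≤ R0 ∨ R0 + l ≤ sd w p)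
    {ε : ℝ} (hε : 0 ≤ ε)
    (harm : ∀ p : VB m m, Dp p ρ → ArmLe ((m + 1) * 2) b hb.le ξ 0 (pt 0 p.1 p.2) ρ0 ρ ε)
    {QW dl : ℝ} (qW : ∀ s, GOK m n κ Pc s → QB m n b (1 / (ξ : ℝ) ^ 2) W s QW) (hQW : 0 ≤ QW)
    (hV : Vol m n b (1 / (ξ : ℝ) ^ 2) dl)
    {E : ℝ} (hE : LT ((m + 1) * (n + 2)) b (1 / (ξ : ℝ) ^ 2) 0 -
      LT ((m + 1) * (n + 2)) b (1 / (ξ : ℝ) ^ 2) W ≤ E)
    (hω : om0 ((m + 1) * (n + 2)) b (1 / (ξ : ℝ) ^ 2) ≤ 1 / 2) {S : ℝ}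
    (hS : 1 / (ξ : ℝ) ^ 2 * ∑ x, f x ^ 2 ≤ S) (τ : ℝ) :
    RdN ((m + 1) * (n + 2)) b (1 / (ξ : ℝ) ^ 2) W f τ
      (rdE ((m + 1) * (n + 2)) τ (om0 ((m + 1) * (n + 2)) b (1 / (ξ : ℝ) ^ 2)) S (E + 2) QW dl
        ε ρ0) := by
  intro X hτ
  have ht : 0 < 1 / (ξ : ℝ) ^ 2 := by positivity
  have hE' := ZG_low (N := (m + 1) * (n + 2)) hb ht hω hE
  have key := H764.rd_two hb hξ w h0 h1 h2 h3 hW hf Pc hPc hPg hε harm qW hQW hV hE' hω X hτ
  unfold mixL LT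
  refine key.trans ?_
  unfold rdE om0
  refine add_le_add (mul_le_mul_of_nonneg_left (Real.sqrt_le_sqrt ?_) (Real.exp_pos _).le) le_rfl
  refine mul_le_mul_of_nonneg_right (mul_le_mul_of_nonneg_right ?_ (Real.exp_pos _).le)
    (by positivity)
  exact mul_le_mul_of_nonneg_left hS (by norm_num)

end main

/-- the energy of `W` from the numbers of the pair -/
lemma E_W {N : ℕ} [NeZero N] {b t : ℝ} (hb : 0 < b) (ht : 0 < t) {η : Ed N → ℤ} {φ : V N → ℝ}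
    {W : GE N} {v : V N → ℝ}
    (hD : ∀ F, LT N b t ((η, φ) + iT N F) = LT N b t (W + iT N (v + F))) {Δ Ev : ℝ}
    (hΔ : lcT N b η - Δ ≤ LT N b t (η, φ) - LT N b t 0) (hv : BT N b t v v ≤ Ev) :
    LT N b t 0 - LT N b t W ≤ 2 * Δ - lcT N b η + Ev := by
  have hB := sb_BT (N := N) hb.le ht
  have h1 := low_le hB (eng_T (N := N) hb ht) (D := ((η, φ) : GE N)) (lc := lcT N b η) (Δ := Δ)
    (fun F => LT_le hb ht η φ F) hΔ (-v)
  rw [hD (-v), add_neg_cancel, map_zero, add_zero, hB.neg_sq] at h1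
  linarith

end

end Vale.Agent.P159.H191
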