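import Vale.Agent.P159.H191.Ct5
import Vale.Agent.P159.H191.Ct6
import Vale.Agent.P159.H764.Ctg

/-!
P159 (helper191), module CUT (7): **the cut**.

* `cut_sweep` : one sweep of the path `B + YP (c0 + c1 θ_i) H`;
* `YJ j i`, `j ≤ n`, `i ≤ n * n` : the whole path: `YJ 0 i` removes `K` away from the cores,
  `YJ (j + 1) i` removes `gs` in `n` sweeps of amplitude `1 / n`;
* `cut_two` : `|log Ψ (K) - log Ψ (dcs (K + gs) + plp (K + gs) - gs)| ≤ (n + 1) n² (e + e4 + 2 δ)`.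
-/

set_option linter.unusedSectionVars false

open scoped Matrix
open Finset

namespace Vale.Agent.P159.H191

open Vale.Agent.P159.H883 (Psi)
open Vale.Agent.P159.H770 (Ed eS eT wTD wTD_zero)
open Vale.Agent.P159.H353 (wI)
open Vale.Agent.P159.TM.SpecC (wT)
open Vale.Agent.P159.TM.Spec (V)
open Vale.Agent.P159.H817 (sz gr bD dv)
open Vale.Agent.P159.H474.Cb (GE)
open Vale.Agent.P159.H764.Ctg (Cut cut_geo)

noncomputable section

variable {N n l : ℕ} [NeZero N] [NeZero n] {b t : ℝ}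

/-- one sweep -/
def YS (N n l : ℕ) [NeZero N] [NeZero n] (pl μ w : V N → ℝ) (p q : V N) (B H : V N → ℝ)
    (c0 c1 : ℝ) (i : ℕ) : V N → ℝ :=
  B + YP l pl μ w p q (fun x => c0 + c1 * th N n l i x) H

/-- **the numbers at the node `c`** for the piece `f`: for every local cut `(v, W)` of the pair at
`c`, the energy of `v`, the (rd) number of `f` against `W`, the cross term, the non-quadratic
part -/
def Nod (N : ℕ) [NeZero N] (b t : ℝ) (η : Ed N → ℤ) (φ : V N → ℝ) (l : ℕ) (c : V N)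
    (f : V N → ℝ) (τ e e4 δ Ev : ℝ) : Prop :=
  ∀ (v : V N → ℝ) (W : GE N) (c0 : ℝ), Cut c (2 * l) η φ v W c0 →
    (∀ x, sz (x - c) < 3 * (2 * l) → dv (gr v) x = 0) →
    BT N b t v v ≤ Ev ∧ RdN N b t W f τ e ∧ |BT N b t f v| ≤ e4 ∧ RT N b t ((2 : ℝ) • v) ≤ δ

lemma LT_cut (hb : 0 < b) {η : Ed N → ℤ} {φ v : V N → ℝ} {c : V N} {l : ℕ} {W : GE N} {c0 : ℝ}
    (h : Cut c l η φ v W c0) (F : V N → ℝ) :
    LT N b t ((η, φ) + iT N F) = LT N b t (W + iT N (v + F)) := by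
  have h1 := h.zn_eq hb (t • (1 : Matrix (V N) (V N) ℝ)) F
  have e1 : ((η, φ) : GE N) + iT N F = (η, fun x => φ x + F x) := by
    rw [iT_apply, Prod.mk_add_mk, add_zero]
    rfl
  have e2 : iT N (v + F) = ((0 : V N × Bool → ℤ), fun x => v x + F x) := rfl
  unfold LT
  rw [e1, e2, h1]

/-- **one sweep** -/
theorem cut_sweep (hb : 0 < b) (ht : 0 < t) (hN : N = n * l) (hl : 0 < l) (h32 : 32 * l ≤ N)
    {p q : V N} {η : Ed N → ℤ} {φ : V N → ℝ} (hη : ∀ e, (η e : ℝ) + gr φ e = bD p q e)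
    (w : V N → ℝ) {pl : V N → ℝ} (hP : Plt l pl p q)
    (hpq : 60 * l ≤ sz (q - p)) (μ B H : V N → ℝ) (c0 c1 : ℝ) {e e4 δ κ Δ lc Ev : ℝ}
    (he : 0 ≤ e) (he4 : 0 ≤ e4) (hδ : 0 ≤ δ)
    (hU : ∀ F, LT N b t ((η, φ) + iT N F) - LT N b t 0 ≤ lc)
    (hΔ : lc - Δ ≤ LT N b t (η, φ) - LT N b t 0)
    (hnd : ∀ i < n * n, 17 * l < sz (nd N n l i - p) → 17 * l < sz (nd N n l i - q) →
      Nod N b t η φ l (nd N n l i) (YS N n l pl μ w p q B H c0 c1 i -
        YS N n l pl μ w p q B H c0 c1 (i + 1)) (κ + 4 * Δ + 3 * Ev) e e4 δ Ev)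
    (hR : ∀ i ≤ n * n, RT N b t ((2 : ℝ) • YS N n l pl μ w p q B H c0 c1 i) ≤ δ)
    (hE : ∀ i ≤ n * n, GT N b t (η, φ) ((4 : ℝ) • YS N n l pl μ w p q B H c0 c1 i) +
      GT N b t (η, φ) (-((4 : ℝ) • YS N n l pl μ w p q B H c0 c1 i)) ≤ 2 * lc + 2 * κ) :
    |Real.log (Psi (wT b N) (wTD N b η) (t • (1 : Matrix (V N) (V N) ℝ)) φ
        (YS N n l pl μ w p q B H c0 c1 0)) -
      Real.log (Psi (wT b N) (wTD N b η) (t • (1 : Matrix (V N) (V N) ℝ)) φ
        (YS N n l pl μ w p q B H c0 c1 (n * n)))| ≤ (n * n : ℕ) * (e + e4 + 2 * δ) := by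
  refine cut_path (Ev := Ev) hb ht (YS N n l pl μ w p q B H c0 c1) he he4 hδ hU hΔ
    (fun i hi => ?_) hR hE
  have hθ : ∀ x, c0 + c1 * th N n l (i + 1) x = (c0 + c1 * th N n l i x) +
      c1 * ps N n l i x := by
    intro x
    rw [th_succ hi]
    ring
  have hψ : ∀ x, l < sz (x - nd N n l i) → c1 * ps N n l i x = 0 := by
    intro x hx
    rw [ps_zero hN hl i hx, mul_zero]
  by_cases hc : sz (nd N n l i - p) ≤ 17 * l ∨ sz (nd N n l i - q) ≤ 17 * l
  · left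
    unfold YS
    rw [YP_near hl w hP hpq μ hθ hψ hc H]
  · right
    rw [not_or, not_le, not_le] at hc
    obtain ⟨v, W, c0', -, hcut, hdv⟩ := cut_geo (p := p) (q := q) (w := nd N n l i) (l := 2 * l)
      (by omega) (by omega) hη (by omega) (by omega)
    obtain ⟨n1, n2, n3, n4⟩ := hnd i hi hc.1 hc.2 v W c0' hcut hdv
    exact ⟨W, v, LT_cut hb hcut, n1, n2, n3, n4⟩

/-- profiles of the whole path -/
def tht (N n l : ℕ) [NeZero N] [NeZero n] (j i : ℕ) (x : V N) : ℝ :=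
  if j = 0 then th N n l i x else 1

def sig (N n l : ℕ) [NeZero N] [NeZero n] (j i : ℕ) (x : V N) : ℝ :=
  if j = 0 then 0 else ((j : ℝ) - 1 + th N n l i x) / n

/-- **the whole path** -/
def YJ (N n l : ℕ) [NeZero N] [NeZero n] (pl μ w : V N → ℝ) (p q : V N) (K gs : V N → ℝ)
    (j i : ℕ) : V N → ℝ :=
  YP l pl μ w p q (tht N n l j i) K + YP l pl μ w p q (sig N n l j i) gs - gs

/-- the whole path as sweeps -/
lemma YJ_zero_eq (pl μ w : V N → ℝ) (p q : V N) (K gs : V N → ℝ) (i : ℕ) :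
    YJ N n l pl μ w p q K gs 0 i =
      YS N n l pl μ w p q (YP l pl μ w p q (fun _ => 0) gs - gs) K 0 1 i := by
  have e1 : tht N n l 0 i = fun x => 0 + 1 * th N n l i x := by
    funext x
    unfold tht
    rw [if_pos rfl]
    ring
  have e2 : sig N n l 0 i = fun _ => 0 := by
    funext x
    unfold sig
    rw [if_pos rfl]
  unfold YJ YS
  rw [e1, e2]
  funext x
  simp only [Pi.add_apply, Pi.sub_apply]
  ring

lemma YJ_succ_eq (pl μ w : V N → ℝ) (p q : V N) (K gs : V N → ℝ) (j i : ℕ) :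
    YJ N n l pl μ w p q K gs (j + 1) i =
      YS N n l pl μ w p q (YP l pl μ w p q (fun _ => 1) K - gs) gs (j / n) (1 / n) i := by
  have e1 : tht N n l (j + 1) i = fun _ => 1 := by
    funext x
    unfold tht
    rw [if_neg (Nat.succ_ne_zero j)]
  have e2 : sig N n l (j + 1) i = fun x => (j : ℝ) / n + 1 / n * th N n l i x := by
    funext x
    unfold sig
    rw [if_neg (Nat.succ_ne_zero j)]
    push_cast
    ring
  unfold YJ YS
  rw [e1, e2]
  funext x
  simp only [Pi.add_apply, Pi.sub_apply]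
  ring

/-- consecutive sweeps -/
lemma YJ_next (pl μ w : V N → ℝ) (p q : V N) (K gs : V N → ℝ) (j : ℕ) :
    YJ N n l pl μ w p q K gs (j + 1) 0 = YJ N n l pl μ w p q K gs j (n * n) := by
  have hn : (n : ℝ) ≠ 0 := Nat.cast_ne_zero.2 (NeZero.ne n)
  have e1 : tht N n l (j + 1) 0 = tht N n l j (n * n) := by
    funext x
    unfold tht
    rw [if_neg (Nat.succ_ne_zero j), th_last]
    split_ifs <;> rfl
  have e2 : sig N n l (j + 1) 0 = sig N n l j (n * n) := by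
    funext x
    unfold sig
    rw [if_neg (Nat.succ_ne_zero j), th_last, th_zero]
    split_ifs with h
    · rw [h]
      simp
    · push_cast
      ring
  unfold YJ
  rw [e1, e2]

lemma log_psi_cs (hb : 0 < b) (η : Ed N → ℤ) (φ F : V N → ℝ) (c : ℝ) :
    Psi (wT b N) (wTD N b η) (t • (1 : Matrix (V N) (V N) ℝ)) φ (fun x => F x + c) =
      Psi (wT b N) (wTD N b η) (t • (1 : Matrix (V N) (V N) ℝ)) φ F := by
  rw [← wTD_zero]
  exact H883.ci_Psi (H883.bw_wTD hb 0) (H883.bw_wTD hb η) φ F c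

/-- the start of the whole path -/
lemma YJ_start (hb : 0 < b) {w : V N → ℝ} {s : ℕ} (hw : Wts w s) (pl μ : V N → ℝ) (p q : V N)
    (K gs : V N → ℝ) (η : Ed N → ℤ) (φ : V N → ℝ) :
    Psi (wT b N) (wTD N b η) (t • (1 : Matrix (V N) (V N) ℝ)) φ
      (YJ N n l pl μ w p q K gs 0 0) =
      Psi (wT b N) (wTD N b η) (t • (1 : Matrix (V N) (V N) ℝ)) φ K := by
  have e : YJ N n l pl μ w p q K gs 0 0 =
      fun x => K x + (-(cst0 μ w p K) - cst0 μ w p gs) := by
    funext x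
    have h1 := YP_zero (l := l) hw pl μ p q (θ := tht N n l 0 0) (fun x => by
      unfold tht
      rw [if_pos rfl, th_zero]) K x
    have h2 := YP_zero (l := l) hw pl μ p q (θ := sig N n l 0 0) (fun x => by
      unfold sig
      rw [if_pos rfl]) gs x
    unfold YJ
    rw [Pi.sub_apply, Pi.add_apply, h1, h2]
    ring
  rw [e]
  exact log_psi_cs hb η φ K _

/-- the end of the whole path -/
lemma YJ_last (pl μ w : V N → ℝ) (p q : V N) (K gs : V N → ℝ) (x : V N) :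
    YJ N n l pl μ w p q K gs n (n * n) x =
      dcs l μ w p q (fun y => K y + gs y) x + plp pl μ w p q (fun y => K y + gs y) x - gs x := by
  have hn : (n : ℝ) ≠ 0 := Nat.cast_ne_zero.2 (NeZero.ne n)
  have hn' : n ≠ 0 := NeZero.ne n
  have h := YP_one (l := l) pl μ w p q (θ := fun _ => 1) (fun _ => rfl) (fun y => K y + gs y) x
  rw [YP_add] at h
  have e1 : tht N n l n (n * n) = fun _ => 1 := by
    funext x
    unfold tht
    rw [if_neg hn']
  have e2 : sig N n l n (n * n) = fun _ => 1 := by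
    funext x
    unfold sig
    rw [if_neg hn', th_last]
    field_simp
    ring
  unfold YJ
  rw [e1, e2, ← h]
  rfl

/-- **the cut** -/
theorem cut_two (hb : 0 < b) (ht : 0 < t) (hN : N = n * l) (hl : 0 < l) (h32 : 32 * l ≤ N)
    {p q : V N} {η : Ed N → ℤ} {φ : V N → ℝ} (hη : ∀ e, (η e : ℝ) + gr φ e = bD p q e)
    {w : V N → ℝ} {s : ℕ} (hw : Wts w s) {pl : V N → ℝ} (hP : Plt l pl p q)
    (hpq : 60 * l ≤ sz (q - p)) (μ K gs : V N → ℝ) {e e4 δ κ Δ lc Ev : ℝ}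
    (he : 0 ≤ e) (he4 : 0 ≤ e4) (hδ : 0 ≤ δ)
    (hU : ∀ F, LT N b t ((η, φ) + iT N F) - LT N b t 0 ≤ lc)
    (hΔ : lc - Δ ≤ LT N b t (η, φ) - LT N b t 0)
    (hnd : ∀ j ≤ n, ∀ i < n * n, 17 * l < sz (nd N n l i - p) → 17 * l < sz (nd N n l i - q) →
      Nod N b t η φ l (nd N n l i) (YJ N n l pl μ w p q K gs j i -
        YJ N n l pl μ w p q K gs j (i + 1)) (κ + 4 * Δ + 3 * Ev) e e4 δ Ev)
    (hR : ∀ j ≤ n, ∀ i ≤ n * n, RT N b t ((2 : ℝ) • YJ N n l pl μ w p q K gs j i) ≤ δ)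
    (hE : ∀ j ≤ n, ∀ i ≤ n * n, GT N b t (η, φ) ((4 : ℝ) • YJ N n l pl μ w p q K gs j i) +
      GT N b t (η, φ) (-((4 : ℝ) • YJ N n l pl μ w p q K gs j i)) ≤ 2 * lc + 2 * κ) :
    |Real.log (Psi (wT b N) (wTD N b η) (t • (1 : Matrix (V N) (V N) ℝ)) φ K) -
      Real.log (Psi (wT b N) (wTD N b η) (t • (1 : Matrix (V N) (V N) ℝ)) φ
        (fun x => dcs l μ w p q (fun y => K y + gs y) x +
          plp pl μ w p q (fun y => K y + gs y) x - gs x))| ≤
      ((n : ℝ) + 1) * ((n * n : ℕ) * (e + e4 + 2 * δ)) := by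
  set P : (V N → ℝ) → ℝ := fun F =>
    Real.log (Psi (wT b N) (wTD N b η) (t • (1 : Matrix (V N) (V N) ℝ)) φ F) with hPd
  have one : ∀ j ≤ n, |P (YJ N n l pl μ w p q K gs j 0) -
      P (YJ N n l pl μ w p q K gs j (n * n))| ≤ (n * n : ℕ) * (e + e4 + 2 * δ) := by
    intro j hj
    have h1 := hnd j hj
    have h2 := hR j hj
    have h3 := hE j hj
    rcases j with _ | j
    · simp only [YJ_zero_eq] at h1 h2 h3 ⊢
      exact cut_sweep hb ht hN hl h32 hη w hP hpq μ _ K 0 1 he he4 hδ hU hΔ h1 h2 h3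
    · simp only [YJ_succ_eq] at h1 h2 h3 ⊢
      exact cut_sweep hb ht hN hl h32 hη w hP hpq μ _ gs (j / n) (1 / n) he he4 hδ hU hΔ h1 h2 h3
  have all : ∀ j ≤ n, |P (YJ N n l pl μ w p q K gs 0 0) -
      P (YJ N n l pl μ w p q K gs j (n * n))| ≤
      ((j : ℝ) + 1) * ((n * n : ℕ) * (e + e4 + 2 * δ)) := by
    intro j
    induction j with
    | zero =>
      intro hj
      have := one 0 hj
      push_cast at this ⊢
      linarith
    | succ j ih =>
      intro hj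
      have h1 := ih (by omega)
      have h2 := one (j + 1) hj
      rw [YJ_next] at h2
      have h3 := abs_sub_le (P (YJ N n l pl μ w p q K gs 0 0))
        (P (YJ N n l pl μ w p q K gs j (n * n))) (P (YJ N n l pl μ w p q K gs (j + 1) (n * n)))
      push_cast at h1 h2 ⊢
      linarith
  have key := all n le_rfl
  have e0 : P (YJ N n l pl μ w p q K gs 0 0) = P K := by
    simp only [hPd]
    rw [YJ_start hb hw]
  have e1 : YJ N n l pl μ w p q K gs n (n * n) = fun x =>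
      dcs l μ w p q (fun y => K y + gs y) x + plp pl μ w p q (fun y => K y + gs y) x - gs x :=
    funext (YJ_last pl μ w p q K gs)
  rw [e0, e1] at key
  exact key

end

end Vale.Agent.P159.H191
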