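import Vale.Agent.P159.H191.Ct7
import Vale.Agent.P159.H963.Core2
import Vale.Agent.P159.H856.Dl6

/-!
P159 (helper191), module CUT (8): the numbers at a node.

* `RT_RF` : `RT = RF` (letters of helper963);
* `nod_of` : `Nod` from the numbers: energy `A ≤ CA (-Δ)`, local smooth fields, the cross term,
  the (rd) number.
-/

set_option linter.unusedSectionVars false

open scoped Matrix
open Finset

namespace Vale.Agent.P159.H191

open Vale.Agent.P159.H883 (Psi)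
open Vale.Agent.P159.H770 (Ed eS eT wTD wTD_zero)
open Vale.Agent.P159.H353 (wI)
open Vale.Agent.P159.TM.SpecC (wT)
open Vale.Agent.P159.TM.Spec (V)
open Vale.Agent.P159.TM.H764 (EE)
open Vale.Agent.P159.H817 (sz gr bD dv GB nrm nrm_local CG_pos)
open Vale.Agent.P159.H37 (qf bf bf_self)
open Vale.Agent.P159.H963 (Anm Pin ntr nwt)
open Vale.Agent.P159.H963.Core (RF)
open Vale.Agent.P159.H474.Cb (GE)
open Vale.Agent.P159.H764.Ctg (Cut Cc Cc_pos)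

noncomputable section

variable {N : ℕ} [NeZero N] {b t : ℝ}

/-- `RT` in the letters of helper963 -/
theorem RT_RF (hb : 0 < b) (ht : 0 < t) (F : V N → ℝ) : RT N b t F = RF N b t F := by
  rw [RT_eq hb ht, wTD_zero]
  unfold Vale.Agent.P159.H963.Core.RF H817.Pt
  rw [H817.ntr_sc, Matrix.smul_mulVec, ← Matrix.mulVec_smul]
  rfl

/-- the energy of the local bump -/
lemma nrm_cut {η : Ed N → ℤ} {φ v : V N → ℝ} {c : V N} {l : ℕ} (hl : 0 < l) {W : GE N} {c0 : ℝ}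
    (h : Cut c (2 * l) η φ v W c0) : nrm (gr v) ≤ 3528 * Cc ^ 2 :=
  nrm_local (l := 2 * l) (w := c) (by omega) (by
    have h1 := h.gb
    exact h1) (fun x hx => h.out x (by omega))

lemma BT_cut (hb : 0 < b) (ht : 0 < t) {CA : ℝ} (hCA : 0 ≤ CA)
    (hA : ∀ k : V N, k ≠ 0 → Pin N b t k ≤ CA * EE k) {η : Ed N → ℤ} {φ v : V N → ℝ} {c : V N}
    {l : ℕ} (hl : 0 < l) {W : GE N} {c0 : ℝ} (h : Cut c (2 * l) η φ v W c0) :
    BT N b t v v ≤ CA * (3528 * Cc ^ 2) := by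
  have h1 : BT N b t v v = qf (Anm N b t) v := bf_self _ _
  rw [h1]
  exact (H856.Dl.qf_Anm_le hb ht hA v).trans
    (mul_le_mul_of_nonneg_left (nrm_cut hl h) hCA)

/-- **the numbers at a node** -/
theorem nod_of (hb : 0 < b) (ht : 0 < t) {CA : ℝ} (hCA : 0 ≤ CA)
    (hA : ∀ k : V N, k ≠ 0 → Pin N b t k ≤ CA * EE k) {l : ℕ} (hl : 0 < l)
    {η : Ed N → ℤ} {φ : V N → ℝ} {c : V N} {f : V N → ℝ} {τ e e4 δ Ev Λ : ℝ}
    (hEv : CA * (3528 * Cc ^ 2) ≤ Ev) (hΛ : 2 * Cc ≤ Λ)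
    (hRl : ∀ (F : V N → ℝ) (w : V N), GB (Λ / ((2 * l : ℕ) : ℝ)) F →
      (∀ x, 4 * (2 * l) ≤ sz (x - w) → F x = 0) → RF N b t F ≤ δ)
    (h4 : ∀ v : V N → ℝ, (∀ x, sz (x - c) < 3 * (2 * l) → dv (gr v) x = 0) →
      nrm (gr v) ≤ 3528 * Cc ^ 2 → |bf (Anm N b t) f v| ≤ e4)
    (hrd : ∀ (v : V N → ℝ) (W : GE N) (c0 : ℝ), Cut c (2 * l) η φ v W c0 →
      BT N b t v v ≤ Ev → RdN N b t W f τ e) :
    Nod N b t η φ l c f τ e e4 δ Ev := by
  intro v W c0 hcut hdv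
  have h1 := (BT_cut hb ht hCA hA hl hcut).trans hEv
  refine ⟨h1, hrd v W c0 hcut h1, h4 v hdv (nrm_cut hl hcut), ?_⟩
  rw [RT_RF hb ht]
  refine hRl _ c ?_ ?_
  · have h2 := hcut.gb.smul (2 : ℝ)
    refine h2.mono ?_
    rw [abs_of_pos (by norm_num : (0 : ℝ) < 2), ← mul_div_assoc]
    exact div_le_div_of_nonneg_right hΛ (Nat.cast_nonneg _)
  · intro x hx
    show (2 : ℝ) * v x = 0
    rw [hcut.out x hx, mul_zero]

end

end Vale.Agent.P159.H191
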