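import Vale.Agent.P159.H191.Ct8
import Vale.Agent.P159.H764.Rdc2
import Vale.Agent.P159.H446.Cut4
import Vale.Agent.P159.H859.Idl4

/-!
P159 (helper191), module CUT (9): **the numbers of `Nod` at a pair, one phase**.

* `rdN_N` : helper764's `rdN_pair` on a torus `N` with a given factorization;
* `Y1_supp` : the pieces of helper446's path live on boxes of radius `2 l`;
* `sum_sq_le` : the mass of a piece;
* `nod_pair` : `Nod` at a pair: arms `LN`, `Geo`, energy from `FL`, the number `e` explicit.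
-/

set_option linter.unusedSectionVars false

open scoped Matrix
open Finset

namespace Vale.Agent.P159.H191.Cf

open Vale.Agent.P159.H191
open Vale.Agent.P159.H612 (omE_torus)
open Vale.Agent.P159.H474.Cb (LN Geo GE)
open Vale.Agent.P159.H770 (Ed eS eT wTD)
open Vale.Agent.P159.H353 (wI)
open Vale.Agent.P159.H446.Pr (Y1 sj)
open Vale.Agent.P159.H764.Ctg (Cut Cc Cc_pos)
open Vale.Agent.P159.H764.Rd (KR)
open Vale.Agent.P159.H773 (mm)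
open Vale.Agent.P159.H817 (sz gr dv GB nrm IsPath)
open Vale.Agent.P159.H963 (Anm)
open Vale.Agent.P159.H963.Core (RF)
open Vale.Agent.P159.H37 (qf bf bf_self)
open Vale.Agent.P159.H972 (FL)
open Vale.Agent.P159.TM
open Vale.Agent.P159.TM.Spec (V)
open Vale.Agent.P159.TM.SpecC (Tor wT)

noncomputable section

/-- the energy bound of the local bumps -/
def EvC : ℝ := 6 * (3528 * Cc ^ 2)

lemma EvC_nonneg : 0 ≤ EvC := by
  have := Cc_pos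
  unfold EvC
  positivity

section gen

variable {N : ℕ} [NeZero N] {b t : ℝ}

lemma rdN_mono {W : GE N} {f : V N → ℝ} {τ e e' : ℝ} (h : RdN N b t W f τ e) (he : e ≤ e') :
    RdN N b t W f τ e' := fun X hX => (h X hX).trans he

/-- **the (rd) number** -/
theorem rdN_N (hb : 0 < b) {mb nb ξ A κ l : ℕ} [iM : NeZero ((mb + 1) * (nb + 2))]
    [iM2 : NeZero ((mb + 1) * 2)] (hN : (mb + 1) * (nb + 2) = N) (ht : t = 1 / (ξ : ℝ) ^ 2)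
    {L₀ c C : ℝ} (hL₀ : 0 ≤ L₀) (hc : 0 < c) (hC : 0 < C) (H : LN mb nb b hb ξ A L₀ c C)
    (g : Geo mb nb ξ A 2 κ (2 * l + 1) c) {ω : ℝ}
    (hω : H612.om0 ((mb + 1) * (nb + 2)) b ((1 / (ξ : ℝ) ^ 2) •
      (1 : Matrix (Tor ((mb + 1) * (nb + 2))) (Tor ((mb + 1) * (nb + 2))) ℝ)) ≤ ω)
    (hω4 : ω ≤ 1 / 4) (hl : 1 ≤ l) {w p q : V N} {v1 v2 : ℤ} {Lp : ℕ} {η : Ed N → ℤ}
    (hη : IsPath p q v1 v2 Lp η) {fx v : V N → ℝ} {W : GE N} {c0 : ℝ}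
    (h : Cut w (2 * l) η fx v W c0) (hp : 16 * l ≤ sz (w - p)) (hq : 16 * l ≤ sz (w - q))
    (hκ : 2 * κ ≤ sz (q - p)) {lc Δ Ev pr : ℝ}
    (hU : ∀ F, LT N b t ((η, fx) + iT N F) - LT N b t 0 ≤ lc)
    (hΔ : lc - Δ ≤ LT N b t (η, fx) - LT N b t 0) (hEv : BT N b t v v ≤ Ev)
    (hQ : mm b (κ - 1) ^ 2 ≤ Real.exp (lc + pr)) {f : V N → ℝ}
    (hf : ∀ x, 2 * l < sz (x - w) → f x = 0) {S : ℝ} (hS : t * ∑ x, f x ^ 2 ≤ S) (τ : ℝ) :
    RdN N b t W f τ (Real.exp ((τ + 4) / 2) * √(KR A c C * S * ((N : ℝ) / ξ) ^ 2 *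
      Real.exp (2 * Δ + Ev + pr / 2 - c * κ / (8 * ξ))) + 8 * ω ^ 2) := by
  subst hN
  rename_i iN
  obtain rfl : iN = iM := Subsingleton.elim _ _
  subst ht
  have hκ1 : 1 ≤ κ := by
    have h1 := g.hA
    have h2 := g.hAξ
    have h3 := g.hκ
    omega
  have hξ : 0 < ξ := by
    have h1 := g.hA
    have h2 := g.hAξ
    omega
  have ht0 : (0 : ℝ) < 1 / (ξ : ℝ) ^ 2 := by positivity
  have hom0 : H764.Rd.om ((mb + 1) * (nb + 2)) b (1 / (ξ : ℝ) ^ 2) =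
      H612.om0 ((mb + 1) * (nb + 2)) b ((1 / (ξ : ℝ) ^ 2) •
        (1 : Matrix (Tor ((mb + 1) * (nb + 2))) (Tor ((mb + 1) * (nb + 2))) ℝ)) := omE_torus
  have hom : H764.Rd.om ((mb + 1) * (nb + 2)) b (1 / (ξ : ℝ) ^ 2) ≤ ω := hom0.trans_le hω
  have homp : 0 ≤ H764.Rd.om ((mb + 1) * (nb + 2)) b (1 / (ξ : ℝ) ^ 2) :=
    (edM_T (N := (mb + 1) * (nb + 2)) hb ht0).om_nonneg
  have key := H764.Rd.rdN_pair hb hL₀ hc hC H g le_rfl (by linarith) (l := 2 * l) (R0 := 2 * l)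
    (by omega) (by omega) hη h (by omega) (by omega) (r0 := κ - 1) (by omega) (by omega) hU hΔ
    hEv hQ hf τ
  refine rdN_mono key ?_
  have hKR : 0 ≤ KR A c C := by
    have h1 := H474.Cb.KL_pos A (c := c) hC
    unfold H764.Rd.KR
    positivity
  have e1 : Real.exp ((τ + 16 * H764.Rd.om ((mb + 1) * (nb + 2)) b (1 / (ξ : ℝ) ^ 2)) / 2) ≤
      Real.exp ((τ + 4) / 2) := Real.exp_le_exp.2 (by linarith)
  have e2 : H764.Rd.om ((mb + 1) * (nb + 2)) b (1 / (ξ : ℝ) ^ 2) ^ 2 ≤ ω ^ 2 :=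
    pow_le_pow_left₀ homp hom 2
  have e3 : KR A c C * (1 / (ξ : ℝ) ^ 2 * ∑ x, f x ^ 2) *
      ((((mb + 1) * (nb + 2) : ℕ) : ℝ) / ξ) ^ 2 *
        Real.exp (2 * Δ + Ev + pr / 2 - c * κ / (8 * ξ)) ≤
      KR A c C * S * ((((mb + 1) * (nb + 2) : ℕ) : ℝ) / ξ) ^ 2 *
        Real.exp (2 * Δ + Ev + pr / 2 - c * κ / (8 * ξ)) := by
    refine mul_le_mul_of_nonneg_right (mul_le_mul_of_nonneg_right ?_ (sq_nonneg _))
      (Real.exp_pos _).le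
    exact mul_le_mul_of_nonneg_left hS hKR
  have e4 := mul_le_mul e1 (Real.sqrt_le_sqrt e3) (Real.sqrt_nonneg _) (Real.exp_pos _).le
  linarith

/-- the mass of a local field -/
lemma sum_sq_le {f : V N → ℝ} {c : V N} {l : ℕ} {M : ℝ} (hf : ∀ x, l < sz (x - c) → f x = 0)
    (hM : ∀ x, |f x| ≤ M) : ∑ x, f x ^ 2 ≤ 4 * ((l : ℝ) + 1) ^ 2 * M ^ 2 := by
  classical
  have h1 : ∑ x, f x ^ 2 = ∑ z, f (z + c) ^ 2 :=
    (Equiv.sum_comp (Equiv.addRight c) (fun x => f x ^ 2)).symm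
  have h2 : ∑ z, f (z + c) ^ 2 = ∑ z ∈ univ.filter (fun z : V N => sz z ≤ l), f (z + c) ^ 2 := by
    rw [Finset.sum_filter]
    refine Finset.sum_congr rfl fun z _ => ?_
    split_ifs with h
    · rfl
    · rw [hf (z + c) (by rw [add_sub_cancel_right]; omega)]
      norm_num
  rw [h1, h2]
  have h3 : ∀ z ∈ univ.filter (fun z : V N => sz z ≤ l), f (z + c) ^ 2 ≤ M ^ 2 := fun z _ => by
    rw [← sq_abs]
    exact pow_le_pow_left₀ (abs_nonneg _) (hM _) 2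
  refine (Finset.sum_le_card_nsmul _ _ _ h3).trans ?_
  rw [nsmul_eq_mul]
  exact mul_le_mul_of_nonneg_right (H817.card_box l) (sq_nonneg _)

/-- the energy from `FL` -/
lemma BT_nrm {a η₀ : ℝ} (hb : 0 < b) (ht : 0 < t) (h : FL b t a η₀ N) (ha : a ≤ 2)
    (hη : η₀ ≤ 1) (v : V N → ℝ) : BT N b t v v ≤ 6 * nrm (gr v) := by
  have h1 := H859.Idl.An_le_nrm hb ht h ha hη (by norm_num) v
  rw [H963.qf_An_torus b ht v] at h1
  have h2 : BT N b t v v = qf (Anm N b t) v := bf_self _ _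
  rw [h2]
  linarith

end gen

section pair

variable {N n l : ℕ} [NeZero N] [NeZero n] {b t : ℝ}

/-- **the pieces of the path live on boxes of radius `2 l`** -/
lemma Y1_supp (hN : N = n * l) (hl : 0 < l) {w : V N → ℝ} {s : ℕ} (hw : Wts w s) (hs : s ≤ l)
    (pl μ : V N → ℝ) (p q : V N) (H gs : V N → ℝ) (j : ℕ) {i : ℕ} (hi : i < n * n) {x : V N}
    (hx : 2 * l < sz (x - nd N n l i)) :
    (Y1 N n l pl μ w p q H gs j i - Y1 N n l pl μ w p q H gs j (i + 1)) x = 0 := by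
  have hθ : ∀ x, sj N n l j (i + 1) x = sj N n l j i x + ps N n l i x / n := by
    intro x
    unfold H446.Pr.sj
    rw [th_succ hi]
    ring
  have h1 := YP_supp (l := l) hw hs pl μ p q hθ (c := nd N n l i)
    (fun x hx => by rw [ps_zero hN hl i hx, zero_div]) H hx
  rw [Pi.sub_apply]
  unfold H446.Pr.Y1
  rw [Pi.sub_apply, Pi.sub_apply]
  linarith

/-- **`Nod` at a pair** -/
theorem nod_pair (hb : 0 < b) (ht0 : 0 < t) (hl : 0 < l) {mb nb ξ A κ : ℕ}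
    [NeZero ((mb + 1) * (nb + 2))] [NeZero ((mb + 1) * 2)] (hNm : (mb + 1) * (nb + 2) = N)
    (ht : t = 1 / (ξ : ℝ) ^ 2) {L₀ c C : ℝ} (hL₀ : 0 ≤ L₀) (hc : 0 < c) (hC : 0 < C)
    (H : LN mb nb b hb ξ A L₀ c C) (g : Geo mb nb ξ A 2 κ (2 * l + 1) c) {ω : ℝ}
    (hω : H612.om0 ((mb + 1) * (nb + 2)) b ((1 / (ξ : ℝ) ^ 2) •
      (1 : Matrix (Tor ((mb + 1) * (nb + 2))) (Tor ((mb + 1) * (nb + 2))) ℝ)) ≤ ω)
    (hω4 : ω ≤ 1 / 4) {p q x₀ : V N} {v1 v2 : ℤ} {Lp : ℕ} {η : Ed N → ℤ}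
    (hη : IsPath p q v1 v2 Lp η) {φ : V N → ℝ} (hp : 16 * l ≤ sz (x₀ - p))
    (hq : 16 * l ≤ sz (x₀ - q)) (hκ : 2 * κ ≤ sz (q - p)) {a η₀ : ℝ} (hFL : FL b t a η₀ N)
    (ha : a ≤ 2) (hη₀ : η₀ ≤ 1) {Δ pr δ e4 : ℝ}
    (hΔ : lcT N b η - Δ ≤ LT N b t (η, φ) - LT N b t 0)
    (hQ : mm b (κ - 1) ^ 2 ≤ Real.exp (lcT N b η + pr)) {f : V N → ℝ}
    (hf : ∀ x, 2 * l < sz (x - x₀) → f x = 0) {M : ℝ} (hM : ∀ x, |f x| ≤ M)
    (hRF : ∀ v : V N → ℝ, nrm (gr v) ≤ 3528 * Cc ^ 2 → RF N b t ((2 : ℝ) • v) ≤ δ)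
    (h4 : ∀ (v : V N → ℝ) (W : GE N) (c0 : ℝ), Cut x₀ (2 * l) η φ v W c0 →
      (∀ x, sz (x - x₀) < 3 * (2 * l) → dv (gr v) x = 0) → |BT N b t f v| ≤ e4) (τ : ℝ) :
    Nod N b t η φ l x₀ f τ (Real.exp ((τ + 4) / 2) *
      √(KR A c C * (t * (4 * (((2 * l : ℕ) : ℝ) + 1) ^ 2 * M ^ 2)) * ((N : ℝ) / ξ) ^ 2 *
      Real.exp (2 * Δ + EvC + pr / 2 - c * κ / (8 * ξ))) + 8 * ω ^ 2) e4 δ EvC := by
  intro v W c0 hcut hdv
  have h1 := nrm_cut hl hcut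
  have h2 : BT N b t v v ≤ EvC := by
    refine (BT_nrm hb ht0 hFL ha hη₀ v).trans ?_
    unfold EvC
    linarith
  refine ⟨h2, ?_, h4 v W c0 hcut hdv, ?_⟩
  · exact rdN_N hb hNm ht hL₀ hc hC H g hω hω4 hl hη hcut hp hq hκ
      (fun F => LT_le hb ht0 η φ F) hΔ h2 hQ hf
      (mul_le_mul_of_nonneg_left (sum_sq_le hf hM) ht0.le) τ
  · rw [RT_RF hb ht0]
    exact hRF v h1

end pair

end

end Vale.Agent.P159.H191.Cf
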