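import Vale.Agent.P159.H191.Wired

/-!
P159, H191: the lattice sum on one dyadic level, `∑_{level j} 1/(1+|c|²) ≤ 2π log 2 + 168/2^j`,
and sums over annuli.
-/

set_option linter.all false
set_option autoImplicit false

open MeasureTheory Filter Topology
open scoped BigOperators

namespace Vale.Agent.P159.H191

open Vale.Agent.P159 Vale.Agent.P159.UJ Vale.Agent.P159.H950 Vale.Agent.P159.XY

/-- cells of level `j` (for `j ≥ 1`) -/
noncomputable def SD (j : ℕ) : Finset (ℤ × ℤ) := DD (j + 1) \ DD j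

theorem mem_SD {j : ℕ} {c : ℤ × ℤ} : c ∈ SD j ↔ qc c < 2 ^ (j + 1) ∧ ¬ qc c < 2 ^ j := by
  unfold SD
  rw [Finset.mem_sdiff, mem_DD, mem_DD]

theorem card_SD_le (j : ℕ) : ((SD j).card : ℝ) ≤ 16 * 4 ^ j := by
  have h2 : ((DD (j + 1) \ DD j).card : ℝ) ≤ 4 * 4 ^ (j + 1) := by
    rw [← card_DD]
    exact_mod_cast Finset.card_le_card Finset.sdiff_subset
  unfold SD
  calc _ ≤ 4 * (4 : ℝ) ^ (j + 1) := h2
    _ = _ := by ring

/-- children of a cell -/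
def ch (c : ℤ × ℤ) (e : Fin 2 × Fin 2) : ℤ × ℤ := (2 * c.1 + (e.1 : ℕ), 2 * c.2 + (e.2 : ℕ))

theorem qc_ch (c : ℤ × ℤ) (e : Fin 2 × Fin 2) (j : ℕ) : qc (ch c e) < 2 ^ (j + 1) ↔ qc c < 2 ^ j := by
  rw [qc_lt, qc_lt, two_pow_cast, two_pow_cast, pow_succ]
  unfold ch
  have h1 := e.1.2
  have h2 := e.2.2
  generalize (2 : ℤ) ^ j = r
  simp only
  constructor <;> intro h <;> omega

theorem sum_ch (j : ℕ) (g : ℤ × ℤ → ℝ) : ∑ c ∈ SD (j + 1), g c =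
    ∑ c ∈ SD j, ∑ e : Fin 2 × Fin 2, g (ch c e) := by
  rw [← Finset.sum_product' (SD j) Finset.univ (fun c e => g (ch c e))]
  symm
  refine Finset.sum_bij' (fun p _ => ch p.1 p.2)
    (fun c _ => ((c.1 / 2, c.2 / 2), (⟨(c.1 % 2).toNat, by omega⟩, ⟨(c.2 % 2).toNat, by omega⟩)))
    ?_ ?_ ?_ ?_ ?_
  · rintro ⟨c, e⟩ h
    have h1 := (Finset.mem_product.1 h).1
    rw [mem_SD] at h1 ⊢
    simp only
    rw [qc_ch, qc_ch]
    exact h1
  · intro c h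
    rw [Finset.mem_product]
    refine ⟨?_, Finset.mem_univ _⟩
    rw [mem_SD] at h ⊢
    have e1 : ch (c.1 / 2, c.2 / 2) (⟨(c.1 % 2).toNat, by omega⟩, ⟨(c.2 % 2).toNat, by omega⟩) = c := by
      unfold ch
      ext <;> simp only <;> omega
    rw [← e1, qc_ch, qc_ch] at h
    exact h
  · rintro ⟨⟨c1, c2⟩, ⟨e1, e2⟩⟩ h
    have h1 := e1.2
    have h2 := e2.2
    unfold ch
    simp only [Prod.mk.injEq]
    refine ⟨⟨by omega, by omega⟩, ?_, ?_⟩
    · ext; simp only; omega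
    · ext; simp only; omega
  · intro c h
    unfold ch
    ext <;> simp only <;> omega
  · rintro ⟨c, e⟩ h
    rfl

theorem child_diff {j : ℕ} {c : ℤ × ℤ} (h : c ∈ SD j) (e : Fin 2 × Fin 2) :
    |1 / qq 1 (ch c e) - 1 / qq 1 c / 4| ≤ 21 / (16 * 8 ^ j) := by
  rw [mem_SD] at h
  have hr : (1 : ℝ) ≤ 2 ^ j := one_le_pow₀ (by norm_num)
  have f1 := far h.2 (le_refl (c.1 : ℝ)) (by linarith) (le_refl (c.2 : ℝ)) (by linarith)
  have f2 : ((2 : ℝ) ^ (j + 1)) ^ 2 ≤ 1 + ((ch c e).1 : ℝ) ^ 2 + ((ch c e).2 : ℝ) ^ 2 :=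
    far (by rw [qc_ch]; exact h.2) (le_refl _) (by linarith) (le_refl _) (by linarith)
  have hb := h.1
  rw [qc_lt, two_pow_cast] at hb
  obtain ⟨b1, b2, b3, b4⟩ := hb
  have c1 : -(2 : ℝ) ^ (j + 1) ≤ c.1 := by exact_mod_cast b1
  have c2 : (c.1 : ℝ) ≤ 2 ^ (j + 1) := by exact_mod_cast b2.le
  have c3 : -(2 : ℝ) ^ (j + 1) ≤ c.2 := by exact_mod_cast b3
  have c4 : (c.2 : ℝ) ≤ 2 ^ (j + 1) := by exact_mod_cast b4.le
  have e1 : ((ch c e).1 : ℝ) = 2 * c.1 + (e.1 : ℕ) := by unfold ch; push_cast; rfl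
  have e2 : ((ch c e).2 : ℝ) = 2 * c.2 + (e.2 : ℕ) := by unfold ch; push_cast; rfl
  have u1 : ((e.1 : ℕ) : ℝ) = 0 ∨ ((e.1 : ℕ) : ℝ) = 1 := by
    have := e.1.2
    interval_cases h : (e.1 : ℕ)
    · left; simp
    · right; simp
  have u2 : ((e.2 : ℕ) : ℝ) = 0 ∨ ((e.2 : ℕ) : ℝ) = 1 := by
    have := e.2.2
    interval_cases h : (e.2 : ℕ)
    · left; simp
    · right; simp
  have e8 : (8 : ℝ) ^ j = (2 ^ j) ^ 3 := by rw [← pow_mul, mul_comm, pow_mul]; norm_num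
  have hp : (2 : ℝ) ^ (j + 1) = 2 ^ j * 2 := pow_succ _ _
  rw [hp] at f2 c1 c2 c3 c4
  unfold qq
  rw [one_pow, e8]
  rw [e1, e2] at f2 ⊢
  set r : ℝ := 2 ^ j with hrdef
  have hP : 0 < 1 + (c.1 : ℝ) ^ 2 + (c.2 : ℝ) ^ 2 := by positivity
  have hQ : 0 < 1 + (2 * (c.1 : ℝ) + ((e.1 : ℕ) : ℝ)) ^ 2 + (2 * (c.2 : ℝ) + ((e.2 : ℕ) : ℝ)) ^ 2 := by
    positivity
  rw [div_div, div_sub_div _ _ hQ.ne' (by positivity), abs_div,
    abs_of_pos (mul_pos hQ (by positivity)), div_le_div_iff₀ (mul_pos hQ (by positivity))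
      (by positivity)]
  have k1 : |1 * ((1 + (c.1 : ℝ) ^ 2 + (c.2 : ℝ) ^ 2) * 4) -
      (1 + (2 * (c.1 : ℝ) + ((e.1 : ℕ) : ℝ)) ^ 2 + (2 * (c.2 : ℝ) + ((e.2 : ℕ) : ℝ)) ^ 2) * 1| ≤
      21 * r := by
    rw [abs_le]
    rcases u1 with u1 | u1 <;> rcases u2 with u2 | u2 <;> rw [u1, u2] <;>
      constructor <;> nlinarith only [c1, c2, c3, c4, hr]
  have k2 : r ^ 2 * (4 * r ^ 2) * 4 ≤
      (1 + (2 * (c.1 : ℝ) + ((e.1 : ℕ) : ℝ)) ^ 2 + (2 * (c.2 : ℝ) + ((e.2 : ℕ) : ℝ)) ^ 2) *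
      ((1 + (c.1 : ℝ) ^ 2 + (c.2 : ℝ) ^ 2) * 4) := by
    have : (4 * r ^ 2) * (r ^ 2 * 4) ≤
      (1 + (2 * (c.1 : ℝ) + ((e.1 : ℕ) : ℝ)) ^ 2 + (2 * (c.2 : ℝ) + ((e.2 : ℕ) : ℝ)) ^ 2) *
      ((1 + (c.1 : ℝ) ^ 2 + (c.2 : ℝ) ^ 2) * 4) := by
      refine mul_le_mul (by nlinarith only [f2]) (by linarith) (by positivity) hQ.le
    linarith
  calc _ ≤ 21 * r * (16 * r ^ 3) := mul_le_mul_of_nonneg_right k1 (by positivity)
    _ = 21 * (r ^ 2 * (4 * r ^ 2) * 4) := by ring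
    _ ≤ _ := mul_le_mul_of_nonneg_left k2 (by norm_num)

/-- sum over one level -/
noncomputable def BB (j : ℕ) : ℝ := ∑ c ∈ SD j, 1 / qq 1 c

theorem BB_nonneg (j : ℕ) : 0 ≤ BB j :=
  Finset.sum_nonneg fun c _ => by have := qq_pos c; positivity

theorem BB_step (j : ℕ) : BB j - 84 / 2 ^ j ≤ BB (j + 1) := by
  unfold BB
  rw [sum_ch]
  have h1 : ∀ c ∈ SD j, 1 / qq 1 c - 4 * (21 / (16 * 8 ^ j)) ≤
      ∑ e : Fin 2 × Fin 2, 1 / qq 1 (ch c e) := by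
    intro c hc
    have h2 : ∀ e : Fin 2 × Fin 2, 1 / qq 1 c / 4 - 21 / (16 * 8 ^ j) ≤ 1 / qq 1 (ch c e) := by
      intro e
      have := (abs_le.1 (child_diff hc e)).1
      linarith
    have h3 := Finset.sum_le_sum fun (e : Fin 2 × Fin 2) (_ : e ∈ Finset.univ) => h2 e
    refine le_trans (le_of_eq ?_) h3
    rw [Finset.sum_const, Finset.card_univ]
    simp only [Fintype.card_prod, Fintype.card_fin, nsmul_eq_mul]
    push_cast
    ring
  refine le_trans ?_ (Finset.sum_le_sum h1)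
  rw [Finset.sum_sub_distrib, Finset.sum_const, nsmul_eq_mul]
  have h4 := card_SD_le j
  have e8 : (8 : ℝ) ^ j = 2 ^ j * 4 ^ j := by rw [← mul_pow]; norm_num
  have h5 : ((SD j).card : ℝ) * (4 * (21 / (16 * 8 ^ j))) ≤ 84 / 2 ^ j := by
    calc ((SD j).card : ℝ) * (4 * (21 / (16 * 8 ^ j))) ≤
        (16 * 4 ^ j) * (4 * (21 / (16 * 8 ^ j))) := mul_le_mul_of_nonneg_right h4 (by positivity)
      _ = 84 / 2 ^ j := by rw [e8]; field_simp; norm_num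
  linarith

theorem BB_far (j i : ℕ) : BB j - 168 / 2 ^ j + 168 / 2 ^ (j + i) ≤ BB (j + i) := by
  induction i with
  | zero => simp
  | succ i ih =>
    have h := BB_step (j + i)
    have e : (168 : ℝ) / 2 ^ (j + (i + 1)) = 84 / 2 ^ (j + i) := by
      rw [← add_assoc, pow_succ]
      field_simp
      norm_num
    rw [← add_assoc] at e ⊢
    rw [e]
    have e2 : (168 : ℝ) / 2 ^ (j + i) = 84 / 2 ^ (j + i) + 84 / 2 ^ (j + i) := by ring
    linarith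

theorem sum_BB (n : ℕ) : ∑ j ∈ Finset.range n, BB j ≤ ∑ c ∈ DD n, 1 / qq 1 c := by
  induction n with
  | zero =>
    simp only [Finset.range_zero, Finset.sum_empty]
    exact Finset.sum_nonneg fun c _ => by have := qq_pos c; positivity
  | succ n ih =>
    rw [Finset.sum_range_succ, ← Finset.sum_sdiff (DD_mono n)]
    unfold BB SD
    unfold BB SD at ih
    linarith

/-- **the level sum** -/
theorem BB_le (j : ℕ) : BB j ≤ 2 * Real.pi * Real.log 2 + 168 / 2 ^ j := by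
  by_contra hcon
  push Not at hcon
  obtain ⟨d, hd0, hd⟩ : ∃ d : ℝ, 0 < d ∧ BB j - 168 / 2 ^ j = 2 * Real.pi * Real.log 2 + d :=
    ⟨BB j - 168 / 2 ^ j - 2 * Real.pi * Real.log 2, by linarith, by ring⟩
  have h1 : ∀ i : ℕ, 2 * Real.pi * Real.log 2 + d ≤ BB (j + i) := by
    intro i
    have h2 := BB_far j i
    have h3 : (0 : ℝ) < 168 / 2 ^ (j + i) := by positivity
    linarith
  have h2 : ∀ i : ℕ, (i : ℝ) * (2 * Real.pi * Real.log 2 + d) ≤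
      2 * Real.pi * Real.log 2 * ((j + i : ℕ) : ℝ) + 20 := by
    intro i
    have h3 := (sum_BB (j + i)).trans (sum_qq (j + i))
    rw [Finset.sum_range_add] at h3
    have h4 : 0 ≤ ∑ x ∈ Finset.range j, BB x := Finset.sum_nonneg fun x _ => BB_nonneg x
    have h5 : (i : ℝ) * (2 * Real.pi * Real.log 2 + d) ≤ ∑ x ∈ Finset.range i, BB (j + x) := by
      rw [← nsmul_eq_mul]
      have := Finset.card_nsmul_le_sum (Finset.range i) (fun x => BB (j + x))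
        (2 * Real.pi * Real.log 2 + d) (fun x _ => h1 x)
      rwa [Finset.card_range] at this
    linarith
  obtain ⟨i, hi⟩ := exists_nat_gt ((2 * Real.pi * Real.log 2 * j + 20) / d)
  have h3 := h2 i
  rw [div_lt_iff₀ hd0] at hi
  push_cast at h3
  nlinarith only [h3, hi]

theorem sum_annulus (g : ℤ × ℤ → ℝ) {a m : ℕ} (h : a ≤ m) :
    ∑ c ∈ DD m \ DD a, g c = ∑ j ∈ Finset.Ico a m, ∑ c ∈ SD j, g c := by
  induction m, h using Nat.le_induction with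
  | base => simp
  | succ m hm ih =>
    rw [Finset.sum_Ico_succ_top hm, ← ih]
    have hsub : DD a ⊆ DD m := by
      intro c hc
      rw [mem_DD] at hc ⊢
      exact hc.trans_le (Nat.pow_le_pow_right (by norm_num) hm)
    have e1 : DD (m + 1) \ DD a = (DD m \ DD a) ∪ SD m := by
      ext c
      unfold SD
      simp only [Finset.mem_sdiff, Finset.mem_union]
      have h1 := @hsub c
      have h2 := @DD_mono m c
      tauto
    rw [e1, Finset.sum_union]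
    rw [Finset.disjoint_left]
    intro c h1 h2
    unfold SD at h2
    exact (Finset.mem_sdiff.1 h2).2 (Finset.mem_sdiff.1 h1).1

end Vale.Agent.P159.H191
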