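import Vale.Agent.P159.H950.A3
import Mathlib.Analysis.SpecialFunctions.Trigonometric.Series

/-!
P159, module S_up, part A: the twisted partition function at imaginary twist is a sum of
hyperbolic cosines with nonnegative coefficients; sharp quartic bound
`rho (t y) ≤ 1 + t² Q(y) / 2 + t⁴ rho y`, `0 ≤ t ≤ 1`.
-/

set_option linter.all false
set_option autoImplicit false

open MeasureTheory Filter Topology
open scoped BigOperators

namespace Vale.Agent.P159.H191

open Vale.Agent.P159 Vale.Agent.P159.UJ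

/-- the elementary inequality -/
theorem cosh_quartic {t : ℝ} (h0 : 0 ≤ t) (h1 : t ≤ 1) (Y : ℝ) :
    Real.cosh (t * Y) ≤ 1 + t ^ 2 * Y ^ 2 / 2 + t ^ 4 * (Real.cosh Y - 1 - Y ^ 2 / 2) := by
  have hs1 := Real.hasSum_cosh (t * Y)
  have hs2 := (Real.hasSum_cosh Y).mul_left (t ^ 4)
  have hf : HasSum (fun n : ℕ => if n = 0 then (1 - t ^ 4) else if n = 1 then (t ^ 2 - t ^ 4) * (Y ^ 2 / 2) else 0)
      ((1 - t ^ 4) + (t ^ 2 - t ^ 4) * (Y ^ 2 / 2)) := by
    have := hasSum_sum_of_ne_finset_zero (L := SummationFilter.unconditional ℕ) (f := fun n : ℕ => if n = 0 then (1 - t ^ 4) else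
      if n = 1 then (t ^ 2 - t ^ 4) * (Y ^ 2 / 2) else 0) (s := Finset.range 2) (by
        intro n hn
        have : 2 ≤ n := by
          rw [Finset.mem_range, not_lt] at hn
          exact hn
        rw [if_neg (by omega), if_neg (by omega)])
    simpa [Finset.sum_range_succ] using this
  have h := hasSum_le ?_ hs1 (hs2.add hf)
  · linarith
  · intro n
    rcases n with _ | _ | n
    · simp
    · simp only [zero_add, Nat.factorial, mul_one, one_ne_zero, if_false, if_true]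
      norm_num
      ring_nf
      rfl
    · simp only [Nat.add_eq_zero_iff, one_ne_zero, and_false, if_false, add_zero]
      rw [if_neg (by omega)]
      have e1 : (t * Y) ^ (2 * (n + 1 + 1)) = t ^ (2 * n) * (t ^ 4 * Y ^ (2 * (n + 1 + 1))) := by
        rw [mul_pow]; ring
      rw [e1, add_zero, mul_div_assoc']
      have e2 : 0 ≤ Y ^ (2 * (n + 1 + 1)) := by
        rw [pow_mul]; positivity
      have e3 : t ^ (2 * n) ≤ 1 := pow_le_one₀ h0 h1
      have e4 : 0 ≤ t ^ 4 * Y ^ (2 * (n + 1 + 1)) := by positivity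
      exact div_le_div_of_nonneg_right (mul_le_of_le_one_left e4 e3) (Nat.cast_nonneg _)

theorem one_add_le_cosh (Y : ℝ) : 1 + Y ^ 2 / 2 ≤ Real.cosh Y := by
  have hs1 := Real.hasSum_cosh Y
  have hf : HasSum (fun n : ℕ => if n = 0 then (1 : ℝ) else if n = 1 then (Y ^ 2 / 2) else 0)
      (1 + Y ^ 2 / 2) := by
    have := hasSum_sum_of_ne_finset_zero (L := SummationFilter.unconditional ℕ) (f := fun n : ℕ => if n = 0 then (1 : ℝ) else
      if n = 1 then (Y ^ 2 / 2) else 0) (s := Finset.range 2) (by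
        intro n hn
        have : 2 ≤ n := by
          rw [Finset.mem_range, not_lt] at hn
          exact hn
        rw [if_neg (by omega), if_neg (by omega)])
    simpa [Finset.sum_range_succ] using this
  refine hasSum_le ?_ hf hs1
  intro n
  rcases n with _ | _ | n
  · simp
  · simp [Nat.factorial]
  · simp only [Nat.add_eq_zero_iff, one_ne_zero, and_false, if_false]
    rw [if_neg (by omega)]
    have e2 : 0 ≤ Y ^ (2 * (n + 1 + 1)) := by
      rw [pow_mul]; positivity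
    positivity

section

variable {G : Type*} [AddCommGroup G] [TopologicalSpace G] [IsTopologicalAddGroup G]
  [CompactSpace G] [SecondCountableTopology G] [MeasurableSpace G] [BorelSpace G]
  (μ : Measure G) [μ.IsAddHaarMeasure] [IsProbabilityMeasure μ]
  {κ : Type*} [Fintype κ] (J : κ → ℝ) (χ : κ → Chr G)

/-- the two complex characters of a bond -/
noncomputable def ech (a : κ × Bool) (x : G) : ℂ :=
  if a.2 then (χ a.1).c x + (χ a.1).s x * Complex.I else (χ a.1).c x - (χ a.1).s x * Complex.I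

theorem ech_cont (a : κ × Bool) : Continuous (ech χ a) := by
  unfold ech
  have h1 : Continuous fun x => ((χ a.1).c x : ℂ) := Complex.continuous_ofReal.comp (χ a.1).cont_c
  have h2 : Continuous fun x => ((χ a.1).s x : ℂ) := Complex.continuous_ofReal.comp (χ a.1).cont_s
  split_ifs
  · exact h1.add (h2.mul continuous_const)
  · exact h1.sub (h2.mul continuous_const)

theorem ech_add (a : κ × Bool) (x y : G) : ech χ a (x + y) = ech χ a x * ech χ a y := by
  unfold ech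
  rw [(χ a.1).c_add, (χ a.1).s_add]
  split_ifs
  · push_cast
    linear_combination (-((χ a.1).s x : ℂ) * ((χ a.1).s y : ℂ)) * Complex.I_sq
  · push_cast
    linear_combination (-((χ a.1).s x : ℂ) * ((χ a.1).s y : ℂ)) * Complex.I_sq

theorem ech_flip (e : κ) (σ : Bool) (x : G) :
    ech χ (e, !σ) x = (starRingEnd ℂ) (ech χ (e, σ) x) := by
  unfold ech
  cases σ <;> simp [sub_eq_add_neg]

/-- sign of a word letter -/
def sg (y : κ → ℝ) (a : κ × Bool) : ℝ := if a.2 then -(y a.1) else y a.1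

/-- exponent of a word -/
noncomputable def Yw (y : κ → ℝ) {n : ℕ} (w : Fin n → κ × Bool) : ℝ := ∑ i, sg y (w i)

/-- coefficient of a word -/
noncomputable def Bw {n : ℕ} (w : Fin n → κ × Bool) : ℝ := ∏ i, (J (w i).1 / 2)

/-- integral of the product of the characters of a word -/
noncomputable def Iw {n : ℕ} (w : Fin n → κ × Bool) : ℂ := ∫ x, ∏ i, ech χ (w i) x ∂μ

theorem Iw_zero_or_one {n : ℕ} (w : Fin n → κ × Bool) : Iw μ χ w = 0 ∨ Iw μ χ w = 1 := by
  by_cases h : ∀ y : G, ∏ i, ech χ (w i) y = 1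
  · right
    unfold Iw
    simp_rw [h]
    simp
  · left
    push Not at h
    obtain ⟨y, hy⟩ := h
    have h1 : Iw μ χ w = (∏ i, ech χ (w i) y) * Iw μ χ w := by
      unfold Iw
      rw [← integral_const_mul]
      have h2 := integral_add_left_eq_self (μ := μ) (fun x => ∏ i, ech χ (w i) x) y
      rw [← h2]
      congr 1
      ext x
      rw [← Finset.prod_mul_distrib]
      exact Finset.prod_congr rfl fun i _ => ech_add χ (w i) y x
    have h3 : (1 - ∏ i, ech χ (w i) y) * Iw μ χ w = 0 := by linear_combination h1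
    rcases mul_eq_zero.1 h3 with h4 | h4
    · exact absurd (sub_eq_zero.1 h4).symm hy
    · exact h4

/-- the real value -/
noncomputable def iw {n : ℕ} (w : Fin n → κ × Bool) : ℝ := (Iw μ χ w).re

theorem Iw_eq {n : ℕ} (w : Fin n → κ × Bool) : Iw μ χ w = ((iw μ χ w : ℝ) : ℂ) := by
  unfold iw
  rcases Iw_zero_or_one μ χ w with h | h <;> rw [h] <;> simp

theorem iw_nonneg {n : ℕ} (w : Fin n → κ × Bool) : 0 ≤ iw μ χ w := by
  unfold iw
  rcases Iw_zero_or_one μ χ w with h | h <;> rw [h] <;> simp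

/-- flipping all letters -/
def flp {n : ℕ} (w : Fin n → κ × Bool) : Fin n → κ × Bool := fun i => ((w i).1, !(w i).2)

theorem flp_flp {n : ℕ} (w : Fin n → κ × Bool) : flp (flp w) = w := by
  funext i
  simp [flp]

/-- flipping as an equivalence -/
def flpE (n : ℕ) : (Fin n → κ × Bool) ≃ (Fin n → κ × Bool) where
  toFun := flp
  invFun := flp
  left_inv := flp_flp
  right_inv := flp_flp

theorem Yw_flp (y : κ → ℝ) {n : ℕ} (w : Fin n → κ × Bool) : Yw y (flp w) = -Yw y w := by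
  unfold Yw
  rw [← Finset.sum_neg_distrib]
  refine Finset.sum_congr rfl fun i _ => ?_
  unfold sg flp
  cases (w i).2 <;> simp

theorem Bw_flp {n : ℕ} (w : Fin n → κ × Bool) : Bw J (flp w) = Bw J w := rfl

theorem iw_flp {n : ℕ} (w : Fin n → κ × Bool) : iw μ χ (flp w) = iw μ χ w := by
  have h : Iw μ χ (flp w) = (starRingEnd ℂ) (Iw μ χ w) := by
    unfold Iw
    rw [← integral_conj]
    congr 1
    ext x
    rw [map_prod]
    refine Finset.prod_congr rfl fun i _ => ?_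
    have := ech_flip χ (w i).1 (w i).2 x
    exact this
  unfold iw
  rw [h, Complex.conj_re]

theorem Bw_nonneg (hJ : ∀ e, 0 ≤ J e) {n : ℕ} (w : Fin n → κ × Bool) : 0 ≤ Bw J w :=
  Finset.prod_nonneg fun i _ => by have := hJ (w i).1; linarith

/-- coefficients -/
noncomputable def cw {n : ℕ} (w : Fin n → κ × Bool) : ℝ := Bw J w * iw μ χ w

theorem cw_nonneg (hJ : ∀ e, 0 ≤ J e) {n : ℕ} (w : Fin n → κ × Bool) : 0 ≤ cw μ J χ w :=
  mul_nonneg (Bw_nonneg J hJ w) (iw_nonneg μ χ w)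

/-- the coefficient of order `n` -/
noncomputable def pn (y : κ → ℝ) (n : ℕ) (t : ℝ) : ℝ :=
  ∑ w : Fin n → κ × Bool, cw μ J χ w * Real.exp (t * Yw y w)

theorem pn_cosh (y : κ → ℝ) (n : ℕ) (t : ℝ) :
    pn μ J χ y n t = ∑ w : Fin n → κ × Bool, cw μ J χ w * Real.cosh (t * Yw y w) := by
  have h1 : pn μ J χ y n t = ∑ w : Fin n → κ × Bool, cw μ J χ w * Real.exp (-(t * Yw y w)) := by
    unfold pn
    rw [← Equiv.sum_comp (flpE n)]
    refine Finset.sum_congr rfl fun w _ => ?_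
    show cw μ J χ (flp w) * Real.exp (t * Yw y (flp w)) = _
    rw [Yw_flp]
    unfold cw
    rw [Bw_flp, iw_flp, mul_neg]
  have h2 : pn μ J χ y n t = (pn μ J χ y n t + pn μ J χ y n t) / 2 := by ring
  rw [h2]
  nth_rewrite 1 [pn]
  rw [h1, ← Finset.sum_add_distrib, Finset.sum_div]
  refine Finset.sum_congr rfl fun w _ => ?_
  rw [Real.cosh_eq]
  ring

/-- the energy as a sum over the complex characters -/
theorem energy_ech (y : κ → ℝ) (t : ℝ) (x : G) :
    ∑ e, J e * (χ e).C (((t * y e : ℝ) : ℂ) * Complex.I) x =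
      ∑ a : κ × Bool, (((J a.1 / 2 * Real.exp (t * sg y a) : ℝ)) : ℂ) * ech χ a x := by
  rw [Fintype.sum_prod_type]
  refine Finset.sum_congr rfl fun e _ => ?_
  rw [Fintype.sum_bool]
  unfold sg ech Chr.C
  simp only [if_true, Bool.false_eq_true, if_false]
  rw [Complex.cos_mul_I, Complex.sin_mul_I, Complex.cosh, Complex.sinh]
  push_cast
  rw [mul_neg]
  ring

theorem int_pow_eq (y : κ → ℝ) (n : ℕ) (t : ℝ) :
    ∫ x, (1 : ℂ) * (∑ e, J e * (χ e).C (((t * y e : ℝ) : ℂ) * Complex.I) x) ^ n ∂μ =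
      ((pn μ J χ y n t : ℝ) : ℂ) := by
  simp_rw [energy_ech, one_mul]
  have h1 : ∀ x : G, (∑ a : κ × Bool, (((J a.1 / 2 * Real.exp (t * sg y a) : ℝ)) : ℂ) *
      ech χ a x) ^ n = ∑ w : Fin n → κ × Bool,
        (((Bw J w * Real.exp (t * Yw y w) : ℝ)) : ℂ) * ∏ i, ech χ (w i) x := by
    intro x
    rw [Fintype.sum_pow]
    refine Finset.sum_congr rfl fun w _ => ?_
    rw [Finset.prod_mul_distrib]
    congr 1
    unfold Bw Yw
    rw [Finset.mul_sum, Real.exp_sum, ← Finset.prod_mul_distrib]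
    push_cast
    rfl
  simp_rw [h1]
  rw [integral_finset_sum]
  · unfold pn
    push_cast
    refine Finset.sum_congr rfl fun w _ => ?_
    rw [integral_const_mul]
    have h2 : ∫ x, ∏ i, ech χ (w i) x ∂μ = ((iw μ χ w : ℝ) : ℂ) := Iw_eq μ χ w
    rw [h2]
    unfold cw
    push_cast
    ring
  · intro w _
    apply cint
    exact continuous_const.mul (continuous_finsetProd _ fun i _ => ech_cont χ (w i))

theorem ZZ_hasSum (y : κ → ℝ) (t : ℝ) :
    HasSum (fun n : ℕ => ((pn μ J χ y n t / (n.factorial : ℝ) : ℝ) : ℂ))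
      (ZZ μ J χ (fun e => ((t * y e : ℝ) : ℂ) * Complex.I)) := by
  have hc : Continuous fun x => ∑ e, (J e : ℂ) * (χ e).C (((t * y e : ℝ) : ℂ) * Complex.I) x :=
    continuous_finsetSum _ fun e _ => continuous_const.mul ((χ e).cont_C _)
  have h := hasSum_integral_exp (μ := μ) (H := fun _ => (1 : ℂ))
    (F := fun x => ∑ e, (J e : ℂ) * (χ e).C (((t * y e : ℝ) : ℂ) * Complex.I) x)
    continuous_const hc
  have e : ∀ n : ℕ, ((pn μ J χ y n t / (n.factorial : ℝ) : ℝ) : ℂ) =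
      (∫ x, (1 : ℂ) * (∑ e, (J e : ℂ) * (χ e).C (((t * y e : ℝ) : ℂ) * Complex.I) x) ^ n ∂μ) /
        (n.factorial : ℂ) := by
    intro n
    rw [int_pow_eq]
    push_cast
    rfl
  simp_rw [e]
  have e2 : ZZ μ J χ (fun e => ((t * y e : ℝ) : ℂ) * Complex.I) =
      ∫ x, (1 : ℂ) * Complex.exp (∑ e, (J e : ℂ) * (χ e).C (((t * y e : ℝ) : ℂ) * Complex.I) x) ∂μ := by
    unfold ZZ
    simp only [one_mul]
  rw [e2]
  exact h

/-- the real value of the partition function at imaginary twist -/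
noncomputable def zr (y : κ → ℝ) (t : ℝ) : ℝ :=
  ‖ZZ μ J χ (fun e => ((t * y e : ℝ) : ℂ) * Complex.I)‖

theorem zr_hasSum (hJ : ∀ e, 0 ≤ J e) (y : κ → ℝ) (t : ℝ) :
    HasSum (fun n : ℕ => pn μ J χ y n t / (n.factorial : ℝ)) (zr μ J χ y t) := by
  have h := ZZ_hasSum μ J χ y t
  have h1 := Complex.hasSum_re h
  simp only [Complex.ofReal_re] at h1
  have h2 : 0 ≤ (ZZ μ J χ (fun e => ((t * y e : ℝ) : ℂ) * Complex.I)).re := by
    refine h1.nonneg fun n => ?_
    refine div_nonneg ?_ (Nat.cast_nonneg _)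
    unfold pn
    exact Finset.sum_nonneg fun w _ => mul_nonneg (cw_nonneg μ J χ hJ w) (Real.exp_pos _).le
  have h3 := Complex.hasSum_im h
  simp only [Complex.ofReal_im] at h3
  have h4 : (ZZ μ J χ (fun e => ((t * y e : ℝ) : ℂ) * Complex.I)).im = 0 :=
    h3.unique hasSum_zero
  have h5 : zr μ J χ y t = (ZZ μ J χ (fun e => ((t * y e : ℝ) : ℂ) * Complex.I)).re := by
    unfold zr
    have : ZZ μ J χ (fun e => ((t * y e : ℝ) : ℂ) * Complex.I) =
        (((ZZ μ J χ (fun e => ((t * y e : ℝ) : ℂ) * Complex.I)).re : ℝ) : ℂ) := by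
      apply Complex.ext
      · exact (Complex.ofReal_re _).symm
      · rw [h4]; exact (Complex.ofReal_im _).symm
    rw [this, Complex.norm_real, Real.norm_of_nonneg h2, Complex.ofReal_re]
  rw [h5]
  exact h1

theorem rho_eq_zr (y : κ → ℝ) (t : ℝ) : rho μ J χ (t • y) = zr μ J χ y t / zr μ J χ y 0 := by
  unfold rho zr
  congr 1
  congr 1
  congr 1
  funext e
  simp

theorem zr_zero_pos (y : κ → ℝ) : 0 < zr μ J χ y 0 := by
  have h := ZZ_zero_pos μ J χ
  have e : (fun e => ((0 * y e : ℝ) : ℂ) * Complex.I) = (0 : κ → ℂ) := by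
    funext e; simp
  unfold zr
  rw [e]
  exact h

/-- second moment of order `n` -/
noncomputable def sn (y : κ → ℝ) (n : ℕ) : ℝ :=
  ∑ w : Fin n → κ × Bool, cw μ J χ w * Yw y w ^ 2

theorem pn_zero (y : κ → ℝ) (n : ℕ) : pn μ J χ y n 0 = ∑ w : Fin n → κ × Bool, cw μ J χ w := by
  unfold pn
  simp

theorem pn_lower (hJ : ∀ e, 0 ≤ J e) (y : κ → ℝ) (n : ℕ) (t : ℝ) :
    pn μ J χ y n 0 + t ^ 2 / 2 * sn μ J χ y n ≤ pn μ J χ y n t := by
  rw [pn_cosh μ J χ y n t, pn_zero, sn, Finset.mul_sum, ← Finset.sum_add_distrib]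
  refine Finset.sum_le_sum fun w _ => ?_
  have h := mul_le_mul_of_nonneg_left (one_add_le_cosh (t * Yw y w)) (cw_nonneg μ J χ hJ w)
  calc _ = cw μ J χ w * (1 + (t * Yw y w) ^ 2 / 2) := by ring
    _ ≤ _ := h

theorem pn_upper (hJ : ∀ e, 0 ≤ J e) (y : κ → ℝ) (n : ℕ) {t : ℝ} (h0 : 0 ≤ t) (h1 : t ≤ 1) :
    pn μ J χ y n t ≤ pn μ J χ y n 0 + t ^ 2 / 2 * sn μ J χ y n +
      t ^ 4 * (pn μ J χ y n 1 - pn μ J χ y n 0 - sn μ J χ y n / 2) := by
  rw [pn_cosh μ J χ y n t, pn_cosh μ J χ y n 1, pn_zero, sn, Finset.mul_sum, Finset.sum_div,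
    ← Finset.sum_sub_distrib, ← Finset.sum_sub_distrib, Finset.mul_sum, ← Finset.sum_add_distrib,
    ← Finset.sum_add_distrib]
  refine Finset.sum_le_sum fun w _ => ?_
  have h := mul_le_mul_of_nonneg_left (cosh_quartic h0 h1 (Yw y w)) (cw_nonneg μ J χ hJ w)
  refine h.trans (le_of_eq ?_)
  rw [one_mul]
  ring

theorem sn_nonneg (hJ : ∀ e, 0 ≤ J e) (y : κ → ℝ) (n : ℕ) : 0 ≤ sn μ J χ y n :=
  Finset.sum_nonneg fun w _ => mul_nonneg (cw_nonneg μ J χ hJ w) (sq_nonneg _)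

theorem sn_summable (hJ : ∀ e, 0 ≤ J e) (y : κ → ℝ) :
    Summable fun n : ℕ => sn μ J χ y n / (n.factorial : ℝ) := by
  have h1 := ((zr_hasSum μ J χ hJ y 1).summable.sub (zr_hasSum μ J χ hJ y 0).summable).mul_left 2
  refine Summable.of_nonneg_of_le (fun n => div_nonneg (sn_nonneg μ J χ hJ y n)
    (Nat.cast_nonneg _)) (fun n => ?_) h1
  have h := pn_lower μ J χ hJ y n 1
  have hn : (0 : ℝ) < n.factorial := by exact_mod_cast n.factorial_pos
  rw [← sub_div, mul_div_assoc', div_le_div_iff_of_pos_right hn]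
  linarith

/-- the second moment -/
noncomputable def s2 (y : κ → ℝ) : ℝ := ∑' n : ℕ, sn μ J χ y n / (n.factorial : ℝ)

theorem zr_lower (hJ : ∀ e, 0 ≤ J e) (y : κ → ℝ) (t : ℝ) :
    zr μ J χ y 0 + t ^ 2 / 2 * s2 μ J χ y ≤ zr μ J χ y t := by
  have h1 := (zr_hasSum μ J χ hJ y 0).add ((sn_summable μ J χ hJ y).hasSum.mul_left (t ^ 2 / 2))
  refine hasSum_le (fun n => ?_) h1 (zr_hasSum μ J χ hJ y t)
  have hn : (0 : ℝ) < n.factorial := by exact_mod_cast n.factorial_pos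
  rw [mul_div_assoc', ← add_div, div_le_div_iff_of_pos_right hn]
  exact pn_lower μ J χ hJ y n t

theorem zr_upper (hJ : ∀ e, 0 ≤ J e) (y : κ → ℝ) {t : ℝ} (h0 : 0 ≤ t) (ht : t ≤ 1) :
    zr μ J χ y t ≤ zr μ J χ y 0 + t ^ 2 / 2 * s2 μ J χ y +
      t ^ 4 * (zr μ J χ y 1 - zr μ J χ y 0 - s2 μ J χ y / 2) := by
  have hs := (sn_summable μ J χ hJ y).hasSum
  have h1 := ((zr_hasSum μ J χ hJ y 0).add (hs.mul_left (t ^ 2 / 2))).add
    ((((zr_hasSum μ J χ hJ y 1).sub (zr_hasSum μ J χ hJ y 0)).sub (hs.div_const 2)).mul_left (t ^ 4))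
  refine hasSum_le (fun n => ?_) (zr_hasSum μ J χ hJ y t) h1
  have hn : (0 : ℝ) < n.factorial := by exact_mod_cast n.factorial_pos
  have h := pn_upper μ J χ hJ y n h0 ht
  have e : pn μ J χ y n 0 / (n.factorial : ℝ) + t ^ 2 / 2 * (sn μ J χ y n / (n.factorial : ℝ)) +
      t ^ 4 * (pn μ J χ y n 1 / (n.factorial : ℝ) - pn μ J χ y n 0 / (n.factorial : ℝ) -
        sn μ J χ y n / (n.factorial : ℝ) / 2) =
      (pn μ J χ y n 0 + t ^ 2 / 2 * sn μ J χ y n +
      t ^ 4 * (pn μ J χ y n 1 - pn μ J χ y n 0 - sn μ J χ y n / 2)) / (n.factorial : ℝ) := by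
    field_simp
  rw [e, div_le_div_iff_of_pos_right hn]
  exact h

/-- the second moment is at most the quadratic form -/
theorem s2_le (hJ : ∀ e, 0 ≤ J e) (y : κ → ℝ) :
    s2 μ J χ y ≤ zr μ J χ y 0 * Qform μ J χ y := by
  obtain ⟨M, hM1, hM⟩ : ∃ M : ℝ, 1 ≤ M ∧ ∀ e, |y e| ≤ M := by
    refine ⟨1 + ∑ e, |y e|, ?_, fun e => ?_⟩
    · have : 0 ≤ ∑ e, |y e| := Finset.sum_nonneg fun e _ => abs_nonneg _
      linarith
    · have := Finset.single_le_sum (f := fun e => |y e|) (fun e _ => abs_nonneg _)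
        (Finset.mem_univ e)
      linarith
  obtain ⟨S, hS⟩ : ∃ S, ∑ e, J e = S := ⟨_, rfl⟩
  have hS0 : 0 ≤ S := hS ▸ Finset.sum_nonneg fun e _ => hJ e
  obtain ⟨D, hD⟩ : ∃ D, D = S + 6 * S ^ 2 + 4 * S ^ 3 + 16 * S ^ 4 := ⟨_, rfl⟩
  have hD0 : 0 ≤ D := by rw [hD]; positivity
  have hz := zr_zero_pos μ J χ y
  -- for small t
  have key : ∀ t : ℝ, 0 < t → t * M ≤ 1 → 2 * S * (t * M) ≤ 1 →
      s2 μ J χ y ≤ zr μ J χ y 0 * (Qform μ J χ y + 2 * D * M ^ 4 * t ^ 2) := by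
    intro t ht h1 h2
    have hr := rho_second μ J χ hJ hS (t • y) (Y := t * M) h1 (by linarith) (fun e => by
      rw [Pi.smul_apply, smul_eq_mul, abs_mul, abs_of_pos ht]
      exact mul_le_mul_of_nonneg_left (hM e) ht.le) (by positivity)
    rw [rho_eq_zr, H950.Qform_smul, ← hD] at hr
    rw [div_le_iff₀ hz] at hr
    have hl := zr_lower μ J χ hJ y t
    have h3 : t ^ 2 / 2 * s2 μ J χ y ≤
        t ^ 2 / 2 * (zr μ J χ y 0 * (Qform μ J χ y + 2 * D * M ^ 4 * t ^ 2)) := by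
      nlinarith only [hr, hl]
    exact le_of_mul_le_mul_left h3 (by positivity)
  have htend : Tendsto (fun n : ℕ => (2 : ℝ)⁻¹ ^ n) atTop (𝓝 0) :=
    tendsto_pow_atTop_nhds_zero_of_lt_one (by norm_num) (by norm_num)
  have hlim : Tendsto (fun n : ℕ => zr μ J χ y 0 * (Qform μ J χ y +
      2 * D * M ^ 4 * ((2 : ℝ)⁻¹ ^ n) ^ 2)) atTop
      (𝓝 (zr μ J χ y 0 * (Qform μ J χ y + 2 * D * M ^ 4 * 0 ^ 2))) :=
    tendsto_const_nhds.mul (tendsto_const_nhds.add (tendsto_const_nhds.mul (htend.pow 2)))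
  have c1 := (htend.mul_const M).eventually (ge_mem_nhds (by norm_num : (0:ℝ) * M < 1))
  have c2 := ((htend.mul_const M).const_mul (2 * S)).eventually
    (ge_mem_nhds (by norm_num : 2 * S * ((0:ℝ) * M) < 1))
  have := ge_of_tendsto hlim (by
    filter_upwards [c1, c2] with n h1 h2
    exact key _ (by positivity) h1 h2)
  simpa using this

/-- SHARP BLOCK BOUND -/
theorem rho_sharp (hJ : ∀ e, 0 ≤ J e) (y : κ → ℝ) {t : ℝ} (h0 : 0 ≤ t) (ht : t ≤ 1) :
    rho μ J χ (t • y) ≤ 1 + t ^ 2 * Qform μ J χ y / 2 + t ^ 4 * rho μ J χ y := by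
  have hz := zr_zero_pos μ J χ y
  have h1 := zr_upper μ J χ hJ y h0 ht
  have h2 := s2_le μ J χ hJ y
  have hs0 : 0 ≤ s2 μ J χ y := tsum_nonneg fun n => div_nonneg (sn_nonneg μ J χ hJ y n)
    (Nat.cast_nonneg _)
  have e1 : rho μ J χ y = zr μ J χ y 1 / zr μ J χ y 0 := by
    have := rho_eq_zr μ J χ y 1
    rwa [one_smul] at this
  rw [rho_eq_zr, e1, div_le_iff₀ hz]
  have e2 : (1 + t ^ 2 * Qform μ J χ y / 2 + t ^ 4 * (zr μ J χ y 1 / zr μ J χ y 0)) *
      zr μ J χ y 0 = zr μ J χ y 0 + t ^ 2 / 2 * (zr μ J χ y 0 * Qform μ J χ y) +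
        t ^ 4 * zr μ J χ y 1 := by
    field_simp
  rw [e2]
  have ht4 : 0 ≤ t ^ 4 := by positivity
  have ht2 : 0 ≤ t ^ 2 / 2 := by positivity
  have h3 := mul_le_mul_of_nonneg_left h2 ht2
  have h4 : t ^ 4 * (zr μ J χ y 1 - zr μ J χ y 0 - s2 μ J χ y / 2) ≤ t ^ 4 * zr μ J χ y 1 :=
    mul_le_mul_of_nonneg_left (by linarith) ht4
  linarith

end

end Vale.Agent.P159.H191
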