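import Vale.Agent.P159.H950.B2
import Vale.Agent.P159.H191.Pos
import Vale.Agent.P159.Bdl.B8

/-!
P159, module S_up, part B: the complex translation with an observable and a general partition of
the half-bonds into tiles.
-/

set_option linter.all false
set_option autoImplicit false

open MeasureTheory Filter Topology
open scoped BigOperators

namespace Vale.Agent.P159.H191

open Vale.Agent.P159 Vale.Agent.P159.UJ Vale.Agent.P159.H950

section General

variable {G : Type*} [AddCommGroup G] [TopologicalSpace G] [IsTopologicalAddGroup G]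
  [CompactSpace G] [SecondCountableTopology G] [MeasurableSpace G] [BorelSpace G]
  (μ : Measure G) [μ.IsAddHaarMeasure] [IsProbabilityMeasure μ]
  {κ : Type*} [Fintype κ] (J : κ → ℝ) (χ : κ → Chr G)

/-- complex translation and wiring bound, with an observable -/
theorem ms_tile (h2 : ∀ g : G, ∃ h : G, h + h = g) (hJ : ∀ e, 0 ≤ J e)
    {ι : Type*} [DecidableEq ι] (S : Finset ι) (τ : κ → ι)
    (hτ : ∀ e, τ e ∈ S) (P : ι → G →+ G) (hP : ∀ k, Continuous (P k))
    (hχ : ∀ k e, τ e ≠ k → ∀ x, (χ e).c (P k x) = 1 ∧ (χ e).s (P k x) = 0)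
    (A : Chr G) (hA : ∀ k ∈ S, ∀ x, A.c (P k x) = 1 ∧ A.s (P k x) = 0)
    (y : κ → ℝ) (yA : ℝ) (g : ℝ → G)
    (hg : ∀ e s, (χ e).c (g s) = Real.cos (s * y e) ∧ (χ e).s (g s) = Real.sin (s * y e))
    (hgA : ∀ s, A.c (g s) = Real.cos (s * yA) ∧ A.s (g s) = Real.sin (s * yA)) :
    |∫ x, A.c x * Real.exp (∑ e, J e * (χ e).c x) ∂μ| ≤
      Real.exp (-yA) * (∏ k ∈ S, rho μ (fun e : {e // τ e = k} => J e)
        (fun e : {e // τ e = k} => (χ e).comp (P k) (hP k)) (fun e => y e)) *
        ∫ x, Real.exp (∑ e, J e * (χ e).c x) ∂μ := by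
  classical
  have hWc : ∀ k, Continuous (WW (fun e : {e // τ e = k} => J e)
      (fun e : {e // τ e = k} => χ e) (fun e => y e)) := by
    intro k
    exact Complex.continuous_exp.comp (continuous_finsetSum _ fun e _ =>
      continuous_const.mul ((χ e).cont_C _))
  have hwc : ∀ k, Continuous (fun x => Real.exp (∑ e : {e // τ e = k}, J e * (χ e).c x)) := by
    intro k
    exact Real.continuous_exp.comp (continuous_finsetSum _ fun e _ =>
      continuous_const.mul (χ e).cont_c)
  have hshift := cshift μ J χ A y yA g hg hgA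
  have hit := block_iter μ (fun k => (P k : G → G)) hP
    (fun k => WW (fun e : {e // τ e = k} => J e) (fun e : {e // τ e = k} => χ e) (fun e => y e))
    (fun k x => Real.exp (∑ e : {e // τ e = k}, J e * (χ e).c x)) hWc hwc
    (fun k x => (Real.exp_pos _).le)
    (fun k => rho μ (fun e : {e // τ e = k} => J e)
      (fun e : {e // τ e = k} => (χ e).comp (P k) (hP k)) (fun e => y e))
    (fun k => div_nonneg (norm_nonneg _) (norm_nonneg _))
    (by
      intro j k hjk x z
      unfold WW Chr.C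
      congr 1
      refine Finset.sum_congr rfl fun e _ => ?_
      obtain ⟨h3, h4⟩ := hχ j e (by rw [e.2]; exact hjk.symm) z
      rw [(χ e).c_add, (χ e).s_add, h3, h4]
      simp)
    (by
      intro j k hjk x z
      congr 1
      refine Finset.sum_congr rfl fun e _ => ?_
      obtain ⟨h3, h4⟩ := hχ j e (by rw [e.2]; exact hjk.symm) z
      rw [(χ e).c_add, h3, h4]
      simp)
    (fun j k x y z => by abel)
    (fun k x => avg_bound μ h2 (fun e : {e // τ e = k} => J e) (fun e => hJ e)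
      (fun e : {e // τ e = k} => χ e) (P k) (hP k) (fun e => y e) x)
    S A.e A.cont_e
    (by
      intro k hk x z
      obtain ⟨h3, h4⟩ := hA k hk z
      unfold Chr.e
      rw [A.c_add, A.s_add, h3, h4]
      simp)
  have hfib : ∀ F : κ → ℂ, ∑ k ∈ S, ∑ e : {e // τ e = k}, F e = ∑ e, F e := by
    intro F
    rw [← Finset.sum_fiberwise_of_maps_to (s := Finset.univ) (t := S) (g := τ)
      (fun e _ => hτ e) F]
    refine Finset.sum_congr rfl fun k _ => ?_
    rw [Finset.sum_subtype (p := fun e => τ e = k) (Finset.univ.filter fun e => τ e = k)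
      (by simp) F]
  have hfibr : ∀ F : κ → ℝ, ∑ k ∈ S, ∑ e : {e // τ e = k}, F e = ∑ e, F e := by
    intro F
    rw [← Finset.sum_fiberwise_of_maps_to (s := Finset.univ) (t := S) (g := τ)
      (fun e _ => hτ e) F]
    refine Finset.sum_congr rfl fun k _ => ?_
    rw [Finset.sum_subtype (p := fun e => τ e = k) (Finset.univ.filter fun e => τ e = k)
      (by simp) F]
  have e1 : ∀ x, A.e x * ∏ k ∈ S, WW (fun e : {e // τ e = k} => J e)
      (fun e : {e // τ e = k} => χ e) (fun e => y e) x =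
      A.e x * Complex.exp (∑ e, J e * (χ e).C (y e * Complex.I) x) := by
    intro x
    unfold WW
    rw [← Complex.exp_sum]
    congr 2
    exact hfib fun e => J e * (χ e).C (y e * Complex.I) x
  have e2 : ∀ x, ‖A.e x‖ * ∏ k ∈ S, Real.exp (∑ e : {e // τ e = k}, J e * (χ e).c x) =
      Real.exp (∑ e, J e * (χ e).c x) := by
    intro x
    rw [A.norm_e, one_mul, ← Real.exp_sum]
    congr 1
    exact hfibr fun e => J e * (χ e).c x
  simp only [e1, e2] at hit
  have e3 : ∫ x, A.c x * Real.exp (∑ e, J e * (χ e).c x) ∂μ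
      = (∫ x, A.e x * Complex.exp (∑ e, J e * (χ e).C 0 x) ∂μ).re := by
    have h3 : Integrable (fun x => A.e x * Complex.exp (∑ e, J e * (χ e).C 0 x)) μ := by
      apply cint
      exact A.cont_e.mul (Complex.continuous_exp.comp (continuous_finsetSum _ fun e _ =>
        continuous_const.mul ((χ e).cont_C _)))
    have h4 := integral_re h3
    have h5 : ∀ x, RCLike.re (A.e x * Complex.exp (∑ e, J e * (χ e).C 0 x))
        = A.c x * Real.exp (∑ e, J e * (χ e).c x) := by
      intro x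
      have h6 : Complex.exp (∑ e, J e * (χ e).C 0 x)
          = ((Real.exp (∑ e, J e * (χ e).c x) : ℝ) : ℂ) := by
        rw [Complex.ofReal_exp]
        congr 1
        push_cast
        refine Finset.sum_congr rfl fun e _ => ?_
        rw [(χ e).C_zero]
      rw [h6]
      show (A.e x * ((Real.exp (∑ e, J e * (χ e).c x) : ℝ) : ℂ)).re = _
      rw [Complex.re_mul_ofReal]
      congr 1
      simp [Chr.e]
    simp_rw [h5] at h4
    exact h4
  rw [e3, hshift]
  refine (Complex.abs_re_le_norm _).trans ?_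
  rw [norm_mul, Complex.norm_real, Real.norm_of_nonneg (Real.exp_pos _).le, mul_assoc]
  exact mul_le_mul_of_nonneg_left hit (Real.exp_pos _).le

end General

/-! ### regions -/

/-- ratio of a region at a general twist of the half-bonds -/
noncomputable def rG (b : ℝ) (R : Finset (ℤ × ℤ)) (y : ℤ × ℤ → HT → ℝ) : ℝ :=
  rho muInf (fun _ : KR R => b / 2) (chiR R) (fun e => y e.1 e.2)

/-- quadratic form of a region at a general twist of the half-bonds -/
noncomputable def qG (b : ℝ) (R : Finset (ℤ × ℤ)) (y : ℤ × ℤ → HT → ℝ) : ℝ :=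
  Qform muInf (fun _ : KR R => b / 2) (chiR R) (fun e => y e.1 e.2)

/-- gradient of a function on the half-bonds -/
def dphi (φ : ℤ × ℤ → ℝ) (c : ℤ × ℤ) (t : HT) : ℝ := φ (hu c t) - φ (hv c t)

/-- free energy function of a region of cells -/
noncomputable def ER (b : ℝ) (R : Finset (ℤ × ℤ)) (θ : Ginf) : ℝ :=
  ∑ e : KR R, b / 2 * (grad (hu e.1 e.2) (hv e.1 e.2)).c θ

theorem grad_path (φ : ℤ × ℤ → ℝ) (u v : ℤ × ℤ) (s : ℝ) :
    (grad u v).c (fun w => ((s * φ w : ℝ) : T)) = Real.cos (s * (φ u - φ v)) ∧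
      (grad u v).s (fun w => ((s * φ w : ℝ) : T)) = Real.sin (s * (φ u - φ v)) := by
  unfold grad
  simp only
  rw [← AddCircle.coe_sub, cosT_coe, sinT_coe, mul_sub]
  exact ⟨rfl, rfl⟩

theorem rho_fibG (b : ℝ) {ι : Type*} [DecidableEq ι] (R : Finset (ℤ × ℤ)) (τ : ℤ × ℤ → ι) (k : ι)
    (y : ℤ × ℤ → HT → ℝ) :
    rho muInf (fun e : {e : KR R // τ e.1 = k} => b / 2)
      (fun e : {e : KR R // τ e.1 = k} => (grad (hu e.1.1 e.1.2) (hv e.1.1 e.1.2)).comp
        (proj (intR (R.filter fun c => τ c = k))) (proj_cont _)) (fun e => y e.1.1 e.1.2) =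
    rG b (R.filter fun c => τ c = k) y := by
  have h := rho_tr muInf (J := fun e : {e : KR R // τ e.1 = k} => b / 2)
    (χ := fun e : {e : KR R // τ e.1 = k} => (grad (hu e.1.1 e.1.2) (hv e.1.1 e.1.2)).comp
        (proj (intR (R.filter fun c => τ c = k))) (proj_cont _))
    (J' := fun _ : KR (R.filter fun c => τ c = k) => b / 2)
    (χ' := chiR (R.filter fun c => τ c = k))
    (fibE R τ k) (fun x => x) (fun F _ => rfl) (fun _ => 1)
    (fun _ => Or.inl rfl) (fun e => rfl) (fun e x => rfl)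
    (fun e x => by rw [one_mul]; rfl)
    (y := fun e => y e.1.1 e.1.2) (y' := fun e => y e.1 e.2)
    (fun e => by rw [one_mul]; rfl)
  exact h

/-- the main bound -/
theorem ms_region {b : ℝ} (hb : 0 ≤ b) {ι : Type*} [DecidableEq ι] (R : Finset (ℤ × ℤ))
    (S : Finset ι) (τ : ℤ × ℤ → ι) (hτ : ∀ c ∈ R, τ c ∈ S) (φ : ℤ × ℤ → ℝ) (x : ℤ × ℤ)
    (h0 : ∀ k, (0 : ℤ × ℤ) ∉ intR (R.filter fun c => τ c = k))
    (hx : ∀ k, x ∉ intR (R.filter fun c => τ c = k)) :
    |∫ θ, (grad 0 x).c θ * Real.exp (ER b R θ) ∂muInf| ≤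
      Real.exp (-(φ 0 - φ x)) * (∏ k ∈ S, rG b (R.filter fun c => τ c = k) (dphi φ)) *
        ∫ θ, Real.exp (ER b R θ) ∂muInf := by
  have h := ms_tile muInf (fun _ : KR R => b / 2)
    (fun e : KR R => grad (hu e.1 e.2) (hv e.1 e.2)) G_div2 (half_nonneg' hb R) S
    (fun e : KR R => τ e.1) (fun e => hτ e.1 e.1.2)
    (fun k => proj (intR (R.filter fun c => τ c = k))) (fun k => proj_cont _)
    (fun k e he θ => by
      have hu' : hu e.1 e.2 ∉ intR (R.filter fun c => τ c = k) :=
        fun h => he (Finset.mem_filter.1 (mem_intR_hu h)).2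
      have hv' : hv e.1 e.2 ∉ intR (R.filter fun c => τ c = k) :=
        fun h => he (Finset.mem_filter.1 (mem_intR_hv h)).2
      unfold grad
      simp only
      rw [proj_of_notMem hu', proj_of_notMem hv', sub_zero, cosT_zero, sinT_zero]
      exact ⟨rfl, rfl⟩)
    (grad 0 x)
    (fun k _ θ => by
      unfold grad
      simp only
      rw [proj_of_notMem (h0 k), proj_of_notMem (hx k), sub_zero, cosT_zero, sinT_zero]
      exact ⟨rfl, rfl⟩)
    (fun e => dphi φ e.1 e.2) (φ 0 - φ x) (fun s w => ((s * φ w : ℝ) : T))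
    (fun e s => grad_path φ _ _ s) (fun s => grad_path φ _ _ s)
  have h2 : ∀ k ∈ S, rho muInf (fun e : {e : KR R // τ e.1 = k} => b / 2)
      (fun e : {e : KR R // τ e.1 = k} => (grad (hu e.1.1 e.1.2) (hv e.1.1 e.1.2)).comp
        (proj (intR (R.filter fun c => τ c = k))) (proj_cont _)) (fun e => dphi φ e.1.1 e.1.2) =
      rG b (R.filter fun c => τ c = k) (dphi φ) := fun k _ => rho_fibG b R τ k _
  rw [← Finset.prod_congr rfl h2]
  exact h

/-- unit cells -/
theorem gridE_one (N : ℕ) (b : ℝ) (θ : Ginf) : gridE 1 N b θ = ER b (ivl N ×ˢ ivl N) θ := by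
  unfold gridE ER
  have h := sum_KR (ivl N ×ˢ ivl N) (fun c t => b / 2 * (grad (hu c t) (hv c t)).c θ)
  rw [h]
  refine Finset.sum_congr rfl fun c _ => ?_
  rw [Fintype.sum_prod_type, Fintype.sum_prod_type]
  simp only [Finset.univ_unique, Finset.sum_singleton, Fintype.sum_prod_type, Fintype.sum_bool]
  have hc : ∀ t : HT, (chiAt 1 c ((default, default), t)).c θ = (grad (hu c t) (hv c t)).c θ := by
    intro t
    have e1 : cor 1 c + bu (((default : Fin 1), (default : Fin 1)), t) = hu c t := by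
      unfold cor bu hu
      ext <;> simp
    have e2 : cor 1 c + bv (((default : Fin 1), (default : Fin 1)), t) = hv c t := by
      unfold bv hv
      rw [← add_assoc, e1]
    unfold chiAt
    rw [e1, e2]
  simp only [hc]
  ring

/-- bound of the correlation -/
theorem corr_le_region {b : ℝ} (hb : 0 ≤ b) {ι : Type*} [DecidableEq ι] (N : ℕ)
    (S : Finset ι) (τ : ℤ × ℤ → ι) (hτ : ∀ c ∈ ivl N ×ˢ ivl N, τ c ∈ S) (φ : ℤ × ℤ → ℝ)
    (x : ℤ × ℤ)
    (h0 : ∀ k, (0 : ℤ × ℤ) ∉ intR ((ivl N ×ˢ ivl N).filter fun c => τ c = k))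
    (hx : ∀ k, x ∉ intR ((ivl N ×ˢ ivl N).filter fun c => τ c = k))
    {R : ℕ} (hR : R + 1 ≤ N) (hxR : x ∈ box R) :
    corr R b x ≤ Real.exp (-(φ 0 - φ x)) *
      (∏ k ∈ S, rG b ((ivl N ×ˢ ivl N).filter fun c => τ c = k) (dphi φ)) := by
  refine corr_le_grid (le_refl 1) hR hb hxR ?_
  simp_rw [gridE_one]
  exact ms_region hb _ S τ hτ φ x h0 hx

end Vale.Agent.P159.H191
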