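import Vale.Agent.P159.H191.Tile

/-!
P159, module S_up, part D1: the logarithmic profile, dyadic levels of cells, and the dyadic tiles.
-/

set_option linter.all false
set_option autoImplicit false

open MeasureTheory Filter Topology
open scoped BigOperators

namespace Vale.Agent.P159.H191

open Vale.Agent.P159 Vale.Agent.P159.UJ Vale.Agent.P159.H950

/-! ### the profile -/

/-- half the logarithm of `1 + a² + b²` -/
noncomputable def FF (a b : ℝ) : ℝ := Real.log (1 + a ^ 2 + b ^ 2) / 2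

theorem FF_comm (a b : ℝ) : FF a b = FF b a := by
  unfold FF
  congr 2
  ring

theorem FF_deriv (a b : ℝ) : HasDerivAt (fun s => FF s b) (a / (1 + a ^ 2 + b ^ 2)) a := by
  unfold FF
  have h0 : (1 + a ^ 2 + b ^ 2 : ℝ) ≠ 0 := by positivity
  have h1 : HasDerivAt (fun s : ℝ => 1 + s ^ 2 + b ^ 2) (2 * a) a := by
    have := (((hasDerivAt_id a).pow 2).const_add 1).add_const (b ^ 2)
    simpa using this
  have h2 := (h1.log h0).div_const 2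
  have h3 : 2 * a / (1 + a ^ 2 + b ^ 2) / 2 = a / (1 + a ^ 2 + b ^ 2) := by ring
  rw [h3] at h2
  exact h2

theorem FF_mvt (a b : ℝ) : ∃ s, a ≤ s ∧ s ≤ a + 1 ∧
    FF (a + 1) b - FF a b = s / (1 + s ^ 2 + b ^ 2) := by
  obtain ⟨s, hs, h⟩ := exists_hasDerivAt_eq_slope (fun s => FF s b)
    (fun s => s / (1 + s ^ 2 + b ^ 2)) (by linarith : a < a + 1)
    (fun s _ => (FF_deriv s b).continuousAt.continuousWithinAt)
    (fun s _ => FF_deriv s b)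
  refine ⟨s, hs.1.le, hs.2.le, ?_⟩
  rw [h, add_sub_cancel_left, div_one]

theorem slope_abs {s b r : ℝ} (hr : 0 < r) (h : r ^ 2 ≤ 1 + s ^ 2 + b ^ 2) :
    |s / (1 + s ^ 2 + b ^ 2)| ≤ 1 / r := by
  have hP : 0 < 1 + s ^ 2 + b ^ 2 := by positivity
  rw [abs_div, abs_of_pos hP, div_le_div_iff₀ hP hr, one_mul]
  have h1 : (|s| * r) ^ 2 ≤ (1 + s ^ 2 + b ^ 2) ^ 2 := by
    rw [mul_pow, sq_abs]
    nlinarith only [h, sq_nonneg s, sq_nonneg b, mul_le_mul_of_nonneg_left h (sq_nonneg s), hP]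
  exact (abs_le_of_sq_le_sq' h1 hP.le).2

theorem slope_diff {s b a0 b0 ε D : ℝ} (hD : 0 < D) (hε : 0 ≤ ε) (h1 : D ≤ 1 + s ^ 2 + b ^ 2)
    (h2 : D ≤ 1 + a0 ^ 2 + b0 ^ 2) (h3 : |s - a0| ≤ ε) (h4 : |b - b0| ≤ ε) :
    |s / (1 + s ^ 2 + b ^ 2) - a0 / (1 + a0 ^ 2 + b0 ^ 2)| ≤ 5 * ε / D := by
  set P := 1 + s ^ 2 + b ^ 2 with hP
  set Q := 1 + a0 ^ 2 + b0 ^ 2 with hQ
  have hP0 : 0 < P := by positivity
  have hQ0 : 0 < Q := by positivity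
  have hPQ : 0 < P * Q := by positivity
  -- the four products
  have k1 : |a0| * |s| * D ≤ P * Q := by
    have e : (|a0| * |s| * D) ^ 2 ≤ (P * Q) ^ 2 := by
      have e1 : a0 ^ 2 ≤ Q := by rw [hQ]; nlinarith only [sq_nonneg b0]
      have e2 : s ^ 2 ≤ P := by rw [hP]; nlinarith only [sq_nonneg b]
      have e3 : D ^ 2 ≤ P * Q := by nlinarith only [h1, h2, hD]
      calc (|a0| * |s| * D) ^ 2 = a0 ^ 2 * s ^ 2 * D ^ 2 := by
            rw [mul_pow, mul_pow, sq_abs, sq_abs]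
        _ ≤ (Q * P) * (P * Q) := by
            refine mul_le_mul (mul_le_mul e1 e2 (sq_nonneg _) hQ0.le) e3 (sq_nonneg _)
              (by positivity)
        _ = (P * Q) ^ 2 := by ring
    exact (abs_le_of_sq_le_sq' e hPQ.le).2
  have k2 : |a0| * |b| * D ≤ P * Q := by
    have e : (|a0| * |b| * D) ^ 2 ≤ (P * Q) ^ 2 := by
      have e1 : a0 ^ 2 ≤ Q := by rw [hQ]; nlinarith only [sq_nonneg b0]
      have e2 : b ^ 2 ≤ P := by rw [hP]; nlinarith only [sq_nonneg s]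
      have e3 : D ^ 2 ≤ P * Q := by nlinarith only [h1, h2, hD]
      calc (|a0| * |b| * D) ^ 2 = a0 ^ 2 * b ^ 2 * D ^ 2 := by
            rw [mul_pow, mul_pow, sq_abs, sq_abs]
        _ ≤ (Q * P) * (P * Q) := by
            refine mul_le_mul (mul_le_mul e1 e2 (sq_nonneg _) hQ0.le) e3 (sq_nonneg _)
              (by positivity)
        _ = (P * Q) ^ 2 := by ring
    exact (abs_le_of_sq_le_sq' e hPQ.le).2
  have k3 : |a0| * |a0| + |a0| * |b0| ≤ 2 * Q := by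
    have e1 : |a0| * |a0| = a0 ^ 2 := by rw [← pow_two, sq_abs]
    have e2 : |b0| * |b0| = b0 ^ 2 := by rw [← pow_two, sq_abs]
    have e3 : |a0| * |b0| ≤ (a0 ^ 2 + b0 ^ 2) / 2 := by
      nlinarith only [sq_nonneg (|a0| - |b0|), e1, e2]
    rw [hQ]
    nlinarith only [e1, e3, sq_nonneg a0, sq_nonneg b0]
  have k4 : (|a0| * |a0| + |a0| * |b0|) * D ≤ 2 * (P * Q) := by
    have : 0 ≤ |a0| * |a0| + |a0| * |b0| := by positivity
    calc (|a0| * |a0| + |a0| * |b0|) * D ≤ (2 * Q) * P :=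
          mul_le_mul k3 h1 hD.le (by positivity)
      _ = _ := by ring
  -- the identity
  have e1 : s / P - a0 / Q = ((s - a0) * Q + a0 * ((a0 - s) * (a0 + s) + (b0 - b) * (b0 + b))) /
      (P * Q) := by
    rw [div_sub_div _ _ hP0.ne' hQ0.ne']
    congr 1
    rw [hP, hQ]
    ring
  rw [e1, abs_div, abs_of_pos hPQ, div_le_div_iff₀ hPQ hD]
  have e2 : |(s - a0) * Q + a0 * ((a0 - s) * (a0 + s) + (b0 - b) * (b0 + b))| ≤
      ε * Q + ε * (|a0| * |a0| + |a0| * |s| + (|a0| * |b0| + |a0| * |b|)) := by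
    refine (abs_add_le _ _).trans (add_le_add ?_ ?_)
    · rw [abs_mul, abs_of_pos hQ0]
      exact mul_le_mul_of_nonneg_right h3 hQ0.le
    · rw [abs_mul]
      have e3 : |(a0 - s) * (a0 + s) + (b0 - b) * (b0 + b)| ≤
          ε * (|a0| + |s|) + ε * (|b0| + |b|) := by
        refine (abs_add_le _ _).trans (add_le_add ?_ ?_)
        · rw [abs_mul, abs_sub_comm]
          exact mul_le_mul h3 (abs_add_le _ _) (abs_nonneg _) hε
        · rw [abs_mul, abs_sub_comm b0 b]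
          exact mul_le_mul h4 (abs_add_le _ _) (abs_nonneg _) hε
      calc |a0| * |(a0 - s) * (a0 + s) + (b0 - b) * (b0 + b)|
          ≤ |a0| * (ε * (|a0| + |s|) + ε * (|b0| + |b|)) :=
            mul_le_mul_of_nonneg_left e3 (abs_nonneg _)
        _ = _ := by ring
  have k5 : Q * D ≤ P * Q := by nlinarith only [h1, hQ0]
  calc _ ≤ (ε * Q + ε * (|a0| * |a0| + |a0| * |s| + (|a0| * |b0| + |a0| * |b|))) * D :=
        mul_le_mul_of_nonneg_right e2 hD.le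
    _ = ε * (Q * D + ((|a0| * |a0| + |a0| * |b0|) * D) + |a0| * |s| * D + |a0| * |b| * D) := by
        ring
    _ ≤ ε * (P * Q + 2 * (P * Q) + P * Q + P * Q) := by
        refine mul_le_mul_of_nonneg_left ?_ hε
        linarith
    _ = 5 * ε * (P * Q) := by ring

/-- the profile on the lattice -/
noncomputable def Fz (v : ℤ × ℤ) : ℝ := FF v.1 v.2

/-- truncated profile -/
noncomputable def Ph (n : ℕ) (v : ℤ × ℤ) : ℝ := max 0 (n * Real.log 2 - Fz v)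

theorem Fz_bond (c : ℤ × ℤ) (t : HT) : ∃ p q : ℝ, (c.1 : ℝ) ≤ p ∧ p ≤ c.1 + 1 ∧ (c.2 : ℝ) ≤ q ∧
    q ≤ c.2 + 1 ∧ Fz (hv c t) - Fz (hu c t) = (if t.1 then q else p) / (1 + p ^ 2 + q ^ 2) := by
  rcases t with ⟨_ | _, _ | _⟩
  · obtain ⟨s, h1, h2, h3⟩ := FF_mvt c.1 c.2
    refine ⟨s, c.2, h1, h2, le_refl _, by linarith, ?_⟩
    simp only [Fz, hu, hv, Prod.fst_add, Prod.snd_add, Bool.false_eq_true, if_false,
      Bool.false_and, Bool.not_false, Bool.and_false, add_zero]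
    rw [← h3]
    push_cast
    ring_nf
  · obtain ⟨s, h1, h2, h3⟩ := FF_mvt c.1 (c.2 + 1)
    refine ⟨s, c.2 + 1, h1, h2, by linarith, le_refl _, ?_⟩
    simp only [Fz, hu, hv, Prod.fst_add, Prod.snd_add, Bool.false_eq_true, if_false,
      Bool.false_and, Bool.not_false, Bool.and_true, add_zero, if_true]
    rw [← h3]
    push_cast
    ring_nf
  · obtain ⟨s, h1, h2, h3⟩ := FF_mvt c.2 c.1
    refine ⟨c.1, s, le_refl _, by linarith, h1, h2, ?_⟩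
    simp only [Fz, hu, hv, Prod.fst_add, Prod.snd_add, Bool.false_eq_true, if_false,
      Bool.not_true, Bool.and_false, add_zero, if_true, Bool.and_self]
    rw [FF_comm, FF_comm (c.1 : ℝ) (c.2 : ℝ), show (1 + (c.1 : ℝ) ^ 2 + s ^ 2) =
      1 + s ^ 2 + (c.1 : ℝ) ^ 2 by ring, ← h3]
    push_cast
    ring_nf
  · obtain ⟨s, h1, h2, h3⟩ := FF_mvt c.2 (c.1 + 1)
    refine ⟨c.1 + 1, s, by linarith, le_refl _, h1, h2, ?_⟩
    simp only [Fz, hu, hv, Prod.fst_add, Prod.snd_add, if_true, Bool.and_self,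
      Bool.not_true, Bool.false_and, Bool.false_eq_true, if_false, add_zero]
    rw [FF_comm, FF_comm ((c.1 + 1 : ℤ) : ℝ), show (1 + ((c.1 : ℝ) + 1) ^ 2 + s ^ 2) =
      1 + s ^ 2 + ((c.1 : ℝ) + 1) ^ 2 by ring, ← h3]
    push_cast
    ring_nf

theorem hu_range (c : ℤ × ℤ) (t : HT) : c.1 ≤ (hu c t).1 ∧ (hu c t).1 ≤ c.1 + 1 ∧
    c.2 ≤ (hu c t).2 ∧ (hu c t).2 ≤ c.2 + 1 := by
  rcases t with ⟨_ | _, _ | _⟩ <;> simp [hu]

theorem hv_range (c : ℤ × ℤ) (t : HT) : c.1 ≤ (hv c t).1 ∧ (hv c t).1 ≤ c.1 + 1 ∧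
    c.2 ≤ (hv c t).2 ∧ (hv c t).2 ≤ c.2 + 1 := by
  rcases t with ⟨_ | _, _ | _⟩ <;> simp [hu, hv]

/-! ### levels -/

/-- sup norm of a cell -/
def qc (c : ℤ × ℤ) : ℕ := max (max c.1 (-1 - c.1)).toNat (max c.2 (-1 - c.2)).toNat

theorem qc_lt {c : ℤ × ℤ} {r : ℕ} : qc c < r ↔
    (-(r : ℤ) ≤ c.1 ∧ c.1 < r ∧ -(r : ℤ) ≤ c.2 ∧ c.2 < r) := by
  unfold qc
  omega

/-- level of a cell -/
def lv (c : ℤ × ℤ) : ℕ := Nat.log 2 (qc c)

theorem lv_lt {c : ℤ × ℤ} {j : ℕ} : lv c < j + 1 ↔ qc c < 2 ^ (j + 1) := by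
  unfold lv
  rcases Nat.eq_zero_or_pos (qc c) with h | h
  · rw [h, Nat.log_zero_right]
    simp
  · exact Nat.log_lt_iff_lt_pow (by norm_num) h.ne'

theorem two_pow_cast (j : ℕ) : ((2 ^ j : ℕ) : ℤ) = 2 ^ j := by push_cast; rfl

/-- far from the origin -/
theorem far {c : ℤ × ℤ} {j : ℕ} (h : ¬ qc c < 2 ^ j) {p q : ℝ} (h1 : (c.1 : ℝ) ≤ p)
    (h2 : p ≤ c.1 + 1) (h3 : (c.2 : ℝ) ≤ q) (h4 : q ≤ c.2 + 1) :
    ((2 : ℝ) ^ j) ^ 2 ≤ 1 + p ^ 2 + q ^ 2 := by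
  rw [qc_lt] at h
  have h5 : (c.1 ≤ -1 - 2 ^ j ∨ (2 : ℤ) ^ j ≤ c.1) ∨ (c.2 ≤ -1 - 2 ^ j ∨ (2 : ℤ) ^ j ≤ c.2) := by
    rw [two_pow_cast] at h
    generalize (2 : ℤ) ^ j = r at h ⊢
    omega
  have hr : (0 : ℝ) < 2 ^ j := by positivity
  rcases h5 with (h5 | h5) | (h5 | h5)
  · have h6 : (c.1 : ℝ) ≤ -1 - 2 ^ j := by exact_mod_cast h5
    nlinarith only [h2, h6, hr, sq_nonneg q]
  · have h6 : (2 : ℝ) ^ j ≤ c.1 := by exact_mod_cast h5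
    nlinarith only [h1, h6, hr, sq_nonneg q]
  · have h6 : (c.2 : ℝ) ≤ -1 - 2 ^ j := by exact_mod_cast h5
    nlinarith only [h4, h6, hr, sq_nonneg p]
  · have h6 : (2 : ℝ) ^ j ≤ c.2 := by exact_mod_cast h5
    nlinarith only [h3, h6, hr, sq_nonneg p]

theorem far_lv (c : ℤ × ℤ) {p q : ℝ} (h1 : (c.1 : ℝ) ≤ p)
    (h2 : p ≤ c.1 + 1) (h3 : (c.2 : ℝ) ≤ q) (h4 : q ≤ c.2 + 1) :
    ((2 : ℝ) ^ (lv c)) ^ 2 ≤ 1 + p ^ 2 + q ^ 2 := by
  rcases Nat.eq_zero_or_pos (lv c) with h | h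
  · rw [h]
    nlinarith only [sq_nonneg p, sq_nonneg q]
  · refine far ?_ h1 h2 h3 h4
    obtain ⟨j, hj⟩ : ∃ j, lv c = j + 1 := ⟨lv c - 1, by omega⟩
    rw [hj, ← lv_lt]
    omega

theorem bond_abs (c : ℤ × ℤ) (t : HT) : |Fz (hv c t) - Fz (hu c t)| ≤ 1 / 2 ^ (lv c) := by
  obtain ⟨p, q, h1, h2, h3, h4, h5⟩ := Fz_bond c t
  have h6 := far_lv c h1 h2 h3 h4
  rw [h5]
  split_ifs
  · rw [show 1 + p ^ 2 + q ^ 2 = 1 + q ^ 2 + p ^ 2 by ring] at h6 ⊢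
    exact slope_abs (by positivity) h6
  · exact slope_abs (by positivity) h6

/-- gradient at the corner of a cell -/
noncomputable def g1 (c : ℤ × ℤ) : ℝ := c.1 / (1 + (c.1 : ℝ) ^ 2 + (c.2 : ℝ) ^ 2)

/-- gradient at the corner of a cell -/
noncomputable def g2 (c : ℤ × ℤ) : ℝ := c.2 / (1 + (c.1 : ℝ) ^ 2 + (c.2 : ℝ) ^ 2)

theorem g_sq (c : ℤ × ℤ) : g1 c ^ 2 + g2 c ^ 2 ≤ 1 / qq 1 c := by
  unfold g1 g2 qq
  have h : (0 : ℝ) < 1 + (c.1 : ℝ) ^ 2 + (c.2 : ℝ) ^ 2 := by positivity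
  rw [one_pow, div_pow, div_pow, ← add_div, div_le_div_iff₀ (by positivity) h]
  nlinarith only [h]

theorem bond_diff (c c0 : ℤ × ℤ) (t : HT) {r : ℝ} (h1 : (c.1 : ℝ) - c0.1 ≤ r - 1)
    (h2 : (c0.1 : ℝ) - c.1 ≤ r - 1) (h3 : (c.2 : ℝ) - c0.2 ≤ r - 1)
    (h4 : (c0.2 : ℝ) - c.2 ≤ r - 1) (h5 : lv c = lv c0) :
    |(Fz (hv c t) - Fz (hu c t)) - cst (g1 c0) (g2 c0) c t.1| ≤ 5 * r / 4 ^ (lv c) := by
  obtain ⟨p, q, k1, k2, k3, k4, k5⟩ := Fz_bond c t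
  have h6 := far_lv c k1 k2 k3 k4
  have h7 := far_lv c0 (le_refl (c0.1 : ℝ)) (by linarith) (le_refl (c0.2 : ℝ)) (by linarith)
  have e4 : ((2 : ℝ) ^ lv c) ^ 2 = 4 ^ lv c := by rw [← pow_mul, mul_comm, pow_mul]; norm_num
  rw [← h5, e4] at h7
  rw [e4] at h6
  have hD : (0 : ℝ) < 4 ^ lv c := by positivity
  have a1 : |p - c0.1| ≤ r := by rw [abs_le]; constructor <;> linarith
  have a2 : |q - c0.2| ≤ r := by rw [abs_le]; constructor <;> linarith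
  have hr : 0 ≤ r := (abs_nonneg _).trans a1
  rw [k5]
  unfold cst g1 g2
  split_ifs
  · rw [show 1 + p ^ 2 + q ^ 2 = 1 + q ^ 2 + p ^ 2 by ring] at h6 ⊢
    rw [show 1 + (c0.1 : ℝ) ^ 2 + (c0.2 : ℝ) ^ 2 = 1 + (c0.2 : ℝ) ^ 2 + (c0.1 : ℝ) ^ 2 by ring]
      at h7 ⊢
    exact slope_diff hD hr h6 h7 a2 a1
  · exact slope_diff hD hr h6 h7 a1 a2

/-! ### dyadic tiles -/

/-- index of the tile of a cell -/
def tid (kk : ℕ → ℕ) (c : ℤ × ℤ) : ℕ × ℤ × ℤ :=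
  (lv c, c.1 / 2 ^ (lv c - kk (lv c)), c.2 / 2 ^ (lv c - kk (lv c)))

theorem ediv_iff {a : ℤ} {m : ℕ} {b : ℤ} :
    a / 2 ^ m = b ↔ b * 2 ^ m ≤ a ∧ a < b * 2 ^ m + 2 ^ m := by
  have h : (0 : ℤ) < 2 ^ m := by positivity
  rw [Int.ediv_eq_iff_of_pos h]

/-- the floor determines the level -/
theorem qc_lt_floor {c c' : ℤ × ℤ} {m j : ℕ} (hm : m ≤ j) (h1 : c.1 / 2 ^ m = c'.1 / 2 ^ m)
    (h2 : c.2 / 2 ^ m = c'.2 / 2 ^ m) (h : qc c < 2 ^ j) : qc c' < 2 ^ j := by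
  rw [qc_lt, two_pow_cast] at h ⊢
  obtain ⟨d, rfl⟩ := Nat.exists_eq_add_of_le hm
  have hp : (0 : ℤ) < 2 ^ m := by positivity
  have key : ∀ a a' : ℤ, a / 2 ^ m = a' / 2 ^ m → -(2 : ℤ) ^ (m + d) ≤ a → a < 2 ^ (m + d) →
      -(2 : ℤ) ^ (m + d) ≤ a' ∧ a' < 2 ^ (m + d) := by
    intro a a' h h3 h4
    have e1 : -(2 : ℤ) ^ (m + d) = -2 ^ d * 2 ^ m := by rw [pow_add]; ring
    have e2 : (2 : ℤ) ^ (m + d) = 2 ^ d * 2 ^ m := by rw [pow_add]; ring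
    rw [e1] at h3 ⊢
    rw [e2] at h4 ⊢
    rw [← Int.le_ediv_iff_mul_le hp] at h3 ⊢
    rw [← Int.ediv_lt_iff_lt_mul hp] at h4 ⊢
    rw [← h]
    exact ⟨h3, h4⟩
  obtain ⟨a1, a2, a3, a4⟩ := h
  obtain ⟨b1, b2⟩ := key _ _ h1 a1 a2
  obtain ⟨b3, b4⟩ := key _ _ h2 a3 a4
  exact ⟨b1, b2, b3, b4⟩

theorem lv_floor {c c' : ℤ × ℤ} {m : ℕ} (hm : m ≤ lv c) (h1 : c.1 / 2 ^ m = c'.1 / 2 ^ m)
    (h2 : c.2 / 2 ^ m = c'.2 / 2 ^ m) : lv c' = lv c := by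
  have h3 : lv c' < lv c + 1 := by
    rw [lv_lt]
    exact qc_lt_floor (by omega) h1 h2 (lv_lt.1 (Nat.lt_succ_self _))
  by_contra hne
  have h4 : lv c' < lv c := by omega
  obtain ⟨j, hj⟩ : ∃ j, lv c = j + 1 := ⟨lv c - 1, by omega⟩
  rw [hj, lv_lt] at h4
  have h5 := qc_lt_floor (by omega) h1.symm h2.symm h4
  rw [← lv_lt] at h5
  omega

/-- corner of the tile of a cell -/
def tb (kk : ℕ → ℕ) (c : ℤ × ℤ) : ℤ × ℤ :=
  (c.1 / 2 ^ (lv c - kk (lv c)) * 2 ^ (lv c - kk (lv c)),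
    c.2 / 2 ^ (lv c - kk (lv c)) * 2 ^ (lv c - kk (lv c)))

theorem tid_iff (kk : ℕ → ℕ) (c c' : ℤ × ℤ) :
    tid kk c' = tid kk c ↔ c' ∈ blk (tb kk c) (2 ^ (lv c - kk (lv c))) := by
  rw [mem_blk, two_pow_cast]
  unfold tid tb
  simp only [Prod.mk.injEq]
  constructor
  · rintro ⟨h1, h2, h3⟩
    rw [h1] at h2 h3
    have h4 := ediv_iff.1 h2
    have h5 := ediv_iff.1 h3
    exact ⟨h4.1, h4.2, h5.1, h5.2⟩
  · rintro ⟨h1, h2, h3, h4⟩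
    have h5 := ediv_iff.2 ⟨h1, h2⟩
    have h6 := ediv_iff.2 ⟨h3, h4⟩
    have h7 := lv_floor (Nat.sub_le _ _) h5.symm h6.symm
    rw [h7]
    exact ⟨rfl, h5, h6⟩

theorem tid_zero (kk : ℕ → ℕ) : tid kk (0 : ℤ × ℤ) ≠ tid kk (0 - (1, 1)) := by
  intro h
  rw [eq_comm, tid_iff, mem_blk] at h
  have h0 : lv (0 : ℤ × ℤ) = 0 := by
    unfold lv qc
    simp
  rw [h0] at h
  have h1 : tb kk (0 : ℤ × ℤ) = 0 := by
    unfold tb
    simp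
  rw [h1] at h
  have := h.1
  simp at this

end Vale.Agent.P159.H191
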