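import Vale.Agent.P159.H191.Cost
import Vale.Agent.P159.Bdl.B2

/-!
P159, module S_up, part D3: the sum of the weights, and the upper bound of the two-point function
by the block stiffnesses on all scales.
-/

set_option linter.all false
set_option autoImplicit false

open MeasureTheory Filter Topology
open scoped BigOperators

namespace Vale.Agent.P159.H191

open Vale.Agent.P159 Vale.Agent.P159.UJ Vale.Agent.P159.H950 Vale.Agent.P159.XY

/-- dyadic boxes of cells -/
noncomputable def DD (n : ℕ) : Finset (ℤ × ℤ) := ivl (2 ^ n) ×ˢ ivl (2 ^ n)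

theorem mem_ivl2 {N : ℕ} {c : ℤ × ℤ} : c ∈ ivl N ×ˢ ivl N ↔ qc c < N := by
  unfold ivl
  rw [Finset.mem_product, Finset.mem_Ico, Finset.mem_Ico, qc_lt]
  tauto

theorem mem_DD {n : ℕ} {c : ℤ × ℤ} : c ∈ DD n ↔ qc c < 2 ^ n := mem_ivl2

theorem card_DD (n : ℕ) : ((DD n).card : ℝ) = 4 * 4 ^ n := by
  unfold DD ivl
  rw [Finset.card_product, Int.card_Ico]
  have : ((2 ^ n : ℕ) - -((2 ^ n : ℕ) : ℤ)).toNat = 2 * 2 ^ n := by omega
  rw [this]
  push_cast
  have e : (4 : ℝ) ^ n = 2 ^ n * 2 ^ n := by rw [← mul_pow]; norm_num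
  rw [e]
  ring

theorem DD_mono (n : ℕ) : DD n ⊆ DD (n + 1) := by
  intro c hc
  rw [mem_DD] at hc ⊢
  exact hc.trans (Nat.pow_lt_pow_right (by norm_num) (Nat.lt_succ_self _))

theorem lv_DD0 {c : ℤ × ℤ} (hc : c ∈ DD 0) : lv c = 0 := by
  rw [mem_DD, pow_zero] at hc
  have : lv c < 0 + 1 := by
    rw [lv_lt]
    omega
  omega

theorem lv_sdiff {n : ℕ} {c : ℤ × ℤ} (hc : c ∈ DD (n + 1) \ DD n) : lv c = n := by
  rw [Finset.mem_sdiff, mem_DD, mem_DD] at hc
  have h1 := lv_lt.2 hc.1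
  rcases Nat.eq_zero_or_pos n with h | h
  · omega
  · obtain ⟨m, rfl⟩ : ∃ m, n = m + 1 := ⟨n - 1, by omega⟩
    have h2 := hc.2
    rw [← lv_lt] at h2
    omega

theorem sum_level {f : ℕ → ℝ} (hf : ∀ j, 0 ≤ f j) (n : ℕ) :
    ∑ c ∈ DD n, f (lv c) ≤ 4 * f 0 + 16 * ∑ j ∈ Finset.range n, 4 ^ j * f j := by
  induction n with
  | zero =>
    rw [Finset.sum_congr rfl (fun c hc => by rw [lv_DD0 hc]), Finset.sum_const, nsmul_eq_mul,
      card_DD]
    simp
  | succ n ih =>
    rw [← Finset.sum_sdiff (DD_mono n), Finset.sum_range_succ]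
    have h1 : ∑ c ∈ DD (n + 1) \ DD n, f (lv c) ≤ 16 * (4 ^ n * f n) := by
      rw [Finset.sum_congr rfl (fun c hc => by rw [lv_sdiff hc]), Finset.sum_const, nsmul_eq_mul]
      have h2 : ((DD (n + 1) \ DD n).card : ℝ) ≤ 4 * 4 ^ (n + 1) := by
        rw [← card_DD]
        exact_mod_cast Finset.card_le_card Finset.sdiff_subset
      calc ((DD (n + 1) \ DD n).card : ℝ) * f n ≤ (4 * 4 ^ (n + 1)) * f n :=
            mul_le_mul_of_nonneg_right h2 (hf n)
        _ = _ := by ring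
    linarith

/-- Abel summation -/
theorem sum_abel {h : ℕ → ℝ} (ha : ∀ n, h (n + 1) ≤ h n) {G : ℤ × ℤ → ℝ} {a K : ℝ}
    (hA : ∀ n : ℕ, ∑ c ∈ DD n, G c ≤ a * n + K) (n : ℕ) :
    ∑ c ∈ DD n, h (lv c) * G c + h n * (a * n + K - ∑ c ∈ DD n, G c) ≤
      a * ∑ j ∈ Finset.range n, h j + K * h 0 := by
  induction n with
  | zero =>
    rw [Finset.sum_congr rfl (fun c hc => by rw [lv_DD0 hc]), ← Finset.mul_sum]
    simp
    ring_nf
    exact le_refl _
  | succ n ih =>
    have e1 : ∑ c ∈ DD (n + 1), h (lv c) * G c = ∑ c ∈ DD n, h (lv c) * G c +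
        h n * (∑ c ∈ DD (n + 1), G c - ∑ c ∈ DD n, G c) := by
      rw [← Finset.sum_sdiff (DD_mono n), ← Finset.sum_sdiff (DD_mono n) (f := G),
        Finset.sum_congr rfl (fun c (hc : c ∈ DD (n + 1) \ DD n) => by rw [lv_sdiff hc]),
        ← Finset.mul_sum]
      ring
    rw [e1, Finset.sum_range_succ]
    have h1 : 0 ≤ a * (n + 1 : ℕ) + K - ∑ c ∈ DD (n + 1), G c := by linarith [hA (n + 1)]
    have h2 := mul_le_mul_of_nonneg_right (ha n) h1
    push_cast at h2 ⊢
    nlinarith only [h2, ih]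

theorem sum_qq (n : ℕ) : ∑ c ∈ DD n, 1 / qq 1 c ≤ 2 * Real.pi * Real.log 2 * n + 20 := by
  have h := sum_sq_le (M := 1) (le_refl 1) (n := 2 ^ n) Nat.one_le_two_pow
  have h1 : ∑ c ∈ DD n, 1 / qq 1 c ≤ ∑ c ∈ Vale.Agent.P159.sq (2 ^ n), 1 / qq 1 c := by
    refine Finset.sum_le_sum_of_subset_of_nonneg ?_ fun c _ _ => ?_
    · intro c hc
      rw [mem_DD, qc_lt] at hc
      unfold Vale.Agent.P159.sq
      rw [Finset.mem_product, Finset.mem_Icc, Finset.mem_Icc]
      omega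
    · have := qq_pos c
      positivity
  refine h1.trans (h.trans (le_of_eq ?_))
  push_cast
  rw [Real.log_pow]
  ring

theorem stiff2_anti {b : ℝ} (hb : 0 ≤ b) {m m' : ℕ} (h : m ≤ m') :
    stiff (2 ^ m') b ≤ stiff (2 ^ m) b := by
  obtain ⟨d, rfl⟩ := Nat.exists_eq_add_of_le h
  rw [pow_add]
  exact stiff_mono hb Nat.one_le_two_pow Nat.one_le_two_pow

theorem stiff2_le {b : ℝ} (hb : 0 ≤ b) (m : ℕ) : stiff (2 ^ m) b ≤ b := by
  have h := stiff2_anti hb (Nat.zero_le m)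
  rwa [pow_zero, stiff_one] at h

/-- the sum of the weights around a centre -/
theorem wt_sum {b : ℝ} (hb : 0 ≤ b) (α : ℝ) (kk : ℕ → ℕ) (hkk : ∀ j, kk j ≤ j)
    (hk1 : ∀ j, kk (j + 1) ≤ kk j + 1) (n : ℕ) :
    ∑ c ∈ DD n, wt b α kk n c ≤
      Real.pi * Real.log 2 * α ^ 2 * ∑ j ∈ Finset.range n, stiff (2 ^ (j - kk j)) b +
      10 * b * α ^ 2 + (α ^ 2 * b / 2 + KT b α) *
        (4 + 16 * ∑ j ∈ Finset.range n, 1 / 2 ^ (kk j)) + 32 * b * (Real.cosh |α| - 1) := by
  have hK := KT_nonneg hb α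
  -- pointwise bound
  have h1 : ∀ c ∈ DD n, wt b α kk n c ≤ α ^ 2 / 2 *
      (stiff (2 ^ (lv c - kk (lv c))) b * (1 / qq 1 c)) +
      (α ^ 2 * b / 2 + KT b α) * (1 / (2 ^ (kk (lv c)) * 4 ^ (lv c))) +
      8 * b * (Real.cosh |α| - 1) / 4 ^ n := by
    intro c _
    unfold wt
    have e1 : 1 / qq 1 c ≤ 1 / 4 ^ (lv c) := by
      refine one_div_le_one_div_of_le (by positivity) ?_
      have := far_lv c (le_refl (c.1 : ℝ)) (by linarith) (le_refl (c.2 : ℝ)) (by linarith)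
      unfold qq
      rw [one_pow]
      refine le_trans (le_of_eq ?_) this
      rw [← pow_mul, mul_comm, pow_mul]
      norm_num
    have e2 := stiff2_le hb (lv c - kk (lv c))
    have e3 := stiff2_nonneg hb (lv c - kk (lv c))
    have e4 : 0 < 1 / qq 1 c := by have := qq_pos c; positivity
    have e5 : stiff (2 ^ (lv c - kk (lv c))) b * (α ^ 2 * (1 / qq 1 c)) ≤
        b * (α ^ 2 * (1 / 4 ^ (lv c))) := by
      refine mul_le_mul e2 ?_ (by positivity) hb
      exact mul_le_mul_of_nonneg_left e1 (by positivity)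
    have e6 : (1 : ℝ) / 2 ^ (kk (lv c)) / 2 * (stiff (2 ^ (lv c - kk (lv c))) b *
        (α ^ 2 * (1 / qq 1 c))) ≤ 1 / 2 ^ (kk (lv c)) / 2 * (b * (α ^ 2 * (1 / 4 ^ (lv c)))) :=
      mul_le_mul_of_nonneg_left e5 (by positivity)
    have e7 : (1 : ℝ) / 2 ^ (kk (lv c)) / 2 * (b * (α ^ 2 * (1 / 4 ^ (lv c)))) =
        (α ^ 2 * b / 2) * (1 / (2 ^ (kk (lv c)) * 4 ^ (lv c))) := by
      field_simp
    have e8 : (1 + 1 / 2 ^ (kk (lv c))) / 2 * (stiff (2 ^ (lv c - kk (lv c))) b *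
        (α ^ 2 * (1 / qq 1 c))) = α ^ 2 / 2 *
      (stiff (2 ^ (lv c - kk (lv c))) b * (1 / qq 1 c)) +
      1 / 2 ^ (kk (lv c)) / 2 * (stiff (2 ^ (lv c - kk (lv c))) b *
        (α ^ 2 * (1 / qq 1 c))) := by ring
    have e9 : KT b α / (2 ^ (kk (lv c)) * 4 ^ (lv c)) =
        KT b α * (1 / (2 ^ (kk (lv c)) * 4 ^ (lv c))) := by ring
    rw [e8, e9, add_mul (α ^ 2 * b / 2)]
    linarith
  refine (Finset.sum_le_sum h1).trans ?_
  rw [Finset.sum_add_distrib, Finset.sum_add_distrib, ← Finset.mul_sum, ← Finset.mul_sum,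
    Finset.sum_const, nsmul_eq_mul, card_DD]
  have h2 := sum_abel (h := fun j => stiff (2 ^ (j - kk j)) b)
    (fun j => stiff2_anti hb (by have := hk1 j; have := hkk j; omega))
    (G := fun c => 1 / qq 1 c) (a := 2 * Real.pi * Real.log 2) (K := 20) sum_qq n
  have h3 : 0 ≤ stiff (2 ^ (n - kk n)) b *
      (2 * Real.pi * Real.log 2 * n + 20 - ∑ c ∈ DD n, 1 / qq 1 c) :=
    mul_nonneg (stiff2_nonneg hb _) (by linarith [sum_qq n])
  have h4 := stiff2_le hb (0 - kk 0)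
  have h5 : ∑ c ∈ DD n, stiff (2 ^ (lv c - kk (lv c))) b * (1 / qq 1 c) ≤
      2 * Real.pi * Real.log 2 * ∑ j ∈ Finset.range n, stiff (2 ^ (j - kk j)) b + 20 * b := by
    linarith
  have h6 := sum_level (f := fun j => 1 / (2 ^ (kk j) * 4 ^ j)) (fun j => by positivity) n
  have h7 : ∑ j ∈ Finset.range n, (4 : ℝ) ^ j * (1 / (2 ^ (kk j) * 4 ^ j)) =
      ∑ j ∈ Finset.range n, 1 / 2 ^ (kk j) := by
    refine Finset.sum_congr rfl fun j _ => ?_
    field_simp
  rw [h7] at h6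
  have h8 : (1 : ℝ) / (2 ^ (kk 0) * 4 ^ 0) ≤ 1 := by
    rw [pow_zero, mul_one, div_le_one (by positivity)]
    exact one_le_pow₀ (by norm_num)
  have h9 : ∑ c ∈ DD n, (1 : ℝ) / (2 ^ (kk (lv c)) * 4 ^ (lv c)) ≤
      4 + 16 * ∑ j ∈ Finset.range n, 1 / 2 ^ (kk j) := by linarith
  have h10 := mul_le_mul_of_nonneg_left h9 (by positivity : 0 ≤ α ^ 2 * b / 2 + KT b α)
  have h11 := mul_le_mul_of_nonneg_left h5 (by positivity : 0 ≤ α ^ 2 / 2)
  have h12 : 4 * (4 : ℝ) ^ n * (8 * b * (Real.cosh |α| - 1) / 4 ^ n) =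
      32 * b * (Real.cosh |α| - 1) := by
    field_simp
    ring
  rw [h12]
  have h13 : α ^ 2 / 2 * (2 * Real.pi * Real.log 2 *
      ∑ j ∈ Finset.range n, stiff (2 ^ (j - kk j)) b + 20 * b) =
      Real.pi * Real.log 2 * α ^ 2 * ∑ j ∈ Finset.range n, stiff (2 ^ (j - kk j)) b +
      10 * b * α ^ 2 := by ring
  linarith

/-! ### the two centres -/

theorem Ph_zero {n : ℕ} {v : ℤ × ℤ} (h : (v.1 ≤ -2 ^ n ∨ (2 : ℤ) ^ n ≤ v.1) ∨
    (v.2 ≤ -2 ^ n ∨ (2 : ℤ) ^ n ≤ v.2)) : Ph n v = 0 := by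
  unfold Ph
  rw [max_eq_left]
  unfold Fz FF
  have hr : (0 : ℝ) < 2 ^ n := by positivity
  have e5 : ((2 : ℝ) ^ n) ^ 2 ≤ 1 + (v.1 : ℝ) ^ 2 + (v.2 : ℝ) ^ 2 := by
    rcases h with (h | h) | (h | h)
    · have h6 : (v.1 : ℝ) ≤ -2 ^ n := by exact_mod_cast h
      nlinarith only [h6, hr, sq_nonneg (v.2 : ℝ)]
    · have h6 : (2 : ℝ) ^ n ≤ v.1 := by exact_mod_cast h
      nlinarith only [h6, hr, sq_nonneg (v.2 : ℝ)]
    · have h6 : (v.2 : ℝ) ≤ -2 ^ n := by exact_mod_cast h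
      nlinarith only [h6, hr, sq_nonneg (v.1 : ℝ)]
    · have h6 : (2 : ℝ) ^ n ≤ v.2 := by exact_mod_cast h
      nlinarith only [h6, hr, sq_nonneg (v.1 : ℝ)]
  have e6 := Real.log_le_log (by positivity) e5
  rw [Real.log_pow, Real.log_pow] at e6
  push_cast at e6
  linarith

theorem Ph_origin (n : ℕ) : Ph n 0 = n * Real.log 2 := by
  unfold Ph Fz FF
  have : 0 ≤ (n : ℝ) * Real.log 2 := by
    have := Real.log_nonneg (by norm_num : (1:ℝ) ≤ 2)
    positivity
  simp [this]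

/-- the two-centre profile -/
noncomputable def phi2 (α : ℝ) (n : ℕ) (x v : ℤ × ℤ) : ℝ := α * (Ph n v - Ph n (v - x))

theorem disj {n : ℕ} {x c : ℤ × ℤ} (hx : 2 ^ (n + 1) ≤ nm x) (h : qc (c - x) < 2 ^ n) :
    ¬ qc c < 2 ^ n := by
  intro h1
  rw [qc_lt, two_pow_cast] at h h1
  simp only [Prod.fst_sub, Prod.snd_sub] at h
  have h2 : (2 : ℤ) ^ (n + 1) ≤ (nm x : ℤ) := by exact_mod_cast hx
  rw [pow_succ] at h2
  unfold nm at h2
  generalize (2 : ℤ) ^ n = r at h h1 h2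
  omega

theorem corner_far {n : ℕ} {x c v : ℤ × ℤ} (hx : 2 ^ (n + 1) ≤ nm x) (h : qc c < 2 ^ n)
    (h1 : c.1 ≤ v.1) (h2 : v.1 ≤ c.1 + 1) (h3 : c.2 ≤ v.2) (h4 : v.2 ≤ c.2 + 1) :
    Ph n (v - x) = 0 := by
  apply Ph_zero
  rw [qc_lt, two_pow_cast] at h
  simp only [Prod.fst_sub, Prod.snd_sub]
  have h5 : (2 : ℤ) ^ (n + 1) ≤ (nm x : ℤ) := by exact_mod_cast hx
  rw [pow_succ] at h5
  unfold nm at h5
  generalize (2 : ℤ) ^ n = r at h h5 ⊢
  omega

theorem corner_far' {n : ℕ} {x c v : ℤ × ℤ} (hx : 2 ^ (n + 1) ≤ nm x) (h : qc (c - x) < 2 ^ n)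
    (h1 : c.1 ≤ v.1) (h2 : v.1 ≤ c.1 + 1) (h3 : c.2 ≤ v.2) (h4 : v.2 ≤ c.2 + 1) :
    Ph n v = 0 := by
  apply Ph_zero
  rw [qc_lt, two_pow_cast] at h
  simp only [Prod.fst_sub, Prod.snd_sub] at h
  have h5 : (2 : ℤ) ^ (n + 1) ≤ (nm x : ℤ) := by exact_mod_cast hx
  rw [pow_succ] at h5
  unfold nm at h5
  generalize (2 : ℤ) ^ n = r at h h5 ⊢
  omega

theorem corner_out {n : ℕ} {c v : ℤ × ℤ} (h : ¬ qc c < 2 ^ n)
    (h1 : c.1 ≤ v.1) (h2 : v.1 ≤ c.1 + 1) (h3 : c.2 ≤ v.2) (h4 : v.2 ≤ c.2 + 1) :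
    Ph n v = 0 := by
  apply Ph_zero
  rw [qc_lt, two_pow_cast] at h
  generalize (2 : ℤ) ^ n = r at h ⊢
  omega

/-- the tile index of a cell -/
def tau (kk : ℕ → ℕ) (n : ℕ) (x c : ℤ × ℤ) : ℕ × ℕ × ℤ × ℤ :=
  if qc c < 2 ^ n then (0, tid kk c) else if qc (c - x) < 2 ^ n then (1, tid kk (c - x)) else
    (2, 0, 0, 0)

theorem hu_sub (c x : ℤ × ℤ) (t : HT) : hu (c - x) t = hu c t - x := by
  unfold hu
  ext <;> simp only [Prod.fst_sub, Prod.snd_sub] <;> ring

theorem hv_sub (c x : ℤ × ℤ) (t : HT) : hv (c - x) t = hv c t - x := by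
  unfold hv
  rw [hu_sub]
  abel

theorem lv_lt_of_qc {c : ℤ × ℤ} {n : ℕ} (hn : 1 ≤ n) : lv c < n ↔ qc c < 2 ^ n := by
  obtain ⟨m, rfl⟩ : ∃ m, n = m + 1 := ⟨n - 1, by omega⟩
  exact lv_lt

/-- finite volume bound -/
theorem corr_up {b : ℝ} (hb : 0 ≤ b) (α : ℝ) (kk : ℕ → ℕ) (hkk : ∀ j, kk j ≤ j)
    {n : ℕ} (hn : 1 ≤ n) {x : ℤ × ℤ} (hx : 2 ^ (n + 1) ≤ nm x) {R : ℕ} (hR : x ∈ box R) :
    Vale.Agent.P159.corr R b x ≤ Real.exp (-(2 * α * n * Real.log 2) +
      2 * ∑ c ∈ DD n, wt b α kk n c) := by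
  classical
  obtain ⟨N, hN1, hN2⟩ : ∃ N : ℕ, R + 1 ≤ N ∧ 2 ^ n + nm x ≤ N :=
    ⟨max (R + 1) (2 ^ n + nm x), le_max_left _ _, le_max_right _ _⟩
  obtain ⟨B, hB⟩ : ∃ B, B = ivl N ×ˢ ivl N := ⟨_, rfl⟩
  have hBD : ∀ c, qc c < 2 ^ n → c ∈ B := by
    intro c hc
    rw [hB, mem_ivl2]
    omega
  have hBx : ∀ c, qc (c - x) < 2 ^ n → c ∈ B := by
    intro c hc
    rw [hB, mem_ivl2]
    rw [qc_lt] at hc ⊢
    simp only [Prod.fst_sub, Prod.snd_sub] at hc
    unfold nm at hN2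
    generalize 2 ^ n = r at hN2 hc
    omega
  have hq0 : qc (0 : ℤ × ℤ) < 2 ^ n := by
    rw [qc_lt, two_pow_cast]
    have : (0 : ℤ) < 2 ^ n := by positivity
    simp only [Prod.fst_zero, Prod.snd_zero]
    omega
  have hq1 : qc (0 - (1, 1) : ℤ × ℤ) < 2 ^ n := by
    rw [qc_lt, two_pow_cast]
    have : (0 : ℤ) < 2 ^ n := by positivity
    simp only [Prod.fst_sub, Prod.snd_sub, Prod.fst_zero, Prod.snd_zero]
    omega
  have h := corr_le_region hb N (B.image (tau kk n x)) (tau kk n x)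
    (fun c hc => Finset.mem_image_of_mem _ (by rw [hB]; exact hc)) (phi2 α n x) x
    (by
      intro k hk
      have h1 := (Finset.mem_filter.1 hk.1).2
      have h2 := (Finset.mem_filter.1 hk.2.2.2).2
      have h3 := h1.trans h2.symm
      unfold tau at h3
      rw [if_pos hq0, if_pos hq1] at h3
      exact tid_zero kk (Prod.ext_iff.1 h3).2)
    (by
      intro k hk
      have h1 := (Finset.mem_filter.1 hk.1).2
      have h2 := (Finset.mem_filter.1 hk.2.2.2).2
      have h3 := h1.trans h2.symm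
      have e0 : x - x = 0 := sub_self x
      have e1 : x - (1, 1) - x = 0 - (1, 1) := by abel
      have a0 : qc (x - x) < 2 ^ n := by rw [e0]; exact hq0
      have a1 : qc (x - (1, 1) - x) < 2 ^ n := by rw [e1]; exact hq1
      unfold tau at h3
      rw [if_neg (disj hx a0), if_pos a0, if_neg (disj hx a1), if_pos a1, e0, e1] at h3
      exact tid_zero kk (Prod.ext_iff.1 h3).2)
    hN1 hR
  rw [← hB] at h
  refine h.trans ?_
  -- the gain
  have hphi : phi2 α n x 0 - phi2 α n x x = 2 * α * n * Real.log 2 := by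
    have e1 : Ph n (0 - x) = 0 := corner_far (c := 0) hx hq0 (le_refl _)
      (by simp) (le_refl _) (by simp)
    have e2 : Ph n x = 0 := by
      have e0 : x - x = 0 := sub_self x
      exact corner_far' (c := x) hx (by rw [e0]; exact hq0) (le_refl _) (by omega)
        (le_refl _) (by omega)
    unfold phi2
    rw [e1, e2, sub_self, Ph_origin]
    ring
  rw [hphi, Real.exp_add]
  refine mul_le_mul_of_nonneg_left ?_ (Real.exp_pos _).le
  -- the cost
  obtain ⟨W, hW⟩ : ∃ W : ℤ × ℤ → ℝ, W = fun c => (if qc c < 2 ^ n then wt b α kk n c else 0) +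
      (if qc (c - x) < 2 ^ n then wt b α kk n (c - x) else 0) := ⟨_, rfl⟩
  have hw0 := wt_nonneg hb α kk n
  have hW0 : ∀ c, 0 ≤ W c := by
    intro c
    rw [hW]
    simp only
    split_ifs <;> linarith [hw0 c, hw0 (c - x)]
  have htile : ∀ k ∈ B.image (tau kk n x), rG b (B.filter fun c => tau kk n x c = k)
      (dphi (phi2 α n x)) ≤ Real.exp (∑ c ∈ B.filter (fun c => tau kk n x c = k), W c) := by
    intro k hk
    obtain ⟨c0, hc0B, hc0⟩ := Finset.mem_image.1 hk
    by_cases h1 : qc c0 < 2 ^ n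
    · have hk1 : k = (0, tid kk c0) := by
        rw [← hc0]; unfold tau; rw [if_pos h1]
      have hT : ∀ c, c ∈ B.filter (fun c => tau kk n x c = k) ↔
          tid kk (c - 0) = tid kk c0 := by
        intro c
        rw [sub_zero, Finset.mem_filter, hk1]
        constructor
        · rintro ⟨_, h2⟩
          unfold tau at h2
          split_ifs at h2 with h3 h4
          · exact (Prod.ext_iff.1 h2).2
          · simp at h2
          · simp at h2
        · intro h2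
          have h3 : qc c < 2 ^ n := by
            rw [← lv_lt_of_qc hn] at h1 ⊢
            have : lv c = lv c0 := congrArg Prod.fst h2
            omega
          refine ⟨hBD c h3, ?_⟩
          unfold tau
          rw [if_pos h3, h2]
      have hmem : ∀ c ∈ B.filter (fun c => tau kk n x c = k), qc c < 2 ^ n := by
        intro c hc
        have h2 := (hT c).1 hc
        rw [sub_zero] at h2
        rw [← lv_lt_of_qc hn] at h1 ⊢
        have : lv c = lv c0 := congrArg Prod.fst h2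
        omega
      have h2 := tile_centre hb kk hkk hn α 0 c0 h1 _ hT (dphi (phi2 α n x)) (by
        intro c hc t
        obtain ⟨r1, r2, r3, r4⟩ := hu_range c t
        obtain ⟨s1, s2, s3, s4⟩ := hv_range c t
        unfold dphi phi2
        rw [corner_far hx (hmem c hc) r1 r2 r3 r4, corner_far hx (hmem c hc) s1 s2 s3 s4,
          sub_zero c]
        ring)
      refine h2.trans (Real.exp_le_exp.2 (Finset.sum_le_sum fun c hc => ?_))
      rw [hW, sub_zero]
      simp only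
      rw [if_pos (hmem c hc)]
      split_ifs <;> linarith [hw0 (c - x)]
    · by_cases h2 : qc (c0 - x) < 2 ^ n
      · have hk1 : k = (1, tid kk (c0 - x)) := by
          rw [← hc0]; unfold tau; rw [if_neg h1, if_pos h2]
        have hT : ∀ c, c ∈ B.filter (fun c => tau kk n x c = k) ↔
            tid kk (c - x) = tid kk (c0 - x) := by
          intro c
          rw [Finset.mem_filter, hk1]
          constructor
          · rintro ⟨_, h2⟩
            unfold tau at h2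
            split_ifs at h2 with h3 h4
            · simp at h2
            · exact (Prod.ext_iff.1 h2).2
            · simp at h2
          · intro h4
            have h3 : qc (c - x) < 2 ^ n := by
              rw [← lv_lt_of_qc hn] at h2 ⊢
              have : lv (c - x) = lv (c0 - x) := congrArg Prod.fst h4
              omega
            refine ⟨hBx c h3, ?_⟩
            unfold tau
            rw [if_neg (disj hx h3), if_pos h3, h4]
        have hmem : ∀ c ∈ B.filter (fun c => tau kk n x c = k), qc (c - x) < 2 ^ n := by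
          intro c hc
          have h4 := (hT c).1 hc
          rw [← lv_lt_of_qc hn] at h2 ⊢
          have : lv (c - x) = lv (c0 - x) := congrArg Prod.fst h4
          omega
        have h5 := tile_centre hb kk hkk hn (-α) x (c0 - x) h2 _ hT (dphi (phi2 α n x)) (by
          intro c hc t
          obtain ⟨r1, r2, r3, r4⟩ := hu_range c t
          obtain ⟨s1, s2, s3, s4⟩ := hv_range c t
          unfold dphi phi2
          rw [corner_far' hx (hmem c hc) r1 r2 r3 r4, corner_far' hx (hmem c hc) s1 s2 s3 s4,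
            hu_sub, hv_sub]
          ring)
        refine h5.trans (Real.exp_le_exp.2 (Finset.sum_le_sum fun c hc => ?_))
        rw [hW]
        simp only
        rw [if_pos (hmem c hc)]
        have e1 : wt b (-α) kk n (c - x) = wt b α kk n (c - x) := by
          unfold wt KT
          rw [abs_neg, neg_sq]
        rw [e1]
        split_ifs <;> linarith [hw0 c]
      · -- the rest
        have hk1 : k = (2, 0, 0, 0) := by
          rw [← hc0]; unfold tau; rw [if_neg h1, if_neg h2]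
        have h5 := rG_trivial hb (B.filter fun c => tau kk n x c = k) (dphi (phi2 α n x))
          (δ := 0) (by
            intro c hc t
            have h6 := (Finset.mem_filter.1 hc).2
            rw [hk1] at h6
            unfold tau at h6
            split_ifs at h6 with h7 h8
            · simp at h6
            · simp at h6
            · obtain ⟨r1, r2, r3, r4⟩ := hu_range c t
              obtain ⟨s1, s2, s3, s4⟩ := hv_range c t
              obtain ⟨r1', r2', r3', r4'⟩ := hu_range (c - x) t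
              obtain ⟨s1', s2', s3', s4'⟩ := hv_range (c - x) t
              have e1 := corner_out h7 r1 r2 r3 r4
              have e2 := corner_out h7 s1 s2 s3 s4
              have e3 := corner_out h8 r1' r2' r3' r4'
              have e4 := corner_out h8 s1' s2' s3' s4'
              rw [hu_sub] at e3
              rw [hv_sub] at e4
              unfold dphi phi2
              rw [e1, e2, e3, e4]
              simp)
        refine h5.trans (Real.exp_le_exp.2 ?_)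
        rw [Real.cosh_zero, sub_self, mul_zero]
        exact Finset.sum_nonneg fun c _ => hW0 c
  have hprod : (∏ k ∈ B.image (tau kk n x), rG b (B.filter fun c => tau kk n x c = k)
      (dphi (phi2 α n x))) ≤ Real.exp (∑ c ∈ B, W c) := by
    refine (Finset.prod_le_prod (fun k _ => div_nonneg (norm_nonneg _) (norm_nonneg _))
      htile).trans (le_of_eq ?_)
    rw [← Real.exp_sum]
    congr 1
    exact Finset.sum_fiberwise_of_maps_to (fun c hc => Finset.mem_image_of_mem _ hc) W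
  refine hprod.trans (Real.exp_le_exp.2 ?_)
  rw [hW, Finset.sum_add_distrib]
  have s1 : ∑ c ∈ B, (if qc c < 2 ^ n then wt b α kk n c else 0) ≤
      ∑ c ∈ DD n, wt b α kk n c := by
    rw [← Finset.sum_filter]
    refine Finset.sum_le_sum_of_subset_of_nonneg (fun c hc => ?_) fun c _ _ => hw0 c
    rw [mem_DD]
    exact (Finset.mem_filter.1 hc).2
  have s2 : ∑ c ∈ B, (if qc (c - x) < 2 ^ n then wt b α kk n (c - x) else 0) ≤
      ∑ c ∈ DD n, wt b α kk n c := by
    rw [← Finset.sum_filter, ← Finset.sum_image (f := fun c => wt b α kk n c)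
      (g := fun c => c - x) (s := B.filter fun c => qc (c - x) < 2 ^ n)
      (fun a _ b _ h => sub_left_injective h)]
    refine Finset.sum_le_sum_of_subset_of_nonneg (fun c hc => ?_) fun c _ _ => hw0 c
    obtain ⟨c', hc', rfl⟩ := Finset.mem_image.1 hc
    rw [mem_DD]
    exact (Finset.mem_filter.1 hc').2
  linarith

/-- **S_up**: upper bound of the two-point function by the block stiffnesses on all scales. -/
theorem S_up {b : ℝ} (hb : 0 ≤ b) (α : ℝ) (kk : ℕ → ℕ) (hkk : ∀ j, kk j ≤ j)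
    (hk1 : ∀ j, kk (j + 1) ≤ kk j + 1) (hsum : Summable fun j => (1 : ℝ) / 2 ^ (kk j)) :
    ∃ K : ℝ, 0 < K ∧ ∀ x : ℤ × ℤ, C b x ≤ K * Real.exp (-(2 * α * (Nat.log 2 (nm x)) * Real.log 2) +
      2 * Real.pi * α ^ 2 * Real.log 2 *
        ∑ j ∈ Finset.range (Nat.log 2 (nm x)), stiff (2 ^ (j - kk j)) b) := by
  obtain ⟨K1, hK1⟩ : ∃ K1 : ℝ, K1 = 10 * b * α ^ 2 + (α ^ 2 * b / 2 + KT b α) *
        (4 + 16 * ∑' j, (1 : ℝ) / 2 ^ (kk j)) + 32 * b * (Real.cosh |α| - 1) := ⟨_, rfl⟩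
  have hKT := KT_nonneg hb α
  have hch : 0 ≤ Real.cosh |α| - 1 := by linarith [Real.one_le_cosh |α|]
  have hts : 0 ≤ ∑' j, (1 : ℝ) / 2 ^ (kk j) := tsum_nonneg fun j => by positivity
  have hK0 : 0 ≤ K1 := by rw [hK1]; positivity
  have hlog2 : 0 < Real.log 2 := Real.log_pos (by norm_num)
  have hpi := Real.pi_pos
  refine ⟨Real.exp (2 * |α| * Real.log 2 + 2 * K1), Real.exp_pos _, fun x => ?_⟩
  obtain ⟨L, hL⟩ : ∃ L, Nat.log 2 (nm x) = L := ⟨_, rfl⟩
  rw [hL, ← Real.exp_add]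
  have hS0 : ∀ n : ℕ, 0 ≤ ∑ j ∈ Finset.range n, stiff (2 ^ (j - kk j)) b := fun n =>
    Finset.sum_nonneg fun j _ => stiff2_nonneg hb _
  have hαa := le_abs_self α
  have hαn := neg_abs_le α
  by_cases hc : L ≤ 1
  · refine (C_le_one b x).trans (Real.one_le_exp ?_)
    have h1 : 2 * α * (L : ℝ) * Real.log 2 ≤ 2 * |α| * Real.log 2 := by
      have hL0 : (0 : ℝ) ≤ L := Nat.cast_nonneg _
      have hL1 : (L : ℝ) ≤ 1 := by exact_mod_cast hc
      have h2 : α * L ≤ |α| := by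
        calc α * L ≤ |α| * L := mul_le_mul_of_nonneg_right hαa hL0
          _ ≤ |α| * 1 := mul_le_mul_of_nonneg_left hL1 (abs_nonneg _)
          _ = |α| := mul_one _
      nlinarith only [h2, hlog2]
    have h3 : 0 ≤ 2 * Real.pi * α ^ 2 * Real.log 2 *
        ∑ j ∈ Finset.range L, stiff (2 ^ (j - kk j)) b :=
      mul_nonneg (by positivity) (hS0 L)
    linarith
  · obtain ⟨n, hn⟩ : ∃ n, L = n + 1 := ⟨L - 1, by omega⟩
    have hn1 : 1 ≤ n := by omega
    have hnm : 2 ^ (n + 1) ≤ nm x := by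
      rw [← hn, ← hL]
      refine Nat.pow_log_le_self 2 ?_
      intro h0
      rw [h0, Nat.log_zero_right] at hL
      omega
    refine C_le_of_corr_le hb x fun R hR => ?_
    refine (corr_up hb α kk hkk hn1 hnm hR).trans (Real.exp_le_exp.2 ?_)
    have h1 := wt_sum hb α kk hkk hk1 n
    have h2 : ∑ j ∈ Finset.range n, (1 : ℝ) / 2 ^ (kk j) ≤ ∑' j, (1 : ℝ) / 2 ^ (kk j) :=
      hsum.sum_le_tsum _ fun j _ => by positivity
    have h3 : ∑ c ∈ DD n, wt b α kk n c ≤ Real.pi * Real.log 2 * α ^ 2 *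
        ∑ j ∈ Finset.range n, stiff (2 ^ (j - kk j)) b + K1 := by
      have h4 : (α ^ 2 * b / 2 + KT b α) * (4 + 16 * ∑ j ∈ Finset.range n, 1 / 2 ^ (kk j)) ≤
          (α ^ 2 * b / 2 + KT b α) * (4 + 16 * ∑' j, (1 : ℝ) / 2 ^ (kk j)) :=
        mul_le_mul_of_nonneg_left (by linarith) (by positivity)
      rw [hK1]
      linarith
    have h5 : ∑ j ∈ Finset.range n, stiff (2 ^ (j - kk j)) b ≤
        ∑ j ∈ Finset.range (n + 1), stiff (2 ^ (j - kk j)) b := by
      rw [Finset.sum_range_succ]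
      linarith [stiff2_nonneg hb (n - kk n)]
    have h6 := mul_le_mul_of_nonneg_left h5
      (by positivity : 0 ≤ 2 * Real.pi * α ^ 2 * Real.log 2)
    have h7 : -(2 * α * (n : ℝ) * Real.log 2) ≤ -(2 * α * ((n + 1 : ℕ) : ℝ) * Real.log 2) +
        2 * |α| * Real.log 2 := by
      push_cast
      nlinarith only [hαa, hlog2]
    rw [hn]
    linarith

end Vale.Agent.P159.H191
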