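import Vale.Agent.P159.H191.Sup
import Mathlib.Analysis.PSeries

/-!
P159, module S_up: corollaries. The choice `kk = Nat.sqrt`, and the form centred at `2/π`.
-/

set_option linter.all false
set_option autoImplicit false

open MeasureTheory Filter Topology
open scoped BigOperators

namespace Vale.Agent.P159.H191

open Vale.Agent.P159 Vale.Agent.P159.UJ Vale.Agent.P159.H950 Vale.Agent.P159.XY

theorem pow4_le (s : ℕ) : (s + 1) ^ 4 ≤ 41 * 2 ^ s := by
  rcases Nat.lt_or_ge s 6 with h | h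
  · interval_cases s <;> norm_num
  · induction s, h using Nat.le_induction with
    | base => norm_num
    | succ s hs ih =>
      rw [pow_succ 2 s]
      have h1 : (s + 1 + 1) ^ 4 ≤ 2 * (s + 1) ^ 4 := by
        have h2 : 6 * (s + 1 + 1) ≤ 7 * (s + 1) := by omega
        have h3 := Nat.pow_le_pow_left h2 4
        rw [mul_pow, mul_pow] at h3
        have h4 : 0 ≤ (s + 1) ^ 4 := Nat.zero_le _
        omega
      omega

theorem summable_sqrt : Summable fun j : ℕ => (1 : ℝ) / 2 ^ (Nat.sqrt j) := by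
  have h : Summable fun j : ℕ => (41 : ℝ) * (1 / ((j : ℝ) + 1) ^ 2) := by
    refine Summable.mul_left _ ?_
    have := (summable_nat_add_iff (f := fun j : ℕ => (1 : ℝ) / (j : ℝ) ^ 2) 1).2
      (Real.summable_one_div_nat_pow.2 (by norm_num))
    simpa using this
  refine Summable.of_nonneg_of_le (fun j => by positivity) (fun j => ?_) h
  have h1 := pow4_le (Nat.sqrt j)
  have h2 : j + 1 ≤ (Nat.sqrt j + 1) ^ 2 := by
    have := Nat.lt_succ_sqrt j
    rw [Nat.succ_eq_add_one] at this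
    nlinarith only [this]
  have h3 : (j + 1) ^ 2 ≤ 41 * 2 ^ (Nat.sqrt j) := by
    calc (j + 1) ^ 2 ≤ ((Nat.sqrt j + 1) ^ 2) ^ 2 := Nat.pow_le_pow_left h2 2
      _ = (Nat.sqrt j + 1) ^ 4 := by ring
      _ ≤ _ := h1
  have h4 : ((j : ℝ) + 1) ^ 2 ≤ 41 * 2 ^ (Nat.sqrt j) := by exact_mod_cast h3
  rw [mul_one_div, div_le_div_iff₀ (by positivity) (by positivity), one_mul]
  exact h4

/-- S_up with `kk = Nat.sqrt`: no free sequence -/
theorem S_up_sqrt {b : ℝ} (hb : 0 ≤ b) (α : ℝ) :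
    ∃ K : ℝ, 0 < K ∧ ∀ x : ℤ × ℤ, C b x ≤ K * Real.exp (-(2 * α * (Nat.log 2 (nm x)) * Real.log 2) +
      2 * Real.pi * α ^ 2 * Real.log 2 *
        ∑ j ∈ Finset.range (Nat.log 2 (nm x)), stiff (2 ^ (j - Nat.sqrt j)) b) :=
  S_up hb α Nat.sqrt (fun j => Nat.sqrt_le_self j) (fun j => Nat.sqrt_succ_le_succ_sqrt j)
    summable_sqrt

/-- the form centred at a value `Y > 0` of the stiffness, with the slope `1 / (2 π Y)` -/
theorem S_up_centred {b : ℝ} (hb : 0 ≤ b) {Y : ℝ} (hY : 0 < Y) (kk : ℕ → ℕ) (hkk : ∀ j, kk j ≤ j)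
    (hk1 : ∀ j, kk (j + 1) ≤ kk j + 1) (hsum : Summable fun j => (1 : ℝ) / 2 ^ (kk j)) :
    ∃ K : ℝ, 0 < K ∧ ∀ x : ℤ × ℤ, C b x ≤ K * Real.exp (-(Real.log 2 / (2 * Real.pi * Y)) *
      (Nat.log 2 (nm x)) + Real.log 2 / (2 * Real.pi * Y ^ 2) *
        ∑ j ∈ Finset.range (Nat.log 2 (nm x)), (stiff (2 ^ (j - kk j)) b - Y)) := by
  obtain ⟨K, hK, h⟩ := S_up hb (1 / (2 * Real.pi * Y)) kk hkk hk1 hsum
  refine ⟨K, hK, fun x => (h x).trans (le_of_eq ?_)⟩
  congr 2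
  rw [Finset.sum_sub_distrib, Finset.sum_const, Finset.card_range, nsmul_eq_mul]
  have := Real.pi_pos
  field_simp
  ring

/-- at the jump value `2/π`: exponent `1/4` -/
theorem S_up_quarter {b : ℝ} (hb : 0 ≤ b) (kk : ℕ → ℕ) (hkk : ∀ j, kk j ≤ j)
    (hk1 : ∀ j, kk (j + 1) ≤ kk j + 1) (hsum : Summable fun j => (1 : ℝ) / 2 ^ (kk j)) :
    ∃ K : ℝ, 0 < K ∧ ∀ x : ℤ × ℤ, C b x ≤ K * Real.exp (-(Real.log 2 / 4) *
      (Nat.log 2 (nm x)) + Real.pi / 8 * Real.log 2 *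
        ∑ j ∈ Finset.range (Nat.log 2 (nm x)), (stiff (2 ^ (j - kk j)) b - 2 / Real.pi)) := by
  obtain ⟨K, hK, h⟩ := S_up_centred hb (Y := 2 / Real.pi) (by have := Real.pi_pos; positivity)
    kk hkk hk1 hsum
  refine ⟨K, hK, fun x => (h x).trans (le_of_eq ?_)⟩
  have := Real.pi_pos
  have e1 : Real.log 2 / (2 * Real.pi * (2 / Real.pi)) = Real.log 2 / 4 := by
    field_simp; norm_num
  have e2 : Real.log 2 / (2 * Real.pi * (2 / Real.pi) ^ 2) = Real.pi / 8 * Real.log 2 := by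
    field_simp; norm_num
  rw [e1, e2]

end Vale.Agent.P159.H191
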