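import Vale.Agent.P159.H191.Ms

/-!
P159, module S_up, part C: the cost of a tile.
-/

set_option linter.all false
set_option autoImplicit false

open MeasureTheory Filter Topology
open scoped BigOperators

namespace Vale.Agent.P159.H191

open Vale.Agent.P159 Vale.Agent.P159.UJ Vale.Agent.P159.H950

theorem rG_trivial {b : ℝ} (hb : 0 ≤ b) (R : Finset (ℤ × ℤ)) (y : ℤ × ℤ → HT → ℝ) {δ : ℝ}
    (hy : ∀ c ∈ R, ∀ t, |y c t| ≤ δ) :
    rG b R y ≤ Real.exp (2 * b * R.card * (Real.cosh δ - 1)) := by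
  refine (rho_trivial muInf _ _ (half_nonneg' hb R) _).trans (Real.exp_le_exp.2 ?_)
  have h1 : ∀ e : KR R, b / 2 * (Real.cosh (y e.1 e.2) - 1) ≤ b / 2 * (Real.cosh δ - 1) := by
    intro e
    have h2 : Real.cosh (y e.1 e.2) ≤ Real.cosh δ := by
      rw [Real.cosh_le_cosh]
      exact (hy e.1 e.1.2 e.2).trans (le_abs_self _)
    have h3 : 0 ≤ b / 2 := by linarith
    nlinarith only [h2, h3]
  refine (Finset.sum_le_sum fun e _ => h1 e).trans (le_of_eq ?_)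
  rw [Finset.sum_const, Finset.card_univ, nsmul_eq_mul, card_KR]
  ring

theorem cosh_scale {s : ℝ} (h0 : 0 ≤ s) (h1 : s ≤ 1) (Y : ℝ) :
    Real.cosh (s * Y) - 1 ≤ s ^ 2 * (Real.cosh Y - 1) := by
  have h2 := cosh_quartic h0 h1 Y
  have h3 := one_add_le_cosh Y
  have h4 : s ^ 2 ≤ 1 := pow_le_one₀ h0 h1
  have h5 : s ^ 4 ≤ s ^ 2 := by nlinarith only [h4, sq_nonneg s]
  have h6 : 0 ≤ Real.cosh Y - 1 - Y ^ 2 / 2 := by linarith
  nlinarith only [h2, mul_le_mul_of_nonneg_right h5 h6]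

theorem rG_tile {b : ℝ} (hb : 0 ≤ b) (p : ℤ × ℤ) (l : ℕ) (hl : 1 ≤ l) (y : ℤ × ℤ → HT → ℝ)
    (u w : ℝ) {t η ε δ : ℝ} (ht0 : 0 < t) (ht1 : t ≤ 1) (hη : 0 < η)
    (hrem : ∀ c ∈ blk p l, ∀ s : HT, |y c s - cst u w c s.1| ≤ ε)
    (hy : ∀ c ∈ blk p l, ∀ s, |y c s| ≤ t * δ) :
    rG b (blk p l) y ≤ Real.exp (((1 + η) * ((l : ℝ) ^ 2 * stiff l b * (u ^ 2 + w ^ 2)) +
      (1 + 1 / η) * (2 * b * (l : ℝ) ^ 2 * ε ^ 2)) / 2 +
      t ^ 4 * Real.exp (2 * b * (l : ℝ) ^ 2 * (Real.cosh δ - 1))) := by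
  have hcard : ((blk p l).card : ℝ) = (l : ℝ) ^ 2 := by rw [card_blk]; push_cast; rfl
  -- the sharp bound
  have e1 : (fun e : KR (blk p l) => y e.1 e.2) =
      t • (fun e : KR (blk p l) => t⁻¹ * y e.1 e.2) := by
    funext e
    rw [Pi.smul_apply, smul_eq_mul, mul_inv_cancel_left₀ ht0.ne']
  have h1 := rho_sharp muInf (fun _ : KR (blk p l) => b / 2) (chiR (blk p l))
    (half_nonneg' hb _) (fun e : KR (blk p l) => t⁻¹ * y e.1 e.2) ht0.le ht1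
  rw [← H950.Qform_smul, ← e1] at h1
  -- the quadratic form
  have e2 : (fun e : KR (blk p l) => y e.1 e.2) =
      (fun e : KR (blk p l) => cst u w e.1 e.2.1) +
      (fun e : KR (blk p l) => y e.1 e.2 - cst u w e.1 e.2.1) := by
    funext e
    rw [Pi.add_apply]
    ring
  have h2 := Qform_add_le muInf (fun _ : KR (blk p l) => b / 2) (chiR (blk p l)) G_div2
    (half_nonneg' hb _) (fun e : KR (blk p l) => cst u w e.1 e.2.1)
    (fun e : KR (blk p l) => y e.1 e.2 - cst u w e.1 e.2.1) hη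
  rw [← e2] at h2
  have h3 : Qform muInf (fun _ : KR (blk p l) => b / 2) (chiR (blk p l))
      (fun e : KR (blk p l) => cst u w e.1 e.2.1) = (l : ℝ) ^ 2 * stiff l b * (u ^ 2 + w ^ 2) :=
    qR_const b p l hl u w
  have h4 : Qform muInf (fun _ : KR (blk p l) => b / 2) (chiR (blk p l))
      (fun e : KR (blk p l) => y e.1 e.2 - cst u w e.1 e.2.1) ≤ 2 * b * (l : ℝ) ^ 2 * ε ^ 2 := by
    refine (Qform_le muInf _ _ (half_nonneg' hb _) _).trans ?_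
    have h5 : ∀ e : KR (blk p l), b / 2 * (y e.1 e.2 - cst u w e.1 e.2.1) ^ 2 ≤
        b / 2 * ε ^ 2 := by
      intro e
      have h6 := pow_le_pow_left₀ (abs_nonneg _) (hrem e.1 e.1.2 e.2) 2
      rw [sq_abs] at h6
      exact mul_le_mul_of_nonneg_left h6 (by linarith)
    refine (Finset.sum_le_sum fun e _ => h5 e).trans (le_of_eq ?_)
    rw [Finset.sum_const, Finset.card_univ, nsmul_eq_mul, card_KR, hcard]
    ring
  -- the trivial bound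
  have h7 : rho muInf (fun _ : KR (blk p l) => b / 2) (chiR (blk p l))
      (fun e : KR (blk p l) => t⁻¹ * y e.1 e.2) ≤
      Real.exp (2 * b * (l : ℝ) ^ 2 * (Real.cosh δ - 1)) := by
    have := rG_trivial hb (blk p l) (fun c s => t⁻¹ * y c s) (δ := δ) (fun c hc s => by
      rw [abs_mul, abs_inv, abs_of_pos ht0, inv_mul_le_iff₀ ht0]
      exact hy c hc s)
    rw [hcard] at this
    exact this
  have h8 : rG b (blk p l) y ≤ 1 + (((1 + η) * ((l : ℝ) ^ 2 * stiff l b * (u ^ 2 + w ^ 2)) +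
      (1 + 1 / η) * (2 * b * (l : ℝ) ^ 2 * ε ^ 2)) / 2 +
      t ^ 4 * Real.exp (2 * b * (l : ℝ) ^ 2 * (Real.cosh δ - 1))) := by
    have h9 : (1 + 1 / η) * Qform muInf (fun _ : KR (blk p l) => b / 2) (chiR (blk p l))
      (fun e : KR (blk p l) => y e.1 e.2 - cst u w e.1 e.2.1) ≤
      (1 + 1 / η) * (2 * b * (l : ℝ) ^ 2 * ε ^ 2) :=
      mul_le_mul_of_nonneg_left h4 (by positivity)
    have h10 := mul_le_mul_of_nonneg_left h7 (by positivity : 0 ≤ t ^ 4)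
    rw [h3] at h2
    unfold rG
    linarith
  refine h8.trans ?_
  rw [add_comm (1 : ℝ)]
  exact Real.add_one_le_exp _

/-- cost of a dyadic tile -/
theorem rG_tile2 {b : ℝ} (hb : 0 ≤ b) (p : ℤ × ℤ) (m k : ℕ) (y : ℤ × ℤ → HT → ℝ)
    (u w : ℝ) {A : ℝ} (hA : 0 ≤ A)
    (hrem : ∀ c ∈ blk p (2 ^ m), ∀ s : HT, |y c s - cst u w c s.1| ≤ A * 2 ^ m / 4 ^ (m + k))
    (hy : ∀ c ∈ blk p (2 ^ m), ∀ s, |y c s| ≤ A / 2 ^ (m + k)) :
    rG b (blk p (2 ^ m)) y ≤ Real.exp ((1 + 1 / 2 ^ k) / 2 *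
      (4 ^ m * stiff (2 ^ m) b * (u ^ 2 + w ^ 2)) +
      (2 * b * A ^ 2 + Real.exp (2 * b * (Real.cosh A - 1))) / 8 ^ k) := by
  have hk : (0 : ℝ) < 2 ^ k := by positivity
  have hm : (0 : ℝ) < 2 ^ m := by positivity
  have hk1 : (1 : ℝ) ≤ 2 ^ k := one_le_pow₀ (by norm_num)
  have hm1 : (1 : ℝ) ≤ 2 ^ m := one_le_pow₀ (by norm_num)
  have h := rG_tile hb p (2 ^ m) Nat.one_le_two_pow y u w (t := 1 / 2 ^ k) (η := 1 / 2 ^ k)
    (ε := A * 2 ^ m / 4 ^ (m + k)) (δ := (1 / 2 ^ m) * A) (by positivity)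
    (by rw [div_le_one hk]; exact hk1) (by positivity) hrem (fun c hc s => by
      refine (hy c hc s).trans (le_of_eq ?_)
      rw [pow_add]
      field_simp)
  refine h.trans (Real.exp_le_exp.2 ?_)
  push_cast
  have e4 : ((2 : ℝ) ^ m) ^ 2 = 4 ^ m := by rw [← pow_mul, mul_comm, pow_mul]; norm_num
  have e5 : ((2 : ℝ) ^ k) ^ 2 = 4 ^ k := by rw [← pow_mul, mul_comm, pow_mul]; norm_num
  have e6 : ((2 : ℝ) ^ k) ^ 3 = 8 ^ k := by rw [← pow_mul, mul_comm, pow_mul]; norm_num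
  have h1 : (1 + 1 / (1 / 2 ^ k)) * (2 * b * ((2 : ℝ) ^ m) ^ 2 * (A * 2 ^ m / 4 ^ (m + k)) ^ 2) / 2 ≤
      2 * b * A ^ 2 / 8 ^ k := by
    have e7 : (1 + 1 / (1 / 2 ^ k)) * (2 * b * ((2 : ℝ) ^ m) ^ 2 *
        (A * 2 ^ m / 4 ^ (m + k)) ^ 2) / 2 = (1 + 2 ^ k) * (b * A ^ 2) / (2 ^ k) ^ 4 := by
      rw [one_div_one_div, pow_add, ← e4, ← e5]
      field_simp
    rw [e7, ← e6, div_le_div_iff₀ (by positivity) (by positivity)]
    have h2 : 0 ≤ b * A ^ 2 * (2 ^ k) ^ 3 := by positivity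
    nlinarith only [mul_nonneg h2 (sub_nonneg.2 hk1)]
  have h2 : (1 / 2 ^ k) ^ 4 * Real.exp (2 * b * ((2 : ℝ) ^ m) ^ 2 *
      (Real.cosh (1 / 2 ^ m * A) - 1)) ≤ Real.exp (2 * b * (Real.cosh A - 1)) / 8 ^ k := by
    have h3 := cosh_scale (s := 1 / 2 ^ m) (by positivity)
      (by rw [div_le_one hm]; exact hm1) A
    have h4 : 2 * b * ((2 : ℝ) ^ m) ^ 2 * (Real.cosh (1 / 2 ^ m * A) - 1) ≤
        2 * b * (Real.cosh A - 1) := by
      calc 2 * b * ((2 : ℝ) ^ m) ^ 2 * (Real.cosh (1 / 2 ^ m * A) - 1)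
          ≤ 2 * b * ((2 : ℝ) ^ m) ^ 2 * ((1 / 2 ^ m) ^ 2 * (Real.cosh A - 1)) :=
            mul_le_mul_of_nonneg_left h3 (by positivity)
        _ = 2 * b * (Real.cosh A - 1) := by field_simp
    have h5 := Real.exp_le_exp.2 h4
    rw [div_pow, one_pow, ← e6, one_div_mul_eq_div]
    refine div_le_div₀ (Real.exp_pos _).le h5 (by positivity) ?_
    exact pow_le_pow_right₀ hk1 (by norm_num)
  have e8 : ((1 + 1 / 2 ^ k) * ((2 ^ m) ^ 2 * stiff (2 ^ m) b * (u ^ 2 + w ^ 2)) +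
      (1 + 1 / (1 / 2 ^ k)) * (2 * b * ((2 : ℝ) ^ m) ^ 2 * (A * 2 ^ m / 4 ^ (m + k)) ^ 2)) / 2 =
      (1 + 1 / 2 ^ k) / 2 * (4 ^ m * stiff (2 ^ m) b * (u ^ 2 + w ^ 2)) +
      (1 + 1 / (1 / 2 ^ k)) * (2 * b * ((2 : ℝ) ^ m) ^ 2 * (A * 2 ^ m / 4 ^ (m + k)) ^ 2) / 2 := by
    rw [← e4]; ring
  rw [e8, add_div (2 * b * A ^ 2), add_assoc]
  linarith

end Vale.Agent.P159.H191
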