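import Vale.Agent.P159.H191.Level

/-!
P159, H191: charges (1,1) in the wired block.
-/

set_option linter.all false
set_option autoImplicit false

open MeasureTheory Filter Topology
open scoped BigOperators

namespace Vale.Agent.P159.H191

open Vale.Agent.P159 Vale.Agent.P159.UJ Vale.Agent.P159.H950 Vale.Agent.P159.XY

theorem tile_eq (kk : ℕ → ℕ) (z r0 : ℤ × ℤ) (T : Finset (ℤ × ℤ))
    (hT : ∀ c, c ∈ T ↔ tid kk (c - z) = tid kk r0) :
    T = blk (z + tb kk r0) (2 ^ (lv r0 - kk (lv r0))) := by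
  ext c
  rw [hT, tid_iff, mem_blk, mem_blk]
  simp only [Prod.fst_sub, Prod.snd_sub, Prod.fst_add, Prod.snd_add]
  constructor <;> rintro ⟨h1, h2, h3, h4⟩ <;> refine ⟨?_, ?_, ?_, ?_⟩ <;> linarith

/-- a tile on which the field is the gradient of the logarithm -/
theorem tile_log {b : ℝ} (hb : 0 ≤ b) (kk : ℕ → ℕ) (hkk : ∀ j, kk j ≤ j) (n : ℕ)
    (α : ℝ) (z r0 : ℤ × ℤ) (T : Finset (ℤ × ℤ))
    (hT : ∀ c, c ∈ T ↔ tid kk (c - z) = tid kk r0) (y : ℤ × ℤ → HT → ℝ)
    (hy' : ∀ c ∈ T, ∀ t, y c t = α * (Fz (hv (c - z) t) - Fz (hu (c - z) t))) :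
    rG b T y ≤ Real.exp (∑ c ∈ T, wt b α kk n (c - z)) := by
  obtain ⟨k, hk⟩ : ∃ k, kk (lv r0) = k := ⟨_, rfl⟩
  obtain ⟨m, hm⟩ : ∃ m, lv r0 - kk (lv r0) = m := ⟨_, rfl⟩
  have hmk : m + k = lv r0 := by have := hkk (lv r0); omega
  have hTb : T = blk (z + tb kk r0) (2 ^ m) := by
    rw [← hm]
    exact tile_eq kk z r0 T hT
  have hlv : ∀ c ∈ T, lv (c - z) = lv r0 := fun c hc => congrArg Prod.fst ((hT c).1 hc)
  have hcard : (T.card : ℝ) = 4 ^ m := by
    rw [hTb, card_blk]
    push_cast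
    rw [← pow_mul, mul_comm, pow_mul]
    norm_num
  have hwt : ∀ c ∈ T, wt b α kk n (c - z) = (1 + 1 / 2 ^ k) / 2 *
      (stiff (2 ^ m) b * (α ^ 2 * (1 / qq 1 (c - z)))) +
      KT b α / (2 ^ k * 4 ^ (m + k)) + 8 * b * (Real.cosh |α| - 1) / 4 ^ n := by
    intro c hc
    unfold wt
    rw [hlv c hc, hk, ← hmk, Nat.add_sub_cancel]
  have hS : ∑ c ∈ T, wt b α kk n (c - z) = (1 + 1 / 2 ^ k) / 2 * (stiff (2 ^ m) b *
      (α ^ 2 * ∑ c ∈ T, 1 / qq 1 (c - z))) + 4 ^ m * (KT b α / (2 ^ k * 4 ^ (m + k))) +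
      4 ^ m * (8 * b * (Real.cosh |α| - 1) / 4 ^ n) := by
    rw [Finset.sum_congr rfl hwt, Finset.sum_add_distrib, Finset.sum_add_distrib,
      Finset.sum_const, Finset.sum_const, nsmul_eq_mul, nsmul_eq_mul, hcard, ← Finset.mul_sum,
      ← Finset.mul_sum, ← Finset.mul_sum]
  have hst := stiff2_nonneg hb m
  have hK := KT_nonneg hb α
  have hch : 0 ≤ Real.cosh |α| - 1 := by linarith [Real.one_le_cosh |α|]
  have hq : 0 ≤ ∑ c ∈ T, 1 / qq 1 (c - z) :=
    Finset.sum_nonneg fun c _ => (by have := qq_pos (c - z); positivity)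
  have hp3 : 0 ≤ (4 : ℝ) ^ m * (8 * b * (Real.cosh |α| - 1) / 4 ^ n) := by positivity
  have hTne : T.Nonempty := by
    refine ⟨r0 + z, (hT _).2 ?_⟩
    rw [add_sub_cancel_right]
  obtain ⟨c1, hc1, hmin⟩ := Finset.exists_min_image T (fun c => 1 / qq 1 (c - z)) hTne
  have hdist : ∀ c ∈ T, ((c - z).1 : ℝ) - (c1 - z).1 ≤ 2 ^ m - 1 ∧
      ((c - z).2 : ℝ) - (c1 - z).2 ≤ 2 ^ m - 1 ∧
      ((c1 - z).1 : ℝ) - (c - z).1 ≤ 2 ^ m - 1 ∧
      ((c1 - z).2 : ℝ) - (c - z).2 ≤ 2 ^ m - 1 := by
    intro c hc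
    have h1 := hc
    have h2 := hc1
    rw [hTb, mem_blk, two_pow_cast] at h1 h2
    obtain ⟨a1, a2, a3, a4⟩ := h1
    obtain ⟨b1, b2, b3, b4⟩ := h2
    simp only [Prod.fst_sub, Prod.snd_sub]
    refine ⟨?_, ?_, ?_, ?_⟩
    · have : c.1 - z.1 - (c1.1 - z.1) ≤ 2 ^ m - 1 := by omega
      exact_mod_cast this
    · have : c.2 - z.2 - (c1.2 - z.2) ≤ 2 ^ m - 1 := by omega
      exact_mod_cast this
    · have : c1.1 - z.1 - (c.1 - z.1) ≤ 2 ^ m - 1 := by omega
      exact_mod_cast this
    · have : c1.2 - z.2 - (c.2 - z.2) ≤ 2 ^ m - 1 := by omega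
      exact_mod_cast this
  have h := rG_tile2 hb (z + tb kk r0) m k y (α * g1 (c1 - z)) (α * g2 (c1 - z))
    (A := 5 * |α|) (by positivity)
    (by
      rw [← hTb]
      intro c hc s
      obtain ⟨d1, d2, d3, d4⟩ := hdist c hc
      have h1 := bond_diff (c - z) (c1 - z) s d1 d3 d2 d4
        ((hlv c hc).trans (hlv c1 hc1).symm)
      rw [hlv c hc, ← hmk] at h1
      have e1 : y c s - cst (α * g1 (c1 - z)) (α * g2 (c1 - z)) c s.1 =
          α * ((Fz (hv (c - z) s) - Fz (hu (c - z) s)) -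
            cst (g1 (c1 - z)) (g2 (c1 - z)) (c - z) s.1) := by
        rw [hy' c hc s]
        unfold cst
        split_ifs <;> ring
      rw [e1, abs_mul]
      calc |α| * _ ≤ |α| * (5 * 2 ^ m / 4 ^ (m + k)) :=
            mul_le_mul_of_nonneg_left h1 (abs_nonneg _)
        _ = 5 * |α| * 2 ^ m / 4 ^ (m + k) := by ring)
    (by
      rw [← hTb]
      intro c hc s
      have h1 := bond_abs (c - z) s
      rw [hlv c hc, ← hmk] at h1
      rw [hy' c hc s, abs_mul]
      calc |α| * _ ≤ |α| * (1 / 2 ^ (m + k)) := mul_le_mul_of_nonneg_left h1 (abs_nonneg _)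
        _ = |α| / 2 ^ (m + k) := by ring
        _ ≤ 5 * |α| / 2 ^ (m + k) := by
          apply div_le_div_of_nonneg_right _ (by positivity)
          linarith [abs_nonneg α])
  rw [← hTb] at h
  refine h.trans (Real.exp_le_exp.2 ?_)
  rw [hS]
  have e1 : (4 : ℝ) ^ m * stiff (2 ^ m) b * ((α * g1 (c1 - z)) ^ 2 + (α * g2 (c1 - z)) ^ 2) ≤
      stiff (2 ^ m) b * (α ^ 2 * ∑ c ∈ T, 1 / qq 1 (c - z)) := by
    have e2 : (4 : ℝ) ^ m * (1 / qq 1 (c1 - z)) ≤ ∑ c ∈ T, 1 / qq 1 (c - z) := by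
      rw [← hcard, ← nsmul_eq_mul]
      exact Finset.card_nsmul_le_sum _ _ _ hmin
    have e3 := g_sq (c1 - z)
    calc (4 : ℝ) ^ m * stiff (2 ^ m) b * ((α * g1 (c1 - z)) ^ 2 + (α * g2 (c1 - z)) ^ 2)
        = stiff (2 ^ m) b * (α ^ 2 * (4 ^ m * (g1 (c1 - z) ^ 2 + g2 (c1 - z) ^ 2))) := by ring
      _ ≤ stiff (2 ^ m) b * (α ^ 2 * (4 ^ m * (1 / qq 1 (c1 - z)))) := by gcongr
      _ ≤ _ := by gcongr
  have e2 : (2 * b * (5 * |α|) ^ 2 + Real.exp (2 * b * (Real.cosh (5 * |α|) - 1))) / 8 ^ k =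
      4 ^ m * (KT b α / (2 ^ k * 4 ^ (m + k))) := by
    unfold KT
    have e3 : (8 : ℝ) ^ k = 2 ^ k * 4 ^ k := by rw [← mul_pow]; norm_num
    rw [e3, pow_add]
    field_simp
  rw [e2]
  have e4 := mul_le_mul_of_nonneg_left e1 (by positivity : (0:ℝ) ≤ (1 + 1 / 2 ^ k) / 2)
  linarith

/-- a set of cells of one level on which the field is small -/
theorem tile_triv {b : ℝ} (hb : 0 ≤ b) (j : ℕ) (α : ℝ) (z : ℤ × ℤ) (T : Finset (ℤ × ℤ))
    (y : ℤ × ℤ → HT → ℝ) (hy : ∀ c ∈ T, ∀ t, |y c t| ≤ |α| / 2 ^ j) :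
    rG b T y ≤ Real.exp (∑ c ∈ T, 2 * b * (Real.cosh |α| - 1) / 4 ^ j) := by
  have h := rG_trivial hb T y (δ := 1 / 2 ^ j * |α|) (by
    intro c hc t
    refine (hy c hc t).trans (le_of_eq ?_)
    ring)
  refine h.trans (Real.exp_le_exp.2 ?_)
  rw [Finset.sum_const, nsmul_eq_mul]
  have e1 := cosh_scale (s := 1 / 2 ^ j) (by positivity)
    (by rw [div_le_one (by positivity)]; exact one_le_pow₀ (by norm_num)) |α|
  have e2 : (1 / (2 : ℝ) ^ j) ^ 2 = 1 / 4 ^ j := by
    rw [div_pow, one_pow, ← pow_mul, mul_comm j 2, pow_mul]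
    norm_num
  rw [e2] at e1
  have hc : (0 : ℝ) ≤ T.card := Nat.cast_nonneg _
  calc 2 * b * (T.card : ℝ) * (Real.cosh (1 / 2 ^ j * |α|) - 1)
      ≤ 2 * b * (T.card : ℝ) * (1 / 4 ^ j * (Real.cosh |α| - 1)) :=
        mul_le_mul_of_nonneg_left e1 (by positivity)
    _ = _ := by ring

/-- profile constant inside and logarithmic outside -/
noncomputable def Qn (a m : ℕ) (v : ℤ × ℤ) : ℝ := min (((m : ℝ) - a) * Real.log 2) (Ph m v)

theorem FF_mono_le {n : ℕ} {v : ℤ × ℤ} (h1 : -(2 : ℤ) ^ n ≤ v.1) (h2 : v.1 ≤ 2 ^ n)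
    (h3 : -(2 : ℤ) ^ n ≤ v.2) (h4 : v.2 ≤ 2 ^ n) : Fz v ≤ ((n + 1 : ℕ) : ℝ) * Real.log 2 := by
  unfold Fz FF
  have e1 : (v.1 : ℝ) ^ 2 ≤ (2 ^ n) ^ 2 := by
    have h6 : -(2 : ℝ) ^ n ≤ v.1 := by exact_mod_cast h1
    have h7 : (v.1 : ℝ) ≤ 2 ^ n := by exact_mod_cast h2
    exact sq_le_sq' h6 h7
  have e2 : (v.2 : ℝ) ^ 2 ≤ (2 ^ n) ^ 2 := by
    have h6 : -(2 : ℝ) ^ n ≤ v.2 := by exact_mod_cast h3
    have h7 : (v.2 : ℝ) ≤ 2 ^ n := by exact_mod_cast h4
    exact sq_le_sq' h6 h7
  have e3 : (1 : ℝ) ≤ (2 ^ n) ^ 2 := by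
    have : (1 : ℝ) ≤ 2 ^ n := one_le_pow₀ (by norm_num)
    nlinarith only [this]
  have e4 : ((2 : ℝ) ^ (n + 1)) ^ 2 = 4 * (2 ^ n) ^ 2 := by
    rw [pow_succ]; ring
  have e5 : 1 + (v.1 : ℝ) ^ 2 + (v.2 : ℝ) ^ 2 ≤ (2 ^ (n + 1)) ^ 2 := by
    rw [e4]; linarith
  have e6 := Real.log_le_log (by positivity) e5
  rw [Real.log_pow, Real.log_pow] at e6
  push_cast at e6 ⊢
  linarith

theorem Fz_ge {n : ℕ} {v : ℤ × ℤ} (h : (v.1 ≤ -2 ^ n ∨ (2 : ℤ) ^ n ≤ v.1) ∨
    (v.2 ≤ -2 ^ n ∨ (2 : ℤ) ^ n ≤ v.2)) : (n : ℝ) * Real.log 2 ≤ Fz v := by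
  unfold Fz FF
  have hr : (0 : ℝ) < 2 ^ n := by positivity
  have e5 : ((2 : ℝ) ^ n) ^ 2 ≤ 1 + (v.1 : ℝ) ^ 2 + (v.2 : ℝ) ^ 2 := by
    rcases h with (h | h) | (h | h)
    · have h6 : (v.1 : ℝ) ≤ -2 ^ n := by exact_mod_cast h
      nlinarith only [h6, hr, sq_nonneg (v.2 : ℝ)]
    · have h6 : (2 : ℝ) ^ n ≤ v.1 := by exact_mod_cast h
      nlinarith only [h6, hr, sq_nonneg (v.2 : ℝ)]
    · have h6 : (v.2 : ℝ) ≤ -2 ^ n := by exact_mod_cast h
      nlinarith only [h6, hr, sq_nonneg (v.1 : ℝ)]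
    · have h6 : (2 : ℝ) ^ n ≤ v.2 := by exact_mod_cast h
      nlinarith only [h6, hr, sq_nonneg (v.1 : ℝ)]
  have e6 := Real.log_le_log (by positivity) e5
  rw [Real.log_pow, Real.log_pow] at e6
  push_cast at e6
  linarith

/-- inside: constant -/
theorem Qn_in {a m : ℕ} (ha : 1 ≤ a) (ham : a ≤ m) {v : ℤ × ℤ} (h1 : -(2 : ℤ) ^ (a - 1) ≤ v.1)
    (h2 : v.1 ≤ 2 ^ (a - 1)) (h3 : -(2 : ℤ) ^ (a - 1) ≤ v.2) (h4 : v.2 ≤ 2 ^ (a - 1)) :
    Qn a m v = ((m : ℝ) - a) * Real.log 2 := by
  have h := FF_mono_le h1 h2 h3 h4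
  rw [Nat.sub_add_cancel ha] at h
  unfold Qn Ph
  have h5 : (a : ℝ) ≤ m := by exact_mod_cast ham
  have h6 : 0 < Real.log 2 := Real.log_pos (by norm_num)
  rw [min_eq_left]
  exact le_max_of_le_right (by linarith)

/-- outside: zero -/
theorem Qn_out {a m : ℕ} (ham : a ≤ m) {v : ℤ × ℤ}
    (h : (v.1 ≤ -2 ^ m ∨ (2 : ℤ) ^ m ≤ v.1) ∨ (v.2 ≤ -2 ^ m ∨ (2 : ℤ) ^ m ≤ v.2)) :
    Qn a m v = 0 := by
  unfold Qn
  rw [Ph_zero h, min_eq_right]
  have h5 : (a : ℝ) ≤ m := by exact_mod_cast ham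
  have h6 : 0 < Real.log 2 := Real.log_pos (by norm_num)
  exact mul_nonneg (by linarith) h6.le

/-- middle: the logarithm -/
theorem Qn_mid {a m : ℕ} (ham : a ≤ m) (hm : 1 ≤ m) {v : ℤ × ℤ} (h1 : -(2 : ℤ) ^ (m - 1) ≤ v.1)
    (h2 : v.1 ≤ 2 ^ (m - 1)) (h3 : -(2 : ℤ) ^ (m - 1) ≤ v.2) (h4 : v.2 ≤ 2 ^ (m - 1))
    (h : (v.1 ≤ -2 ^ a ∨ (2 : ℤ) ^ a ≤ v.1) ∨ (v.2 ≤ -2 ^ a ∨ (2 : ℤ) ^ a ≤ v.2)) :
    Qn a m v = (m : ℝ) * Real.log 2 - Fz v := by
  have h5 := FF_mono_le h1 h2 h3 h4
  rw [Nat.sub_add_cancel hm] at h5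
  have h6 := Fz_ge h
  unfold Qn Ph
  rw [max_eq_right (by linarith), min_eq_right (by linarith)]

/-- one-Lipschitz in the logarithm -/
theorem Qn_lip (a m : ℕ) (u v : ℤ × ℤ) : |Qn a m u - Qn a m v| ≤ |Fz v - Fz u| := by
  unfold Qn Ph
  have h1 : |min (((m : ℝ) - a) * Real.log 2) (max 0 (m * Real.log 2 - Fz u)) -
      min (((m : ℝ) - a) * Real.log 2) (max 0 (m * Real.log 2 - Fz v))| ≤
      |max 0 (m * Real.log 2 - Fz u) - max 0 (m * Real.log 2 - Fz v)| := by
    have := abs_min_sub_min_le_max (((m : ℝ) - a) * Real.log 2) (max 0 (m * Real.log 2 - Fz u))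
      (((m : ℝ) - a) * Real.log 2) (max 0 (m * Real.log 2 - Fz v))
    rw [sub_self, abs_zero] at this
    exact this.trans (le_of_eq (max_eq_right (abs_nonneg _)))
  refine h1.trans ?_
  rw [max_comm 0, max_comm 0]
  refine (abs_max_sub_max_le_abs _ _ _).trans (le_of_eq ?_)
  congr 1
  ring

/-- constant of the trivial weight -/
noncomputable def KC (b α : ℝ) : ℝ := 2 * b * (Real.cosh |2 * α| - 1)

/-- weight in the annulus -/
noncomputable def w3 (b α : ℝ) (kk : ℕ → ℕ) (a m : ℕ) (c : ℤ × ℤ) : ℝ :=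
  wt b (2 * α) kk m c + (if lv c = a - 1 then KC b α / 4 ^ (a - 1) else 0)

theorem KC_nonneg {b : ℝ} (hb : 0 ≤ b) (α : ℝ) : 0 ≤ KC b α := by
  unfold KC
  have h3 : 0 ≤ Real.cosh |2 * α| - 1 := by linarith [Real.one_le_cosh |2 * α|]
  positivity

theorem w3_nonneg {b : ℝ} (hb : 0 ≤ b) (α : ℝ) (kk : ℕ → ℕ) (a m : ℕ) (c : ℤ × ℤ) :
    0 ≤ w3 b α kk a m c := by
  unfold w3
  have h1 := wt_nonneg hb (2 * α) kk m c
  have h2 := KC_nonneg hb α
  split_ifs
  · positivity
  · linarith

theorem wt_bound {b : ℝ} (hb : 0 ≤ b) (α : ℝ) (kk : ℕ → ℕ) (n : ℕ) (c : ℤ × ℤ) :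
    wt b α kk n c ≤ α ^ 2 / 2 * (stiff (2 ^ (lv c - kk (lv c))) b * (1 / qq 1 c)) +
      (α ^ 2 * b / 2 + KT b α) * (1 / (2 ^ (kk (lv c)) * 4 ^ (lv c))) +
      8 * b * (Real.cosh |α| - 1) / 4 ^ n := by
  have hK := KT_nonneg hb α
  unfold wt
  have e1 : 1 / qq 1 c ≤ 1 / 4 ^ (lv c) := by
    refine one_div_le_one_div_of_le (by positivity) ?_
    have := far_lv c (le_refl (c.1 : ℝ)) (by linarith) (le_refl (c.2 : ℝ)) (by linarith)
    unfold qq
    rw [one_pow]
    refine le_trans (le_of_eq ?_) this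
    rw [← pow_mul, mul_comm, pow_mul]
    norm_num
  have e2 := stiff2_le hb (lv c - kk (lv c))
  have e3 := stiff2_nonneg hb (lv c - kk (lv c))
  have e4 : 0 < 1 / qq 1 c := by have := qq_pos c; positivity
  have e5 : stiff (2 ^ (lv c - kk (lv c))) b * (α ^ 2 * (1 / qq 1 c)) ≤
      b * (α ^ 2 * (1 / 4 ^ (lv c))) := by
    refine mul_le_mul e2 ?_ (by positivity) hb
    exact mul_le_mul_of_nonneg_left e1 (by positivity)
  have e6 : (1 : ℝ) / 2 ^ (kk (lv c)) / 2 * (stiff (2 ^ (lv c - kk (lv c))) b *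
      (α ^ 2 * (1 / qq 1 c))) ≤ 1 / 2 ^ (kk (lv c)) / 2 * (b * (α ^ 2 * (1 / 4 ^ (lv c)))) :=
    mul_le_mul_of_nonneg_left e5 (by positivity)
  have e7 : (1 : ℝ) / 2 ^ (kk (lv c)) / 2 * (b * (α ^ 2 * (1 / 4 ^ (lv c)))) =
      (α ^ 2 * b / 2) * (1 / (2 ^ (kk (lv c)) * 4 ^ (lv c))) := by
    field_simp
  have e8 : (1 + 1 / 2 ^ (kk (lv c))) / 2 * (stiff (2 ^ (lv c - kk (lv c))) b *
      (α ^ 2 * (1 / qq 1 c))) = α ^ 2 / 2 *
    (stiff (2 ^ (lv c - kk (lv c))) b * (1 / qq 1 c)) +
    1 / 2 ^ (kk (lv c)) / 2 * (stiff (2 ^ (lv c - kk (lv c))) b *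
      (α ^ 2 * (1 / qq 1 c))) := by ring
  have e9 : KT b α / (2 ^ (kk (lv c)) * 4 ^ (lv c)) =
      KT b α * (1 / (2 ^ (kk (lv c)) * 4 ^ (lv c))) := by ring
  rw [e8, e9, add_mul (α ^ 2 * b / 2)]
  linarith

theorem lv_SD {j : ℕ} (hj : 1 ≤ j) {c : ℤ × ℤ} (hc : c ∈ SD j) : lv c = j := by
  rw [mem_SD] at hc
  have h1 := lv_lt.2 hc.1
  have h2 := hc.2
  rw [← lv_lt_of_qc hj] at h2
  omega

/-- sum of the weights of the annulus -/
theorem ann_sum {b : ℝ} (hb : 0 ≤ b) (α : ℝ) (kk : ℕ → ℕ)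
    (hsum : Summable fun j => (1 : ℝ) / 2 ^ (kk j)) {a m : ℕ} (ha : 2 ≤ a) (ham : a ≤ m) :
    ∑ c ∈ DD m \ DD (a - 1), w3 b α kk a m c ≤
      4 * Real.pi * α ^ 2 * Real.log 2 * ∑ j ∈ Finset.Ico (a - 1) m, stiff (2 ^ (j - kk j)) b +
      (672 * b * α ^ 2 + 16 * (2 * α ^ 2 * b + KT b (2 * α)) * ∑' j, (1 : ℝ) / 2 ^ (kk j) +
        32 * KC b α) := by
  have hK := KT_nonneg hb (2 * α)
  have hKC := KC_nonneg hb α
  rw [sum_annulus _ (by omega : a - 1 ≤ m)]
  -- one level
  have h1 : ∀ j ∈ Finset.Ico (a - 1) m, ∑ c ∈ SD j, w3 b α kk a m c ≤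
      4 * Real.pi * α ^ 2 * Real.log 2 * stiff (2 ^ (j - kk j)) b +
      2 * α ^ 2 * b * (168 * (1 / 2 ^ j)) +
      16 * (2 * α ^ 2 * b + KT b (2 * α)) * (1 / 2 ^ (kk j)) +
      ((SD j).card : ℝ) * (4 * KC b α / 4 ^ m) +
      (if j = a - 1 then 16 * KC b α else 0) := by
    intro j hj
    have hj1 : 1 ≤ j := by
      have := (Finset.mem_Ico.1 hj).1
      omega
    have h2 : ∀ c ∈ SD j, w3 b α kk a m c ≤
        2 * α ^ 2 * stiff (2 ^ (j - kk j)) b * (1 / qq 1 c) +
        ((2 * α ^ 2 * b + KT b (2 * α)) * (1 / (2 ^ (kk j) * 4 ^ j)) + 4 * KC b α / 4 ^ m +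
        (if j = a - 1 then KC b α / 4 ^ (a - 1) else 0)) := by
      intro c hc
      have h3 := wt_bound hb (2 * α) kk m c
      rw [lv_SD hj1 hc] at h3
      unfold w3
      rw [lv_SD hj1 hc]
      have e1 : (2 * α) ^ 2 / 2 * (stiff (2 ^ (j - kk j)) b * (1 / qq 1 c)) =
        2 * α ^ 2 * stiff (2 ^ (j - kk j)) b * (1 / qq 1 c) := by ring
      have e2 : (2 * α) ^ 2 * b / 2 = 2 * α ^ 2 * b := by ring
      have e3 : 8 * b * (Real.cosh |2 * α| - 1) / 4 ^ m = 4 * KC b α / 4 ^ m := by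
        unfold KC; ring
      rw [e1, e2, e3] at h3
      linarith
    refine (Finset.sum_le_sum h2).trans ?_
    rw [Finset.sum_add_distrib, ← Finset.mul_sum, Finset.sum_const, nsmul_eq_mul]
    have h4 := BB_le j
    unfold BB at h4
    have h5 := stiff2_nonneg hb (j - kk j)
    have h6 := stiff2_le hb (j - kk j)
    have h7 : 2 * α ^ 2 * stiff (2 ^ (j - kk j)) b * ∑ c ∈ SD j, 1 / qq 1 c ≤
        4 * Real.pi * α ^ 2 * Real.log 2 * stiff (2 ^ (j - kk j)) b +
        2 * α ^ 2 * b * (168 * (1 / 2 ^ j)) := by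
      calc _ ≤ 2 * α ^ 2 * stiff (2 ^ (j - kk j)) b * (2 * Real.pi * Real.log 2 + 168 / 2 ^ j) :=
            mul_le_mul_of_nonneg_left h4 (by positivity)
        _ = 4 * Real.pi * α ^ 2 * Real.log 2 * stiff (2 ^ (j - kk j)) b +
            2 * α ^ 2 * stiff (2 ^ (j - kk j)) b * (168 * (1 / 2 ^ j)) := by ring
        _ ≤ _ := by gcongr
    have h8 := card_SD_le j
    have h9 : ((SD j).card : ℝ) * ((2 * α ^ 2 * b + KT b (2 * α)) * (1 / (2 ^ (kk j) * 4 ^ j))) ≤
        16 * (2 * α ^ 2 * b + KT b (2 * α)) * (1 / 2 ^ (kk j)) := by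
      calc _ ≤ (16 * 4 ^ j) * ((2 * α ^ 2 * b + KT b (2 * α)) * (1 / (2 ^ (kk j) * 4 ^ j))) :=
            mul_le_mul_of_nonneg_right h8 (by positivity)
        _ = _ := by field_simp
    have h10 : ((SD j).card : ℝ) * (if j = a - 1 then KC b α / 4 ^ (a - 1) else 0) ≤
        (if j = a - 1 then 16 * KC b α else 0) := by
      split_ifs with h
      · subst h
        calc _ ≤ (16 * 4 ^ (a - 1)) * (KC b α / 4 ^ (a - 1)) :=
              mul_le_mul_of_nonneg_right h8 (by positivity)
          _ = _ := by field_simp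
      · simp
    rw [mul_add, mul_add]
    linarith
  refine (Finset.sum_le_sum h1).trans ?_
  rw [Finset.sum_add_distrib, Finset.sum_add_distrib, Finset.sum_add_distrib,
    Finset.sum_add_distrib, ← Finset.mul_sum, ← Finset.mul_sum, ← Finset.mul_sum,
    ← Finset.mul_sum, ← Finset.sum_mul]
  have g1 : ∑ j ∈ Finset.Ico (a - 1) m, (1 : ℝ) / 2 ^ j ≤ 2 := by
    have h2 : ∑ j ∈ Finset.Ico (a - 1) m, (1 : ℝ) / 2 ^ j ≤ ∑' j : ℕ, (1 : ℝ) / 2 ^ j := by
      refine Summable.sum_le_tsum _ (fun j _ => by positivity) ?_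
      have := summable_geometric_two
      simpa [one_div, inv_pow] using this
    have h3 : ∑' j : ℕ, (1 : ℝ) / 2 ^ j = 2 := by
      have := tsum_geometric_two
      simpa [one_div, inv_pow] using this
    linarith
  have g2 : ∑ j ∈ Finset.Ico (a - 1) m, (1 : ℝ) / 2 ^ (kk j) ≤ ∑' j, (1 : ℝ) / 2 ^ (kk j) :=
    hsum.sum_le_tsum _ fun j _ => by positivity
  have g3 : (∑ j ∈ Finset.Ico (a - 1) m, ((SD j).card : ℝ)) * (4 * KC b α / 4 ^ m) ≤
      16 * KC b α := by
    have h2 : ∑ j ∈ Finset.Ico (a - 1) m, ((SD j).card : ℝ) ≤ 4 * 4 ^ m := by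
      have h3 := sum_annulus (fun _ => (1 : ℝ)) (by omega : a - 1 ≤ m)
      simp only [Finset.sum_const, nsmul_eq_mul, mul_one] at h3
      rw [← h3, ← card_DD]
      exact_mod_cast Finset.card_le_card Finset.sdiff_subset
    calc _ ≤ (4 * 4 ^ m) * (4 * KC b α / 4 ^ m) := mul_le_mul_of_nonneg_right h2 (by positivity)
      _ = _ := by field_simp; ring
  have g4 : ∑ j ∈ Finset.Ico (a - 1) m, (if j = a - 1 then 16 * KC b α else 0) ≤
      16 * KC b α := by
    rw [Finset.sum_ite_eq' (Finset.Ico (a - 1) m) (a - 1) (fun _ => 16 * KC b α)]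
    split_ifs
    · exact le_refl _
    · positivity
  have g5 : 2 * α ^ 2 * b * (168 * ∑ j ∈ Finset.Ico (a - 1) m, (1 : ℝ) / 2 ^ j) ≤
      672 * b * α ^ 2 := by
    calc _ ≤ 2 * α ^ 2 * b * (168 * 2) := by gcongr
      _ = _ := by ring
  have g6 : 16 * (2 * α ^ 2 * b + KT b (2 * α)) * ∑ j ∈ Finset.Ico (a - 1) m, 1 / 2 ^ (kk j) ≤
      16 * (2 * α ^ 2 * b + KT b (2 * α)) * ∑' j, (1 : ℝ) / 2 ^ (kk j) :=
    mul_le_mul_of_nonneg_left g2 (by positivity)
  linarith

/-! ### the geometry -/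

/-- tile index: two discs and an annulus -/
def tau3 (kk : ℕ → ℕ) (n a m : ℕ) (p q c : ℤ × ℤ) : ℕ × ℕ × ℤ × ℤ :=
  if qc (c - p) < 2 ^ n then (0, tid kk (c - p)) else
  if qc (c - q) < 2 ^ n then (1, tid kk (c - q)) else
  if ¬ qc (c - p) < 2 ^ (a - 1) ∧ qc (c - p) < 2 ^ m then (2, tid kk (c - p)) else (3, 0, 0, 0)

/-- the profile -/
noncomputable def phi3 (α : ℝ) (n a m : ℕ) (p q v : ℤ × ℤ) : ℝ :=
  α * Ph n (v - p) + α * Ph n (v - q) + 2 * α * Qn a m (v - p)

theorem disj' {n : ℕ} {p q c : ℤ × ℤ} (hx : 2 ^ (n + 1) ≤ nm (q - p)) (h : qc (c - q) < 2 ^ n) :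
    ¬ qc (c - p) < 2 ^ n := by
  have e : c - q = (c - p) - (q - p) := by abel
  rw [e] at h
  exact disj hx h

theorem qin {n : ℕ} {p q c : ℤ × ℤ} (hx : nm (q - p) ≤ 2 ^ (n + 3)) (h : qc (c - q) < 2 ^ n) :
    qc (c - p) < 2 ^ (n + 4) := by
  rw [qc_lt, two_pow_cast] at h ⊢
  have h2 : (nm (q - p) : ℤ) ≤ 2 ^ (n + 3) := by exact_mod_cast hx
  have e3 : (2 : ℤ) ^ (n + 3) = 8 * 2 ^ n := by ring
  have e4 : (2 : ℤ) ^ (n + 4) = 16 * 2 ^ n := by ring
  rw [e3] at h2
  rw [e4]
  unfold nm at h2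
  simp only [Prod.fst_sub, Prod.snd_sub] at h h2 ⊢
  generalize (2 : ℤ) ^ n = r at h h2 ⊢
  omega

theorem two_charges {b : ℝ} (hb : 0 ≤ b) (α : ℝ) (kk : ℕ → ℕ) (hkk : ∀ j, kk j ≤ j)
    {n m : ℕ} (hn : 1 ≤ n) (hm : n + 6 ≤ m) {l : ℕ} {p q : ℤ × ℤ}
    (hpq1 : 2 ^ (n + 1) ≤ nm (q - p)) (hpq2 : nm (q - p) ≤ 2 ^ (n + 3))
    (h1 : 2 ^ m ≤ p.1) (h2 : p.1 + 2 ^ m ≤ l) (h3 : 2 ^ m ≤ p.2) (h4 : p.2 + 2 ^ m ≤ l) :
    |expect (blockEnergy l b) (fun θ => cosT (ext θ p + ext θ q))| ≤
      Real.exp (-(2 * α * n * Real.log 2 + 4 * α * ((m : ℝ) - (n + 5 : ℕ)) * Real.log 2) +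
        (2 * (∑ c ∈ DD n, wt b α kk n c) + ∑ c ∈ DD m \ DD (n + 4), w3 b α kk (n + 5) m c)) := by
  classical
  obtain ⟨a, ha⟩ : ∃ a, a = n + 5 := ⟨_, rfl⟩
  have ha1 : a - 1 = n + 4 := by omega
  have ham : a + 1 ≤ m := by omega
  rw [← ha, ← ha1]
  have hr : (0 : ℤ) < 2 ^ n := by positivity
  have hnm : (2 : ℤ) ^ (n + 5) ≤ 2 ^ m := pow_le_pow_right₀ (by norm_num) (by omega)
  have e5 : (2 : ℤ) ^ (n + 5) = 32 * 2 ^ n := by ring
  have e4 : (2 : ℤ) ^ (a - 1) = 16 * 2 ^ n := by rw [ha1]; ring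
  have hqp : (nm (q - p) : ℤ) ≤ 8 * 2 ^ n := by
    have : (nm (q - p) : ℤ) ≤ 2 ^ (n + 3) := by exact_mod_cast hpq2
    have e3 : (2 : ℤ) ^ (n + 3) = 8 * 2 ^ n := by ring
    rwa [e3] at this
  have hqp1 : 2 * 2 ^ n ≤ (nm (q - p) : ℤ) := by
    have : (2 : ℤ) ^ (n + 1) ≤ (nm (q - p) : ℤ) := by exact_mod_cast hpq1
    have e3 : (2 : ℤ) ^ (n + 1) = 2 * 2 ^ n := by ring
    rwa [e3] at this
  have hqm : ∀ c, qc (c - q) < 2 ^ n → qc (c - p) < 2 ^ m := by
    intro c hc
    exact (qin hpq2 hc).trans_le (Nat.pow_le_pow_right (by norm_num) (by omega))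
  have hin : ∀ c, qc (c - p) < 2 ^ m → c ∈ blk 0 l := by
    intro c hc
    rw [qc_lt, two_pow_cast] at hc
    rw [mem_blk]
    simp only [Prod.fst_sub, Prod.snd_sub] at hc
    simp only [Prod.fst_zero, Prod.snd_zero]
    omega
  have hnm' : ∀ c, qc (c - p) < 2 ^ n → qc (c - p) < 2 ^ m := fun c hc =>
    hc.trans_le (Nat.pow_le_pow_right (by norm_num) (by omega))
  have hφ : ∀ v, v ∉ inner l → phi3 α n a m p q v = 0 := by
    intro v hv
    simp only [inner, Finset.mem_Icc, Prod.le_def] at hv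
    unfold phi3
    have f1 : Ph n (v - p) = 0 := by
      apply Ph_zero
      simp only [Prod.fst_sub, Prod.snd_sub]
      omega
    have f2 : Ph n (v - q) = 0 := by
      apply Ph_zero
      unfold nm at hqp
      simp only [Prod.fst_sub, Prod.snd_sub] at hqp ⊢
      omega
    have f3 : Qn a m (v - p) = 0 := by
      apply Qn_out (by omega)
      simp only [Prod.fst_sub, Prod.snd_sub]
      omega
    rw [f1, f2, f3]
    ring
  have htp : ∀ k, p ∉ intR ((blk 0 l).filter fun c => tau3 kk n a m p q c = k) := by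
    intro k hk
    have h5 := (Finset.mem_filter.1 hk.1).2
    have h6 := (Finset.mem_filter.1 hk.2.2.2).2
    have h7 := h5.trans h6.symm
    have e0 : p - p = 0 := sub_self p
    have e1 : p - (1, 1) - p = 0 - (1, 1) := by abel
    unfold tau3 at h7
    rw [e0, e1, if_pos (qc_zero' n), if_pos (qc_neg_one n)] at h7
    exact tid_zero kk (Prod.ext_iff.1 h7).2
  have htq : ∀ k, q ∉ intR ((blk 0 l).filter fun c => tau3 kk n a m p q c = k) := by
    intro k hk
    have h5 := (Finset.mem_filter.1 hk.1).2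
    have h6 := (Finset.mem_filter.1 hk.2.2.2).2
    have h7 := h5.trans h6.symm
    have e0 : q - q = 0 := sub_self q
    have e1 : q - (1, 1) - q = 0 - (1, 1) := by abel
    have a0 : qc (q - q) < 2 ^ n := by rw [e0]; exact qc_zero' n
    have a1 : qc (q - (1, 1) - q) < 2 ^ n := by rw [e1]; exact qc_neg_one n
    unfold tau3 at h7
    rw [if_neg (disj' hpq1 a0), if_pos a0, if_neg (disj' hpq1 a1), if_pos a1, e0, e1] at h7
    exact tid_zero kk (Prod.ext_iff.1 h7).2
  have hyA : phi3 α n a m p q p + phi3 α n a m p q q =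
      2 * α * n * Real.log 2 + 4 * α * ((m : ℝ) - a) * Real.log 2 := by
    have f1 : Ph n (p - q) = 0 := by
      apply Ph_zero
      unfold nm at hqp1
      simp only [Prod.fst_sub, Prod.snd_sub] at hqp1 ⊢
      omega
    have f2 : Ph n (q - p) = 0 := by
      apply Ph_zero
      unfold nm at hqp1
      simp only [Prod.fst_sub, Prod.snd_sub] at hqp1 ⊢
      omega
    have f3 : Qn a m (p - p) = ((m : ℝ) - a) * Real.log 2 := by
      apply Qn_in (by omega) (by omega) <;> rw [sub_self] <;>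
        simp only [Prod.fst_zero, Prod.snd_zero] <;> omega
    have f4 : Qn a m (q - p) = ((m : ℝ) - a) * Real.log 2 := by
      unfold nm at hqp
      apply Qn_in (by omega) (by omega) <;>
        simp only [Prod.fst_sub, Prod.snd_sub] at hqp ⊢ <;> omega
    unfold phi3
    rw [f1, f2, f3, f4, sub_self, sub_self, Ph_origin]
    ring
  have h := wired_ms hb l ((blk 0 l).image (tau3 kk n a m p q)) (tau3 kk n a m p q)
    (fun c hc => Finset.mem_image_of_mem _ hc) (phi3 α n a m p q) hφ (two p q)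
    (fun k θ => by
      show cosT (proj _ θ p + proj _ θ q) = 1 ∧ sinT (proj _ θ p + proj _ θ q) = 0
      rw [proj_of_notMem (htp k), proj_of_notMem (htq k), add_zero, cosT_zero, sinT_zero]
      exact ⟨rfl, rfl⟩)
    (2 * α * n * Real.log 2 + 4 * α * ((m : ℝ) - a) * Real.log 2) (fun s => by
      show cosT (((s * phi3 α n a m p q p : ℝ) : T) + ((s * phi3 α n a m p q q : ℝ) : T)) = _ ∧
        sinT (((s * phi3 α n a m p q p : ℝ) : T) + ((s * phi3 α n a m p q q : ℝ) : T)) = _
      rw [← AddCircle.coe_add, ← mul_add, hyA, cosT_coe, sinT_coe]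
      exact ⟨rfl, rfl⟩)
  refine h.trans ?_
  rw [Real.exp_add]
  refine mul_le_mul_of_nonneg_left ?_ (Real.exp_pos _).le
  obtain ⟨W, hW⟩ : ∃ W : ℤ × ℤ → ℝ, W = fun c =>
      (if qc (c - p) < 2 ^ n then wt b α kk n (c - p) else 0) +
      (if qc (c - q) < 2 ^ n then wt b α kk n (c - q) else 0) +
      (if ¬ qc (c - p) < 2 ^ (a - 1) ∧ qc (c - p) < 2 ^ m then w3 b α kk a m (c - p) else 0) :=
    ⟨_, rfl⟩
  have hw0 := wt_nonneg hb α kk n
  have hw3 := w3_nonneg hb α kk a m
  have t1 : ∀ c, 0 ≤ (if qc (c - p) < 2 ^ n then wt b α kk n (c - p) else 0) := by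
    intro c; split_ifs
    · exact hw0 _
    · exact le_refl _
  have t2 : ∀ c, 0 ≤ (if qc (c - q) < 2 ^ n then wt b α kk n (c - q) else 0) := by
    intro c; split_ifs
    · exact hw0 _
    · exact le_refl _
  have t3 : ∀ c, 0 ≤ (if ¬ qc (c - p) < 2 ^ (a - 1) ∧ qc (c - p) < 2 ^ m then
      w3 b α kk a m (c - p) else 0) := by
    intro c; split_ifs
    · exact hw3 _
    · exact le_refl _
  have hW0 : ∀ c, 0 ≤ W c := by
    intro c
    rw [hW]
    have := t1 c
    have := t2 c
    have := t3 c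
    simp only
    linarith
  have htile : ∀ k ∈ (blk 0 l).image (tau3 kk n a m p q),
      rG b ((blk 0 l).filter fun c => tau3 kk n a m p q c = k) (dphi (phi3 α n a m p q)) ≤
      Real.exp (∑ c ∈ (blk 0 l).filter (fun c => tau3 kk n a m p q c = k), W c) := by
    intro k hk
    obtain ⟨c0, hc0B, hc0⟩ := Finset.mem_image.1 hk
    by_cases h5 : qc (c0 - p) < 2 ^ n
    · -- first disc
      have hk1 : k = (0, tid kk (c0 - p)) := by
        rw [← hc0]; unfold tau3; rw [if_pos h5]
      have hT : ∀ c, c ∈ (blk 0 l).filter (fun c => tau3 kk n a m p q c = k) ↔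
          tid kk (c - p) = tid kk (c0 - p) := by
        intro c
        rw [Finset.mem_filter, hk1]
        constructor
        · rintro ⟨_, h6⟩
          unfold tau3 at h6
          split_ifs at h6 with h7 h8 h9
          · exact (Prod.ext_iff.1 h6).2
          · simp at h6
          · simp at h6
          · simp at h6
        · intro h6
          have h7 : qc (c - p) < 2 ^ n := by
            rw [← lv_lt_of_qc hn] at h5 ⊢
            have : lv (c - p) = lv (c0 - p) := congrArg Prod.fst h6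
            omega
          refine ⟨hin c (hnm' c h7), ?_⟩
          unfold tau3
          rw [if_pos h7, h6]
      have hmem : ∀ c ∈ (blk 0 l).filter (fun c => tau3 kk n a m p q c = k),
          qc (c - p) < 2 ^ n := by
        intro c hc
        have h6 := (hT c).1 hc
        rw [← lv_lt_of_qc hn] at h5 ⊢
        have : lv (c - p) = lv (c0 - p) := congrArg Prod.fst h6
        omega
      have key : ∀ c, qc (c - p) < 2 ^ n → ∀ v : ℤ × ℤ, (c - p).1 ≤ v.1 → v.1 ≤ (c - p).1 + 1 →
          (c - p).2 ≤ v.2 → v.2 ≤ (c - p).2 + 1 →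
          phi3 α n a m p q (v + p) = α * Ph n v + 2 * α * (((m : ℝ) - a) * Real.log 2) := by
        intro c hc v r1 r2 r3 r4
        have f1 := corner_far (x := q - p) hpq1 hc r1 r2 r3 r4
        rw [qc_lt, two_pow_cast] at hc
        have f2 : Qn a m v = ((m : ℝ) - a) * Real.log 2 := by
          apply Qn_in (by omega) (by omega) <;> omega
        unfold phi3
        have g1 : v + p - p = v := by abel
        have g2 : v + p - q = v - (q - p) := by abel
        rw [g1, g2, f1, f2]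
        ring
      have h6 := tile_centre hb kk hkk hn α p (c0 - p) h5 _ hT
        (dphi (phi3 α n a m p q)) (by
        intro c hc t
        obtain ⟨r1, r2, r3, r4⟩ := hu_range (c - p) t
        obtain ⟨s1, s2, s3, s4⟩ := hv_range (c - p) t
        have k1 := key c (hmem c hc) _ r1 r2 r3 r4
        have k2 := key c (hmem c hc) _ s1 s2 s3 s4
        have g1 : hu (c - p) t + p = hu c t := by rw [hu_sub]; abel
        have g2 : hv (c - p) t + p = hv c t := by rw [hv_sub]; abel
        rw [g1] at k1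
        rw [g2] at k2
        unfold dphi
        rw [k1, k2]
        ring)
      refine h6.trans (Real.exp_le_exp.2 (Finset.sum_le_sum fun c hc => ?_))
      rw [hW]
      simp only
      rw [if_pos (hmem c hc)]
      have := t2 c
      have := t3 c
      linarith
    · by_cases h5' : qc (c0 - q) < 2 ^ n
      · -- second disc
        have hk1 : k = (1, tid kk (c0 - q)) := by
          rw [← hc0]; unfold tau3; rw [if_neg h5, if_pos h5']
        have hT : ∀ c, c ∈ (blk 0 l).filter (fun c => tau3 kk n a m p q c = k) ↔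
            tid kk (c - q) = tid kk (c0 - q) := by
          intro c
          rw [Finset.mem_filter, hk1]
          constructor
          · rintro ⟨_, h6⟩
            unfold tau3 at h6
            split_ifs at h6 with h7 h8 h9
            · simp at h6
            · exact (Prod.ext_iff.1 h6).2
            · simp at h6
            · simp at h6
          · intro h6
            have h7 : qc (c - q) < 2 ^ n := by
              rw [← lv_lt_of_qc hn] at h5' ⊢
              have : lv (c - q) = lv (c0 - q) := congrArg Prod.fst h6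
              omega
            refine ⟨hin c (hqm c h7), ?_⟩
            unfold tau3
            rw [if_neg (disj' hpq1 h7), if_pos h7, h6]
        have hmem : ∀ c ∈ (blk 0 l).filter (fun c => tau3 kk n a m p q c = k),
            qc (c - q) < 2 ^ n := by
          intro c hc
          have h6 := (hT c).1 hc
          rw [← lv_lt_of_qc hn] at h5' ⊢
          have : lv (c - q) = lv (c0 - q) := congrArg Prod.fst h6
          omega
        have key : ∀ c, qc (c - q) < 2 ^ n → ∀ v : ℤ × ℤ, (c - q).1 ≤ v.1 → v.1 ≤ (c - q).1 + 1 →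
            (c - q).2 ≤ v.2 → v.2 ≤ (c - q).2 + 1 →
            phi3 α n a m p q (v + q) = α * Ph n v + 2 * α * (((m : ℝ) - a) * Real.log 2) := by
          intro c hc v r1 r2 r3 r4
          rw [qc_lt, two_pow_cast] at hc
          unfold nm at hqp hqp1
          simp only [Prod.fst_sub, Prod.snd_sub] at hc r1 r2 r3 r4 hqp hqp1
          have f1 : Ph n (v + q - p) = 0 := by
            apply Ph_zero
            simp only [Prod.fst_sub, Prod.snd_sub, Prod.fst_add, Prod.snd_add]
            omega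
          have f2 : Qn a m (v + q - p) = ((m : ℝ) - a) * Real.log 2 := by
            apply Qn_in (by omega) (by omega) <;>
              simp only [Prod.fst_sub, Prod.snd_sub, Prod.fst_add, Prod.snd_add] <;> omega
          unfold phi3
          have g2 : v + q - q = v := by abel
          rw [g2, f1, f2]
          ring
        have h6 := tile_centre hb kk hkk hn α q (c0 - q) h5' _ hT
          (dphi (phi3 α n a m p q)) (by
          intro c hc t
          obtain ⟨r1, r2, r3, r4⟩ := hu_range (c - q) t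
          obtain ⟨s1, s2, s3, s4⟩ := hv_range (c - q) t
          have k1 := key c (hmem c hc) _ r1 r2 r3 r4
          have k2 := key c (hmem c hc) _ s1 s2 s3 s4
          have g1 : hu (c - q) t + q = hu c t := by rw [hu_sub]; abel
          have g2 : hv (c - q) t + q = hv c t := by rw [hv_sub]; abel
          rw [g1] at k1
          rw [g2] at k2
          unfold dphi
          rw [k1, k2]
          ring)
        refine h6.trans (Real.exp_le_exp.2 (Finset.sum_le_sum fun c hc => ?_))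
        rw [hW]
        simp only
        rw [if_pos (hmem c hc)]
        have := t1 c
        have := t3 c
        linarith
      · -- outside the discs: only the outer profile
        have hdphi : ∀ c, ¬ qc (c - p) < 2 ^ n → ¬ qc (c - q) < 2 ^ n → ∀ t,
            dphi (phi3 α n a m p q) c t =
              2 * α * (Qn a m (hu (c - p) t) - Qn a m (hv (c - p) t)) := by
          intro c g1 g2 t
          obtain ⟨r1, r2, r3, r4⟩ := hu_range (c - p) t
          obtain ⟨s1, s2, s3, s4⟩ := hv_range (c - p) t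
          obtain ⟨r1', r2', r3', r4'⟩ := hu_range (c - q) t
          obtain ⟨s1', s2', s3', s4'⟩ := hv_range (c - q) t
          have e1 := corner_out g1 r1 r2 r3 r4
          have e2 := corner_out g1 s1 s2 s3 s4
          have e3 := corner_out g2 r1' r2' r3' r4'
          have e4 := corner_out g2 s1' s2' s3' s4'
          rw [hu_sub] at e1 e3
          rw [hv_sub] at e2 e4
          unfold dphi phi3
          rw [e1, e2, e3, e4, hu_sub, hv_sub]
          ring
        by_cases h6 : ¬ qc (c0 - p) < 2 ^ (a - 1) ∧ qc (c0 - p) < 2 ^ m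
        · -- annulus
          have hk1 : k = (2, tid kk (c0 - p)) := by
            rw [← hc0]; unfold tau3; rw [if_neg h5, if_neg h5', if_pos h6]
          have hT : ∀ c, c ∈ (blk 0 l).filter (fun c => tau3 kk n a m p q c = k) ↔
              tid kk (c - p) = tid kk (c0 - p) := by
            intro c
            rw [Finset.mem_filter, hk1]
            constructor
            · rintro ⟨_, h7⟩
              unfold tau3 at h7
              split_ifs at h7 with h8 h9 h10
              · simp at h7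
              · simp at h7
              · exact (Prod.ext_iff.1 h7).2
              · simp at h7
            · intro h7
              have hl : lv (c - p) = lv (c0 - p) := congrArg Prod.fst h7
              have h8 : ¬ qc (c - p) < 2 ^ (a - 1) := by
                have := h6.1
                rw [← lv_lt_of_qc (by omega)] at this ⊢
                omega
              have h9 : qc (c - p) < 2 ^ m := by
                have := h6.2
                rw [← lv_lt_of_qc (by omega)] at this ⊢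
                omega
              refine ⟨hin c h9, ?_⟩
              have h10 : ¬ qc (c - p) < 2 ^ n := fun hh =>
                h8 (hh.trans_le (Nat.pow_le_pow_right (by norm_num) (by omega)))
              have h11 : ¬ qc (c - q) < 2 ^ n := fun hh => h8 (by rw [ha1]; exact qin hpq2 hh)
              unfold tau3
              rw [if_neg h10, if_neg h11, if_pos ⟨h8, h9⟩, h7]
          have hmem : ∀ c ∈ (blk 0 l).filter (fun c => tau3 kk n a m p q c = k),
              lv (c - p) = lv (c0 - p) ∧ ¬ qc (c - p) < 2 ^ (a - 1) ∧ qc (c - p) < 2 ^ m := by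
            intro c hc
            have h7 := (hT c).1 hc
            have hl : lv (c - p) = lv (c0 - p) := congrArg Prod.fst h7
            refine ⟨hl, ?_, ?_⟩
            · have := h6.1
              rw [← lv_lt_of_qc (by omega)] at this ⊢
              omega
            · have := h6.2
              rw [← lv_lt_of_qc (by omega)] at this ⊢
              omega
          have hd : ∀ c ∈ (blk 0 l).filter (fun c => tau3 kk n a m p q c = k), ∀ t,
              dphi (phi3 α n a m p q) c t =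
              2 * α * (Qn a m (hu (c - p) t) - Qn a m (hv (c - p) t)) := by
            intro c hc t
            have h8 := (hmem c hc).2.1
            exact hdphi c (fun hh => h8 (hh.trans_le (Nat.pow_le_pow_right (by norm_num)
              (by omega)))) (fun hh => h8 (by rw [ha1]; exact qin hpq2 hh)) t
          have hWc : ∀ c ∈ (blk 0 l).filter (fun c => tau3 kk n a m p q c = k),
              w3 b α kk a m (c - p) ≤ W c := by
            intro c hc
            rw [hW]
            simp only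
            rw [if_pos (hmem c hc).2]
            have := t1 c
            have := t2 c
            linarith
          have hl1 : ¬ lv (c0 - p) < a - 1 := by
            have := h6.1
            rwa [← lv_lt_of_qc (by omega)] at this
          have hl2 : lv (c0 - p) < m := by
            have := h6.2
            rwa [← lv_lt_of_qc (by omega)] at this
          by_cases hj1 : a ≤ lv (c0 - p) ∧ lv (c0 - p) < m - 1
          · -- logarithm
            have h7 := tile_log hb kk hkk m (2 * α) p (c0 - p) _ hT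
              (dphi (phi3 α n a m p q)) (by
              intro c hc t
              rw [hd c hc t]
              have hlc := (hmem c hc).1
              have q1 : ¬ qc (c - p) < 2 ^ a := by
                rw [← lv_lt_of_qc (by omega)]; omega
              have q2 : qc (c - p) < 2 ^ (m - 1) := by
                rw [← lv_lt_of_qc (by omega)]; omega
              rw [qc_lt, two_pow_cast] at q1 q2
              obtain ⟨r1, r2, r3, r4⟩ := hu_range (c - p) t
              obtain ⟨s1, s2, s3, s4⟩ := hv_range (c - p) t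
              have k1 : Qn a m (hu (c - p) t) = (m : ℝ) * Real.log 2 - Fz (hu (c - p) t) := by
                apply Qn_mid (by omega) (by omega) <;> omega
              have k2 : Qn a m (hv (c - p) t) = (m : ℝ) * Real.log 2 - Fz (hv (c - p) t) := by
                apply Qn_mid (by omega) (by omega) <;> omega
              rw [k1, k2]
              ring)
            refine h7.trans (Real.exp_le_exp.2 (Finset.sum_le_sum fun c hc => ?_))
            refine le_trans ?_ (hWc c hc)
            unfold w3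
            have := KC_nonneg hb α
            split_ifs
            · have : 0 ≤ KC b α / 4 ^ (a - 1) := by positivity
              linarith
            · linarith
          · -- boundary levels
            obtain ⟨j, hj⟩ : ∃ j, j = lv (c0 - p) := ⟨_, rfl⟩
            have h7 := tile_triv hb j (2 * α) p ((blk 0 l).filter fun c =>
              tau3 kk n a m p q c = k) (dphi (phi3 α n a m p q)) (by
              intro c hc t
              rw [hd c hc t, abs_mul]
              have h8 := (Qn_lip a m (hu (c - p) t) (hv (c - p) t)).trans (bond_abs (c - p) t)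
              rw [(hmem c hc).1, ← hj] at h8
              calc |2 * α| * _ ≤ |2 * α| * (1 / 2 ^ j) :=
                    mul_le_mul_of_nonneg_left h8 (abs_nonneg _)
                _ = _ := by ring)
            refine h7.trans (Real.exp_le_exp.2 (Finset.sum_le_sum fun c hc => ?_))
            refine le_trans ?_ (hWc c hc)
            unfold w3
            have hlc := (hmem c hc).1
            have hKC := KC_nonneg hb α
            by_cases hj2 : j = a - 1
            · rw [if_pos (by omega), hj2]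
              have := wt_nonneg hb (2 * α) kk m (c - p)
              unfold KC
              linarith
            · have hj3 : j + 1 = m := by omega
              have h9 : 2 * b * (Real.cosh |2 * α| - 1) / 4 ^ j ≤ wt b (2 * α) kk m (c - p) := by
                unfold wt
                have h1 := stiff2_nonneg hb (lv (c - p) - kk (lv (c - p)))
                have h2 := KT_nonneg hb (2 * α)
                have h4 := qq_pos (c - p)
                have e1 : 8 * b * (Real.cosh |2 * α| - 1) / 4 ^ m =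
                    2 * b * (Real.cosh |2 * α| - 1) / 4 ^ j := by
                  rw [← hj3, pow_succ]
                  field_simp
                  ring
                rw [e1]
                have e2 : 0 ≤ (1 + 1 / (2 : ℝ) ^ kk (lv (c - p))) / 2 *
                    (stiff (2 ^ (lv (c - p) - kk (lv (c - p)))) b *
                    ((2 * α) ^ 2 * (1 / qq 1 (c - p)))) := by positivity
                have e3 : 0 ≤ KT b (2 * α) / (2 ^ kk (lv (c - p)) * 4 ^ lv (c - p)) := by
                  positivity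
                linarith
              split_ifs
              · have : 0 ≤ KC b α / 4 ^ (a - 1) := by positivity
                linarith
              · linarith
        · -- the rest
          have hk1 : k = (3, 0, 0, 0) := by
            rw [← hc0]; unfold tau3; rw [if_neg h5, if_neg h5', if_neg h6]
          have h7 := rG_trivial hb ((blk 0 l).filter fun c => tau3 kk n a m p q c = k)
            (dphi (phi3 α n a m p q)) (δ := 0) (by
              intro c hc t
              have h8 := (Finset.mem_filter.1 hc).2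
              rw [hk1] at h8
              unfold tau3 at h8
              split_ifs at h8 with h9 h10 h11
              · simp at h8
              · simp at h8
              · simp at h8
              · rw [hdphi c h9 h10 t]
                obtain ⟨r1, r2, r3, r4⟩ := hu_range (c - p) t
                obtain ⟨s1, s2, s3, s4⟩ := hv_range (c - p) t
                have hE : Qn a m (hu (c - p) t) = Qn a m (hv (c - p) t) := by
                  by_cases h12 : qc (c - p) < 2 ^ (a - 1)
                  · rw [qc_lt, two_pow_cast] at h12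
                    rw [Qn_in (v := hu (c - p) t) (by omega) (by omega) (by omega) (by omega)
                      (by omega) (by omega), Qn_in (v := hv (c - p) t) (by omega) (by omega)
                      (by omega) (by omega) (by omega) (by omega)]
                  · have h13 : ¬ qc (c - p) < 2 ^ m := fun hh => h11 ⟨h12, hh⟩
                    rw [qc_lt, two_pow_cast] at h13
                    rw [Qn_out (v := hu (c - p) t) (by omega) (by omega),
                      Qn_out (v := hv (c - p) t) (by omega) (by omega)]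
                rw [hE]
                simp)
          refine h7.trans (Real.exp_le_exp.2 ?_)
          rw [Real.cosh_zero, sub_self, mul_zero]
          exact Finset.sum_nonneg fun c _ => hW0 c
  refine (Finset.prod_le_prod (fun k _ => div_nonneg (norm_nonneg _) (norm_nonneg _))
      htile).trans ?_
  rw [← Real.exp_sum, Real.exp_le_exp]
  have hs : ∑ k ∈ (blk 0 l).image (tau3 kk n a m p q),
      ∑ c ∈ (blk 0 l).filter (fun c => tau3 kk n a m p q c = k), W c = ∑ c ∈ blk 0 l, W c :=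
    Finset.sum_fiberwise_of_maps_to (fun c hc => Finset.mem_image_of_mem _ hc) W
  rw [hs, hW, Finset.sum_add_distrib, Finset.sum_add_distrib]
  have move : ∀ (z : ℤ × ℤ) (P : ℤ × ℤ → Prop) [DecidablePred P] (F : ℤ × ℤ → ℝ)
      (U : Finset (ℤ × ℤ)), (∀ c, 0 ≤ F c) → (∀ c, P c → c ∈ U) →
      ∑ c ∈ blk 0 l, (if P (c - z) then F (c - z) else 0) ≤ ∑ c ∈ U, F c := by
    intro z P _ F U hF hU
    rw [← Finset.sum_filter, ← Finset.sum_image (f := F)
      (g := fun c => c - z) (s := (blk 0 l).filter fun c => P (c - z))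
      (fun a _ b _ h => sub_left_injective h)]
    refine Finset.sum_le_sum_of_subset_of_nonneg (fun c hc => ?_) fun c _ _ => hF c
    obtain ⟨c', hc', rfl⟩ := Finset.mem_image.1 hc
    exact hU _ (Finset.mem_filter.1 hc').2
  have m1 := move p (fun c => qc c < 2 ^ n) (wt b α kk n) (DD n) hw0 (fun c hc => mem_DD.2 hc)
  have m2 := move q (fun c => qc c < 2 ^ n) (wt b α kk n) (DD n) hw0 (fun c hc => mem_DD.2 hc)
  have m3 := move p (fun c => ¬ qc c < 2 ^ (a - 1) ∧ qc c < 2 ^ m) (w3 b α kk a m)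
    (DD m \ DD (a - 1)) hw3 (fun c hc => by
      rw [Finset.mem_sdiff, mem_DD, mem_DD]
      exact ⟨hc.2, hc.1⟩)
  linarith

end Vale.Agent.P159.H191
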