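import Vale.Agent.P159.H191.Two

/-!
P159, H191: final form of the bound for charges (1,1) in the wired block.
-/

set_option linter.all false
set_option autoImplicit false

open MeasureTheory Filter Topology
open scoped BigOperators

namespace Vale.Agent.P159.H191

open Vale.Agent.P159 Vale.Agent.P159.UJ Vale.Agent.P159.H950 Vale.Agent.P159.XY

/-- **charges (1,1) in the wired block**: two charges at distance between `2^(n+1)` and `2^(n+3)`,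
at distance at least `2^(n+i)` from the boundary -/
theorem two_up {b : ℝ} (hb : 0 ≤ b) (α : ℝ) (kk : ℕ → ℕ) (hkk : ∀ j, kk j ≤ j)
    (hk1 : ∀ j, kk (j + 1) ≤ kk j + 1) (hsum : Summable fun j => (1 : ℝ) / 2 ^ (kk j)) :
    ∃ K : ℝ, 0 < K ∧ ∀ (n i l : ℕ) (p q : ℤ × ℤ), 1 ≤ n → 6 ≤ i →
      2 ^ (n + 1) ≤ nm (q - p) → nm (q - p) ≤ 2 ^ (n + 3) →
      2 ^ (n + i) ≤ p.1 → p.1 + 2 ^ (n + i) ≤ l → 2 ^ (n + i) ≤ p.2 → p.2 + 2 ^ (n + i) ≤ l →
      |expect (blockEnergy l b) (fun θ => cosT (ext θ p + ext θ q))| ≤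
      K * Real.exp (-((2 * α * n + 4 * α * i) * Real.log 2) +
        2 * Real.pi * α ^ 2 * Real.log 2 * ∑ j ∈ Finset.range n, stiff (2 ^ (j - kk j)) b +
        4 * Real.pi * α ^ 2 * Real.log 2 *
          ∑ j ∈ Finset.Ico n (n + i), stiff (2 ^ (j - kk j)) b) := by
  obtain ⟨K1, hK1⟩ : ∃ K1 : ℝ, K1 = 10 * b * α ^ 2 + (α ^ 2 * b / 2 + KT b α) *
        (4 + 16 * ∑' j, (1 : ℝ) / 2 ^ (kk j)) + 32 * b * (Real.cosh |α| - 1) := ⟨_, rfl⟩
  obtain ⟨K2, hK2⟩ : ∃ K2 : ℝ, K2 = 672 * b * α ^ 2 + 16 * (2 * α ^ 2 * b + KT b (2 * α)) *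
    ∑' j, (1 : ℝ) / 2 ^ (kk j) + 32 * KC b α := ⟨_, rfl⟩
  have hKT := KT_nonneg hb α
  have hts : 0 ≤ ∑' j, (1 : ℝ) / 2 ^ (kk j) := tsum_nonneg fun j => by positivity
  refine ⟨Real.exp (20 * α * Real.log 2 + 2 * K1 + K2), Real.exp_pos _,
    fun n i l p q hn hi hpq1 hpq2 h1 h2 h3 h4 => ?_⟩
  rw [← Real.exp_add]
  refine (two_charges hb α kk hkk hn (by omega : n + 6 ≤ n + i) hpq1 hpq2 h1 h2 h3 h4).trans
    (Real.exp_le_exp.2 ?_)
  have h5 := wt_sum hb α kk hkk hk1 n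
  have h6 : ∑ j ∈ Finset.range n, (1 : ℝ) / 2 ^ (kk j) ≤ ∑' j, (1 : ℝ) / 2 ^ (kk j) :=
    hsum.sum_le_tsum _ fun j _ => by positivity
  have h7 : (α ^ 2 * b / 2 + KT b α) * (4 + 16 * ∑ j ∈ Finset.range n, 1 / 2 ^ (kk j)) ≤
      (α ^ 2 * b / 2 + KT b α) * (4 + 16 * ∑' j, (1 : ℝ) / 2 ^ (kk j)) :=
    mul_le_mul_of_nonneg_left (by linarith) (by positivity)
  have h8 : ∑ c ∈ DD n, wt b α kk n c ≤ Real.pi * Real.log 2 * α ^ 2 *
      ∑ j ∈ Finset.range n, stiff (2 ^ (j - kk j)) b + K1 := by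
    rw [hK1]; linarith
  have h9 := ann_sum hb α kk hsum (a := n + 5) (m := n + i) (by omega) (by omega)
  rw [show n + 5 - 1 = n + 4 by omega, ← hK2] at h9
  have h10 : ∑ j ∈ Finset.Ico (n + 4) (n + i), stiff (2 ^ (j - kk j)) b ≤
      ∑ j ∈ Finset.Ico n (n + i), stiff (2 ^ (j - kk j)) b := by
    refine Finset.sum_le_sum_of_subset_of_nonneg ?_ fun j _ _ => stiff2_nonneg hb _
    intro j hj
    rw [Finset.mem_Ico] at hj ⊢
    omega
  have hlog2 : 0 < Real.log 2 := Real.log_pos (by norm_num)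
  have hpi := Real.pi_pos
  have h11 := mul_le_mul_of_nonneg_left h10
    (by positivity : 0 ≤ 4 * Real.pi * α ^ 2 * Real.log 2)
  have e1 : -(2 * α * (n : ℝ) * Real.log 2 +
      4 * α * (((n + i : ℕ) : ℝ) - ((n + 5 : ℕ) : ℝ)) * Real.log 2) =
      -((2 * α * n + 4 * α * i) * Real.log 2) + 20 * α * Real.log 2 := by
    push_cast
    ring
  rw [e1]
  linarith

end Vale.Agent.P159.H191
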