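import Vale.Agent.P159.H191.SupCor

/-!
P159, H191: the complex translation in the wired block with an arbitrary observable, an arbitrary
profile and an arbitrary partition into tiles; the one-point function in the wired block.
-/

set_option linter.all false
set_option autoImplicit false

open MeasureTheory Filter Topology
open scoped BigOperators

namespace Vale.Agent.P159.H191

open Vale.Agent.P159 Vale.Agent.P159.UJ Vale.Agent.P159.H950 Vale.Agent.P159.XY

/-- the character of one site -/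
noncomputable def site (p : ℤ × ℤ) : Chr Ginf where
  c θ := cosT (θ p)
  s θ := sinT (θ p)
  cont_c := cont_cos.comp (continuous_apply p)
  cont_s := cont_sin.comp (continuous_apply p)
  c_add x y := by
    have h : (x + y) p = x p + y p := rfl
    rw [h]
    exact Real.Angle.cos_add _ _
  s_add x y := by
    have h : (x + y) p = x p + y p := rfl
    rw [h]
    exact Real.Angle.sin_add _ _
  norm_sq x := Real.Angle.cos_sq_add_sin_sq _

/-- the character of two sites of equal charge -/
noncomputable def two (p q : ℤ × ℤ) : Chr Ginf where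
  c θ := cosT (θ p + θ q)
  s θ := sinT (θ p + θ q)
  cont_c := cont_cos.comp ((continuous_apply p).add (continuous_apply q))
  cont_s := cont_sin.comp ((continuous_apply p).add (continuous_apply q))
  c_add x y := by
    have : (x + y) p + (x + y) q = (x p + x q) + (y p + y q) := by
      simp only [Pi.add_apply]; abel
    rw [this]
    exact Real.Angle.cos_add _ _
  s_add x y := by
    have : (x + y) p + (x + y) q = (x p + x q) + (y p + y q) := by
      simp only [Pi.add_apply]; abel
    rw [this]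
    exact Real.Angle.sin_add _ _
  norm_sq x := Real.Angle.cos_sq_add_sin_sq _

theorem rho_fibR (b : ℝ) {ι : Type*} [DecidableEq ι] (R : Finset (ℤ × ℤ)) (τ : ℤ × ℤ → ι) (k : ι)
    (y : ℤ × ℤ → HT → ℝ) :
    rho muInf (fun e : {e : KR R // τ e.1 = k} => b / 2)
      (fun e : {e : KR R // τ e.1 = k} => (chiR R e.1).comp
        (proj (intR (R.filter fun c => τ c = k))) (proj_cont _)) (fun e => y e.1.1 e.1.2) =
    rG b (R.filter fun c => τ c = k) y := by
  have h := rho_tr muInf (J := fun e : {e : KR R // τ e.1 = k} => b / 2)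
    (χ := fun e : {e : KR R // τ e.1 = k} => (chiR R e.1).comp
        (proj (intR (R.filter fun c => τ c = k))) (proj_cont _))
    (J' := fun _ : KR (R.filter fun c => τ c = k) => b / 2)
    (χ' := chiR (R.filter fun c => τ c = k))
    (fibE R τ k) (fun x => x) (fun F _ => rfl) (fun _ => 1)
    (fun _ => Or.inl rfl) (fun e => rfl) (fun e x => fib_c R τ k e x)
    (fun e x => by rw [one_mul]; exact fib_s R τ k e x)
    (y := fun e => y e.1.1 e.1.2) (y' := fun e => y e.1 e.2)
    (fun e => by rw [one_mul]; rfl)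
  exact h

theorem intR_blk0 (l : ℕ) : intR (blk 0 l) = (inner l : Set (ℤ × ℤ)) := by
  ext v
  rw [mem_intR_blk]
  simp only [inner, Finset.coe_Icc, Set.mem_Icc, Prod.le_def, Prod.fst_zero, Prod.snd_zero]
  constructor <;> intro h <;> omega

theorem energy_blk0 (l : ℕ) (b : ℝ) (θ : Ginf) :
    ∑ e : KR (blk 0 l), b / 2 * (chiR (blk 0 l) e).c θ = ∑ e : BI l, b / 2 * (chi0 l e).c θ := by
  rw [← Equiv.sum_comp (eBlk 0 l)]
  refine Finset.sum_congr rfl fun e _ => ?_
  rw [blk_c]
  congr 2
  funext v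
  show θ (0 + v) = θ v
  rw [zero_add]

/-- **the complex translation in the wired block**: any character, any profile vanishing off the
block, any partition of the cells into tiles whose interiors avoid the charges -/
theorem wired_ms {b : ℝ} (hb : 0 ≤ b) (l : ℕ) {ι : Type*} [DecidableEq ι]
    (S : Finset ι) (τ : ℤ × ℤ → ι) (hτ : ∀ c ∈ blk 0 l, τ c ∈ S) (φ : ℤ × ℤ → ℝ)
    (hφ : ∀ v, v ∉ inner l → φ v = 0) (A : Chr Ginf)
    (hA : ∀ k θ, A.c (proj (intR ((blk 0 l).filter fun c => τ c = k)) θ) = 1 ∧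
      A.s (proj (intR ((blk 0 l).filter fun c => τ c = k)) θ) = 0) (yA : ℝ)
    (hgA : ∀ s : ℝ, A.c (fun w => ((s * φ w : ℝ) : T)) = Real.cos (s * yA) ∧
      A.s (fun w => ((s * φ w : ℝ) : T)) = Real.sin (s * yA)) :
    |expect (blockEnergy l b) (fun θ => A.c (ext θ))| ≤ Real.exp (-yA) *
      ∏ k ∈ S, rG b ((blk 0 l).filter fun c => τ c = k) (dphi φ) := by
  have hpath : ∀ s : ℝ, proj (intR (blk 0 l)) (fun w => ((s * φ w : ℝ) : T)) =
      fun w => ((s * φ w : ℝ) : T) := by
    intro s
    funext v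
    by_cases h : v ∈ intR (blk 0 l)
    · rw [proj_of_mem h]
    · rw [proj_of_notMem h, hφ v (by rw [intR_blk0] at h; simpa using h), mul_zero]
      simp
  have h := ms_tile muInf (fun _ : KR (blk 0 l) => b / 2) (chiR (blk 0 l)) G_div2
    (half_nonneg' hb (blk 0 l)) S
    (fun e : KR (blk 0 l) => τ e.1) (fun e => hτ e.1 e.1.2)
    (fun k => proj (intR ((blk 0 l).filter fun c => τ c = k))) (fun k => proj_cont _)
    (fun k e he x => tile_indep (blk 0 l) τ k e he x)
    (A.comp (proj (intR (blk 0 l))) (proj_cont _))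
    (fun k _ θ => by
      have e1 : proj (intR (blk 0 l)) (proj (intR ((blk 0 l).filter fun c => τ c = k)) θ) =
          proj (intR ((blk 0 l).filter fun c => τ c = k)) θ := by
        funext v
        exact proj_tile (Finset.filter_subset _ _) θ v
      show A.c (proj (intR (blk 0 l)) (proj (intR ((blk 0 l).filter fun c => τ c = k)) θ)) = 1 ∧
        A.s (proj (intR (blk 0 l)) (proj (intR ((blk 0 l).filter fun c => τ c = k)) θ)) = 0
      rw [e1]
      exact hA k θ)
    (fun e => dphi φ e.1 e.2) yA (fun s w => ((s * φ w : ℝ) : T))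
    (fun e s => by
      show (grad (hu e.1 e.2) (hv e.1 e.2)).c (proj (intR (blk 0 l)) _) = _ ∧
        (grad (hu e.1 e.2) (hv e.1 e.2)).s (proj (intR (blk 0 l)) _) = _
      rw [hpath s]
      exact grad_path φ _ _ s)
    (fun s => by
      show A.c (proj (intR (blk 0 l)) _) = _ ∧ A.s (proj (intR (blk 0 l)) _) = _
      rw [hpath s]
      exact hgA s)
  have h2 : ∀ k ∈ S, rho muInf (fun e : {e : KR (blk 0 l) // τ e.1 = k} => b / 2)
      (fun e : {e : KR (blk 0 l) // τ e.1 = k} => (chiR (blk 0 l) e.1).comp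
        (proj (intR ((blk 0 l).filter fun c => τ c = k))) (proj_cont _))
      (fun e => dphi φ e.1.1 e.1.2) =
      rG b ((blk 0 l).filter fun c => τ c = k) (dphi φ) := fun k _ => rho_fibR b (blk 0 l) τ k _
  rw [Finset.prod_congr rfl h2] at h
  -- back to the block
  have hg := gibbs_chi0 l b (F := fun θ => A.c θ) A.cont_c
  rw [← hg]
  unfold gibbs
  have hpos : 0 < ∫ x, Real.exp (∑ e : BI l, b / 2 * (chi0 l e).c x) ∂muInf := by
    refine integral_exp_pos (cint (Real.continuous_exp.comp
      (continuous_finsetSum _ fun e _ => continuous_const.mul (chi0 l e).cont_c)))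
  rw [abs_div, abs_of_pos hpos, div_le_iff₀ hpos]
  simp_rw [energy_blk0, intR_blk0] at h
  exact h

/-! ### one charge -/

/-- tile index for one centre -/
def tau1 (kk : ℕ → ℕ) (n : ℕ) (p c : ℤ × ℤ) : ℕ × ℕ × ℤ × ℤ :=
  if qc (c - p) < 2 ^ n then (0, tid kk (c - p)) else (2, 0, 0, 0)

theorem qc_zero' (n : ℕ) : qc (0 : ℤ × ℤ) < 2 ^ n := by
  rw [qc_lt, two_pow_cast]
  have : (0 : ℤ) < 2 ^ n := by positivity
  simp only [Prod.fst_zero, Prod.snd_zero]
  omega

theorem qc_neg_one (n : ℕ) : qc (0 - (1, 1) : ℤ × ℤ) < 2 ^ n := by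
  rw [qc_lt, two_pow_cast]
  have : (0 : ℤ) < 2 ^ n := by positivity
  simp only [Prod.fst_sub, Prod.snd_sub, Prod.fst_zero, Prod.snd_zero]
  omega

/-- finite form of the bound of the one-point function -/
theorem one_charge {b : ℝ} (hb : 0 ≤ b) (α : ℝ) (kk : ℕ → ℕ) (hkk : ∀ j, kk j ≤ j)
    {n : ℕ} (hn : 1 ≤ n) {l : ℕ} {p : ℤ × ℤ} (h1 : 2 ^ n ≤ p.1) (h2 : p.1 + 2 ^ n ≤ l)
    (h3 : 2 ^ n ≤ p.2) (h4 : p.2 + 2 ^ n ≤ l) :
    |expect (blockEnergy l b) (fun θ => cosT (ext θ p))| ≤
      Real.exp (-(α * n * Real.log 2) + ∑ c ∈ DD n, wt b α kk n c) := by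
  classical
  have hr : (0 : ℤ) < 2 ^ n := by positivity
  have hin : ∀ c, qc (c - p) < 2 ^ n → c ∈ blk 0 l := by
    intro c hc
    rw [qc_lt, two_pow_cast] at hc
    rw [mem_blk]
    simp only [Prod.fst_sub, Prod.snd_sub] at hc
    simp only [Prod.fst_zero, Prod.snd_zero]
    omega
  have hφ : ∀ v, v ∉ inner l → α * Ph n (v - p) = 0 := by
    intro v hv
    rw [Ph_zero, mul_zero]
    simp only [inner, Finset.mem_Icc, Prod.le_def] at hv
    simp only [Prod.fst_sub, Prod.snd_sub]
    omega
  have hA : ∀ k (θ : Ginf), (site p).c (proj (intR ((blk 0 l).filter fun c =>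
      tau1 kk n p c = k)) θ) = 1 ∧ (site p).s (proj (intR ((blk 0 l).filter fun c =>
      tau1 kk n p c = k)) θ) = 0 := by
    intro k θ
    have hp : p ∉ intR ((blk 0 l).filter fun c => tau1 kk n p c = k) := by
      intro hk
      have h5 := (Finset.mem_filter.1 hk.1).2
      have h6 := (Finset.mem_filter.1 hk.2.2.2).2
      have h7 := h5.trans h6.symm
      have e0 : p - p = 0 := sub_self p
      have e1 : p - (1, 1) - p = 0 - (1, 1) := by abel
      unfold tau1 at h7
      rw [e0, e1, if_pos (qc_zero' n), if_pos (qc_neg_one n)] at h7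
      exact tid_zero kk (Prod.ext_iff.1 h7).2
    show cosT (proj _ θ p) = 1 ∧ sinT (proj _ θ p) = 0
    rw [proj_of_notMem hp, cosT_zero, sinT_zero]
    exact ⟨rfl, rfl⟩
  have h := wired_ms hb l ((blk 0 l).image (tau1 kk n p)) (tau1 kk n p)
    (fun c hc => Finset.mem_image_of_mem _ hc) (fun v => α * Ph n (v - p)) hφ (site p) hA
    (α * n * Real.log 2) (fun s => by
      have e : α * Ph n (p - p) = α * n * Real.log 2 := by
        rw [sub_self, Ph_origin]; ring
      show cosT ((s * (α * Ph n (p - p)) : ℝ) : T) = _ ∧ sinT ((s * (α * Ph n (p - p)) : ℝ) : T) = _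
      rw [e, cosT_coe, sinT_coe]
      exact ⟨rfl, rfl⟩)
  refine h.trans ?_
  rw [Real.exp_add]
  refine mul_le_mul_of_nonneg_left ?_ (Real.exp_pos _).le
  obtain ⟨W, hW⟩ : ∃ W : ℤ × ℤ → ℝ, W = fun c =>
      (if qc (c - p) < 2 ^ n then wt b α kk n (c - p) else 0) := ⟨_, rfl⟩
  have hw0 := wt_nonneg hb α kk n
  have hW0 : ∀ c, 0 ≤ W c := by
    intro c
    rw [hW]
    simp only
    split_ifs
    · exact hw0 _
    · exact le_refl _
  have htile : ∀ k ∈ (blk 0 l).image (tau1 kk n p),
      rG b ((blk 0 l).filter fun c => tau1 kk n p c = k)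
      (dphi fun v => α * Ph n (v - p)) ≤
      Real.exp (∑ c ∈ (blk 0 l).filter (fun c => tau1 kk n p c = k), W c) := by
    intro k hk
    obtain ⟨c0, hc0B, hc0⟩ := Finset.mem_image.1 hk
    by_cases h5 : qc (c0 - p) < 2 ^ n
    · have hk1 : k = (0, tid kk (c0 - p)) := by
        rw [← hc0]; unfold tau1; rw [if_pos h5]
      have hT : ∀ c, c ∈ (blk 0 l).filter (fun c => tau1 kk n p c = k) ↔
          tid kk (c - p) = tid kk (c0 - p) := by
        intro c
        rw [Finset.mem_filter, hk1]
        constructor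
        · rintro ⟨_, h6⟩
          unfold tau1 at h6
          split_ifs at h6 with h7
          · exact (Prod.ext_iff.1 h6).2
          · simp at h6
        · intro h6
          have h7 : qc (c - p) < 2 ^ n := by
            rw [← lv_lt_of_qc hn] at h5 ⊢
            have : lv (c - p) = lv (c0 - p) := congrArg Prod.fst h6
            omega
          refine ⟨hin c h7, ?_⟩
          unfold tau1
          rw [if_pos h7, h6]
      have hmem : ∀ c ∈ (blk 0 l).filter (fun c => tau1 kk n p c = k), qc (c - p) < 2 ^ n := by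
        intro c hc
        have h6 := (hT c).1 hc
        rw [← lv_lt_of_qc hn] at h5 ⊢
        have : lv (c - p) = lv (c0 - p) := congrArg Prod.fst h6
        omega
      have h6 := tile_centre hb kk hkk hn α p (c0 - p) h5 _ hT
        (dphi fun v => α * Ph n (v - p)) (by
        intro c hc t
        unfold dphi
        rw [hu_sub, hv_sub]
        ring)
      refine h6.trans (Real.exp_le_exp.2 (Finset.sum_le_sum fun c hc => ?_))
      rw [hW]
      simp only
      rw [if_pos (hmem c hc)]
    · have hk1 : k = (2, 0, 0, 0) := by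
        rw [← hc0]; unfold tau1; rw [if_neg h5]
      have h6 := rG_trivial hb ((blk 0 l).filter fun c => tau1 kk n p c = k)
        (dphi fun v => α * Ph n (v - p)) (δ := 0) (by
          intro c hc t
          have h7 := (Finset.mem_filter.1 hc).2
          rw [hk1] at h7
          unfold tau1 at h7
          split_ifs at h7 with h8
          · simp at h7
          · obtain ⟨r1, r2, r3, r4⟩ := hu_range (c - p) t
            obtain ⟨s1, s2, s3, s4⟩ := hv_range (c - p) t
            have e3 := corner_out h8 r1 r2 r3 r4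
            have e4 := corner_out h8 s1 s2 s3 s4
            rw [hu_sub] at e3
            rw [hv_sub] at e4
            show |α * Ph n (hu c t - p) - α * Ph n (hv c t - p)| ≤ 0
            rw [e3, e4]
            simp)
      refine h6.trans (Real.exp_le_exp.2 ?_)
      rw [Real.cosh_zero, sub_self, mul_zero]
      exact Finset.sum_nonneg fun c _ => hW0 c
  refine (Finset.prod_le_prod (fun k _ => div_nonneg (norm_nonneg _) (norm_nonneg _))
      htile).trans ?_
  rw [← Real.exp_sum, Real.exp_le_exp]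
  have hs : ∑ k ∈ (blk 0 l).image (tau1 kk n p),
      ∑ c ∈ (blk 0 l).filter (fun c => tau1 kk n p c = k), W c = ∑ c ∈ blk 0 l, W c :=
    Finset.sum_fiberwise_of_maps_to (fun c hc => Finset.mem_image_of_mem _ hc) W
  rw [hs, hW]
  simp only
  rw [← Finset.sum_filter, ← Finset.sum_image (f := fun c => wt b α kk n c)
    (g := fun c => c - p) (s := (blk 0 l).filter fun c => qc (c - p) < 2 ^ n)
    (fun a _ b _ h => sub_left_injective h)]
  refine Finset.sum_le_sum_of_subset_of_nonneg (fun c hc => ?_) fun c _ _ => hw0 c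
  obtain ⟨c', hc', rfl⟩ := Finset.mem_image.1 hc
  rw [mem_DD]
  exact (Finset.mem_filter.1 hc').2

/-- trivial bound -/
theorem abs_expect_le_one {b : ℝ} (hb : 0 ≤ b) (l : ℕ) (A : Chr Ginf) (p q : ℤ × ℤ)
    (hA : ∀ θ : Ginf, θ p = 0 → θ q = 0 → A.c θ = 1 ∧ A.s θ = 0) :
    |expect (blockEnergy l b) (fun θ => A.c (ext θ))| ≤ 1 := by
  classical
  have hz : (fun w : ℤ × ℤ => ((0 : ℝ) : T)) = 0 := by
    funext w
    simp
  have h := wired_ms hb l (blk 0 l) (fun c => c) (fun c hc => hc) (fun _ => 0)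
    (fun _ _ => rfl) A (fun k θ => by
      have key : ∀ v : ℤ × ℤ, v ∉ intR ((blk 0 l).filter fun c => c = k) := by
        intro v hk
        have h5 := (Finset.mem_filter.1 hk.1).2
        have h6 := (Finset.mem_filter.1 hk.2.2.2).2
        have h7 := h5.trans h6.symm
        have h8 := congrArg Prod.fst h7
        simp only [Prod.fst_sub] at h8
        omega
      exact hA _ (proj_of_notMem (key p) θ) (proj_of_notMem (key q) θ)) 0
    (fun s => by
      have h0 : (fun w : ℤ × ℤ => ((s * 0 : ℝ) : T)) = 0 := by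
        funext w
        simp
      rw [h0, mul_zero, Real.cos_zero, Real.sin_zero]
      exact hA 0 rfl rfl)
  refine h.trans ?_
  rw [neg_zero, Real.exp_zero, one_mul]
  refine Finset.prod_le_one (fun k _ => div_nonneg (norm_nonneg _) (norm_nonneg _)) fun k _ => ?_
  have h6 := rG_trivial hb ((blk 0 l).filter fun c => c = k) (dphi fun _ => 0) (δ := 0) (by
    intro c hc t
    unfold dphi
    simp)
  rw [Real.cosh_zero, sub_self, mul_zero, Real.exp_zero] at h6
  exact h6

/-- **the one-point function in the wired block** -/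
theorem m_up {b : ℝ} (hb : 0 ≤ b) (α : ℝ) (kk : ℕ → ℕ) (hkk : ∀ j, kk j ≤ j)
    (hk1 : ∀ j, kk (j + 1) ≤ kk j + 1) (hsum : Summable fun j => (1 : ℝ) / 2 ^ (kk j)) :
    ∃ K : ℝ, 0 < K ∧ ∀ (n l : ℕ) (p : ℤ × ℤ), 2 ^ n ≤ p.1 → p.1 + 2 ^ n ≤ l → 2 ^ n ≤ p.2 →
      p.2 + 2 ^ n ≤ l → |expect (blockEnergy l b) (fun θ => cosT (ext θ p))| ≤
      K * Real.exp (-(α * n * Real.log 2) + Real.pi * α ^ 2 * Real.log 2 *
        ∑ j ∈ Finset.range n, stiff (2 ^ (j - kk j)) b) := by
  obtain ⟨K1, hK1⟩ : ∃ K1 : ℝ, K1 = 10 * b * α ^ 2 + (α ^ 2 * b / 2 + KT b α) *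
        (4 + 16 * ∑' j, (1 : ℝ) / 2 ^ (kk j)) + 32 * b * (Real.cosh |α| - 1) := ⟨_, rfl⟩
  have hKT := KT_nonneg hb α
  have hch : 0 ≤ Real.cosh |α| - 1 := by linarith [Real.one_le_cosh |α|]
  have hts : 0 ≤ ∑' j, (1 : ℝ) / 2 ^ (kk j) := tsum_nonneg fun j => by positivity
  have hK0 : 0 ≤ K1 := by rw [hK1]; positivity
  refine ⟨Real.exp K1, Real.exp_pos _, fun n l p h1 h2 h3 h4 => ?_⟩
  rw [← Real.exp_add]
  rcases Nat.eq_zero_or_pos n with hn | hn
  · subst hn
    refine (abs_expect_le_one hb l (site p) p p (fun θ h _ => ?_)).trans (Real.one_le_exp ?_)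
    · show cosT (θ p) = 1 ∧ sinT (θ p) = 0
      rw [h, cosT_zero, sinT_zero]
      exact ⟨rfl, rfl⟩
    · simpa using hK0
  · refine (one_charge hb α kk hkk hn h1 h2 h3 h4).trans (Real.exp_le_exp.2 ?_)
    have h5 := wt_sum hb α kk hkk hk1 n
    have h6 : ∑ j ∈ Finset.range n, (1 : ℝ) / 2 ^ (kk j) ≤ ∑' j, (1 : ℝ) / 2 ^ (kk j) :=
      hsum.sum_le_tsum _ fun j _ => by positivity
    have h7 : (α ^ 2 * b / 2 + KT b α) * (4 + 16 * ∑ j ∈ Finset.range n, 1 / 2 ^ (kk j)) ≤
        (α ^ 2 * b / 2 + KT b α) * (4 + 16 * ∑' j, (1 : ℝ) / 2 ^ (kk j)) :=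
      mul_le_mul_of_nonneg_left (by linarith) (by positivity)
    rw [hK1]
    linarith

end Vale.Agent.P159.H191
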